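import Vale.Agent.Lib.P226.Basic2

/-!
# P226, module BASE: the bound for three vectors
-/

namespace Vale.Agent.Lib.P226

open MeasureTheory ProbabilityTheory
open scoped ENNReal NNReal

theorem integral_Ioi_id_mul_exp :
    ∫ x in Set.Ioi (0 : ℝ), x * Real.exp (-x ^ 2 / 2) = 1 := by
  have h := integral_rpow_mul_exp_neg_mul_rpow (p := 2) (q := 1) (b := 1 / 2) (by norm_num)
    (by norm_num) (by norm_num)
  have e1 : (∫ x in Set.Ioi (0 : ℝ), x ^ (1 : ℝ) * Real.exp (-(1 / 2) * x ^ (2 : ℝ))) =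
      ∫ x in Set.Ioi (0 : ℝ), x * Real.exp (-x ^ 2 / 2) := by
    refine setIntegral_congr_fun measurableSet_Ioi fun x _ => ?_
    rw [Real.rpow_one, Real.rpow_two]
    congr 2
    ring
  rw [e1] at h
  rw [h]
  norm_num

/-- The first absolute moment of the standard Gaussian law. -/
theorem integral_abs_gaussianReal : ∫ y, |y| ∂(gaussianReal 0 1) = 2 / √(2 * Real.pi) := by
  rw [integral_gaussianReal_eq_integral_smul one_ne_zero]
  have h1 : ∀ x : ℝ, gaussianPDFReal 0 1 x • |x| =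
      (√(2 * Real.pi))⁻¹ * (|x| * Real.exp (-|x| ^ 2 / 2)) := by
    intro x
    simp only [gaussianPDFReal, smul_eq_mul, NNReal.coe_one, mul_one, sub_zero, sq_abs]
    ring
  simp_rw [h1]
  rw [integral_const_mul, integral_comp_abs (f := fun x => x * Real.exp (-x ^ 2 / 2)),
    integral_Ioi_id_mul_exp]
  ring

theorem map_inner_G {n : ℕ} (u : E n) :
    (G n).map (fun x => inner ℝ u x) = gaussianReal 0 (‖u‖ ^ 2).toNNReal := by
  have h := IsGaussian.map_eq_gaussianReal (μ := G n) (innerSL ℝ u)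
  rw [integral_strongDual_stdGaussian, variance_dual_stdGaussian, innerSL_apply_norm] at h
  exact h

theorem integral_abs_inner {n : ℕ} (u : E n) :
    ∫ x, |inner ℝ u x| ∂(G n) = ‖u‖ * (2 / √(2 * Real.pi)) := by
  have h1 : ∫ x, |inner ℝ u x| ∂(G n) = ∫ y, |y| ∂((G n).map (fun x => inner ℝ u x)) := by
    rw [integral_map]
    · exact (Measurable.const_inner measurable_id).aemeasurable
    · exact (continuous_abs).aestronglyMeasurable
  rw [h1, map_inner_G]
  have h2 : gaussianReal 0 (‖u‖ ^ 2).toNNReal = (gaussianReal 0 1).map (fun y => ‖u‖ * y) := by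
    rw [gaussianReal_map_const_mul]
    congr 1
    · simp
    · ext
      simp
  rw [h2, integral_map]
  · have h3 : ∀ y : ℝ, |‖u‖ * y| = ‖u‖ * |y| := fun y => by
      rw [abs_mul, abs_norm]
    simp_rw [h3]
    rw [integral_const_mul, integral_abs_gaussianReal]
  · exact (measurable_const_mul _).aemeasurable
  · exact (continuous_abs).aestronglyMeasurable

theorem iSup_fin_three (a : Fin 3 → ℝ) : ⨆ i, a i = max (a 0) (max (a 1) (a 2)) := by
  refine le_antisymm (ciSup_le fun i => ?_) ?_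
  · fin_cases i
    · exact le_max_left _ _
    · exact (le_max_left _ _).trans (le_max_right _ _)
    · exact (le_max_right _ _).trans (le_max_right _ _)
  · have hb : BddAbove (Set.range a) := (Set.finite_range a).bddAbove
    exact max_le (le_ciSup hb 0) (max_le (le_ciSup hb 1) (le_ciSup hb 2))

theorem max_three_add (a b c : ℝ) :
    max a (max b c) + max (-a) (max (-b) (-c)) = (|a - b| + |a - c| + |b - c|) / 2 := by
  rcases le_total a b with h1 | h1 <;> rcases le_total a c with h2 | h2 <;>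
    rcases le_total b c with h3 | h3 <;>
    simp [h1, h2, h3, abs_of_nonneg, abs_of_nonpos, sub_nonneg] <;> linarith

theorem hmax_neg {k n : ℕ} (v : Fin k → E n) : hmax (fun i => -v i) = hmax v :=
  hmax_congr_gram _ _ fun i j => by rw [inner_neg_neg]

theorem hmax_three {n : ℕ} (v : Fin 3 → E n) :
    hmax v = (‖v 0 - v 1‖ + ‖v 0 - v 2‖ + ‖v 1 - v 2‖) / (2 * √(2 * Real.pi)) := by
  have h1 : hmax v + hmax (fun i => -v i) =
      ∫ x, (|inner ℝ (v 0 - v 1) x| + |inner ℝ (v 0 - v 2) x| + |inner ℝ (v 1 - v 2) x|) / 2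
        ∂(G n) := by
    unfold hmax
    rw [← integral_add (integrable_iSup_inner v) (integrable_iSup_inner fun i => -v i)]
    congr 1
    funext x
    rw [iSup_fin_three, iSup_fin_three]
    simp only [inner_neg_left, inner_sub_left]
    exact max_three_add _ _ _
  have hi : ∀ u : E n, Integrable (fun x => |inner ℝ u x|) (G n) :=
    fun u => (integrable_inner_std u).abs
  have h2 : ∫ x, |inner ℝ (v 0 - v 1) x| + |inner ℝ (v 0 - v 2) x| + |inner ℝ (v 1 - v 2) x|
      ∂(G n) = ‖v 0 - v 1‖ * (2 / √(2 * Real.pi)) + ‖v 0 - v 2‖ * (2 / √(2 * Real.pi)) +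
        ‖v 1 - v 2‖ * (2 / √(2 * Real.pi)) := by
    rw [← integral_abs_inner, ← integral_abs_inner, ← integral_abs_inner,
      ← integral_add (hi _) (hi _)]
    exact integral_add ((hi (v 0 - v 1)).add (hi (v 0 - v 2))) (hi (v 1 - v 2))
  rw [hmax_neg, integral_div, h2] at h1
  have hp : 0 < √(2 * Real.pi) := Real.sqrt_pos.2 (by positivity)
  field_simp
  field_simp at h1
  linarith

theorem bound_three : Bound 3 := by
  intro n v
  rw [hmax_three, div_pow, mul_pow, Real.sq_sqrt (by positivity)]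
  unfold C0
  rw [Fin.sum_univ_three]
  have e : ∀ a b : E n, ‖a - b‖ ^ 2 = ‖a‖ ^ 2 + ‖b‖ ^ 2 - 2 * inner ℝ a b := by
    intro a b
    rw [norm_sub_sq_real]
    ring
  have h1 := e (v 0) (v 1)
  have h2 := e (v 0) (v 2)
  have h3 := e (v 1) (v 2)
  have h4 : 0 ≤ ‖v 0 + v 1 + v 2‖ ^ 2 := sq_nonneg _
  rw [← real_inner_self_eq_norm_sq] at h4
  simp only [inner_add_left, inner_add_right, real_inner_self_eq_norm_sq] at h4
  rw [real_inner_comm (v 0) (v 1), real_inner_comm (v 0) (v 2), real_inner_comm (v 1) (v 2)] at h4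
  set l1 := ‖v 0 - v 1‖
  set l2 := ‖v 0 - v 2‖
  set l3 := ‖v 1 - v 2‖
  have h5 : (l1 + l2 + l3) ^ 2 ≤ 3 * (l1 ^ 2 + l2 ^ 2 + l3 ^ 2) := by
    nlinarith [sq_nonneg (l1 - l2), sq_nonneg (l1 - l3), sq_nonneg (l2 - l3)]
  have h6 : (l1 + l2 + l3) ^ 2 ≤ 9 * (‖v 0‖ ^ 2 + ‖v 1‖ ^ 2 + ‖v 2‖ ^ 2) := by
    nlinarith
  rw [div_le_iff₀ (by positivity)]
  have hpi : 0 < Real.pi := Real.pi_pos
  calc (l1 + l2 + l3) ^ 2 ≤ 9 * (‖v 0‖ ^ 2 + ‖v 1‖ ^ 2 + ‖v 2‖ ^ 2) := h6
    _ = 9 / (8 * Real.pi) * (‖v 0‖ ^ 2 + ‖v 1‖ ^ 2 + ‖v 2‖ ^ 2) * (2 ^ 2 * (2 * Real.pi)) := by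
        field_simp
        ring

end Vale.Agent.Lib.P226
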