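import Vale.Agent.Lib.P226.Defs

/-!
# P226, module BASIC2: Gram matrix invariance and shift invariance of the expected maximum
-/

namespace Vale.Agent.Lib.P226

open MeasureTheory ProbabilityTheory
open scoped ENNReal

/-- The vector of inner products. -/
noncomputable def innV {k n : ℕ} (v : Fin k → E n) (x : E n) : E k :=
  WithLp.toLp 2 (fun i => inner ℝ (v i) x)

theorem measurable_innV {k n : ℕ} (v : Fin k → E n) : Measurable (innV v) := by
  unfold innV
  refine (WithLp.measurable_toLp 2 _).comp ?_
  exact measurable_pi_lambda _ fun i => Measurable.const_inner measurable_id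

theorem charFun_map_innV {k n : ℕ} (v : Fin k → E n) (t : E k) :
    charFun ((G n).map (innV v)) t = Complex.exp (-‖∑ i, t i • v i‖ ^ 2 / 2) := by
  rw [charFun_apply, integral_map (measurable_innV v).aemeasurable (by fun_prop),
    ← charFun_stdGaussian, charFun_apply]
  congr 1
  funext x
  congr 2
  unfold innV
  rw [PiLp.inner_apply, inner_sum]
  congr 1
  refine Finset.sum_congr rfl fun i _ => ?_
  rw [inner_smul_right, real_inner_comm (v i) x]
  simp

theorem norm_sum_sq_eq {k n : ℕ} (v : Fin k → E n) (t : E k) :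
    ‖∑ i, t i • v i‖ ^ 2 = ∑ i, ∑ j, t i * t j * inner ℝ (v i) (v j) := by
  rw [← real_inner_self_eq_norm_sq, sum_inner]
  refine Finset.sum_congr rfl fun i _ => ?_
  rw [inner_sum]
  refine Finset.sum_congr rfl fun j _ => ?_
  rw [inner_smul_left, inner_smul_right]
  simp [mul_assoc]

theorem map_innV_congr {k m n : ℕ} (v : Fin k → E m) (w : Fin k → E n)
    (h : ∀ i j, inner ℝ (v i) (v j) = inner ℝ (w i) (w j)) :
    (G m).map (innV v) = (G n).map (innV w) := by
  apply Measure.ext_of_charFun (E := E k)
  funext t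
  have hN : ‖∑ i, t i • v i‖ ^ 2 = ‖∑ i, t i • w i‖ ^ 2 := by
    rw [norm_sum_sq_eq, norm_sum_sq_eq]
    refine Finset.sum_congr rfl fun i _ => Finset.sum_congr rfl fun j _ => ?_
    rw [h]
  rw [charFun_map_innV, charFun_map_innV, ← Complex.ofReal_pow, ← Complex.ofReal_pow, hN]

theorem hmax_eq_map {k n : ℕ} (v : Fin k → E n) :
    hmax v = ∫ y, (⨆ i, y i) ∂((G n).map (innV v)) := by
  rw [integral_map (measurable_innV v).aemeasurable]
  · rfl
  · refine Measurable.aestronglyMeasurable ?_
    exact Measurable.iSup fun i => by fun_prop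

/-- the expected maximum only depends on the Gram matrix -/
theorem hmax_congr_gram {k m n : ℕ} (v : Fin k → E m) (w : Fin k → E n)
    (h : ∀ i j, inner ℝ (v i) (v j) = inner ℝ (w i) (w j)) : hmax v = hmax w := by
  rw [hmax_eq_map, hmax_eq_map, map_innV_congr v w h]

theorem integrable_inner_std {n : ℕ} (v : E n) : Integrable (fun x => inner ℝ v x) (G n) := by
  have h : Integrable (fun x : E n => x) (G n) := IsGaussian.integrable_id
  exact Integrable.const_inner v h

theorem integral_inner_std {n : ℕ} (v : E n) : ∫ x, inner ℝ v x ∂(G n) = 0 := by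
  have h : Integrable (fun x : E n => x) (G n) := IsGaussian.integrable_id
  rw [integral_inner h, integral_id_stdGaussian, inner_zero_right]

theorem abs_iSup_le_sum {k : ℕ} (hk : 0 < k) (a : Fin k → ℝ) : |⨆ i, a i| ≤ ∑ i, |a i| := by
  have : Nonempty (Fin k) := ⟨⟨0, hk⟩⟩
  obtain ⟨i, hi⟩ := exists_eq_ciSup_of_finite (f := a)
  rw [← hi]
  exact Finset.single_le_sum (f := fun i => |a i|) (fun j _ => abs_nonneg _) (Finset.mem_univ i)

theorem integrable_iSup_inner {k n : ℕ} (v : Fin k → E n) :
    Integrable (fun x => ⨆ i, inner ℝ (v i) x) (G n) := by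
  rcases Nat.eq_zero_or_pos k with rfl | hk
  · have : (fun x : E n => ⨆ i, inner ℝ (v i) x) = fun _ => (0 : ℝ) := by
      funext x
      exact Real.iSup_of_isEmpty _
    rw [this]
    exact integrable_const _
  · have h1 : Integrable (fun x => ∑ i, |inner ℝ (v i) x|) (G n) :=
      integrable_finsetSum _ fun i _ => (integrable_inner_std (v i)).abs
    refine h1.mono' ?_ (ae_of_all _ fun x => ?_)
    · refine Measurable.aestronglyMeasurable ?_
      exact Measurable.iSup fun i => Measurable.const_inner measurable_id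
    · rw [Real.norm_eq_abs]
      exact abs_iSup_le_sum hk _

theorem iSup_sub_const {k : ℕ} (hk : 0 < k) (a : Fin k → ℝ) (c : ℝ) :
    ⨆ i, (a i - c) = (⨆ i, a i) - c := by
  have : Nonempty (Fin k) := ⟨⟨0, hk⟩⟩
  obtain ⟨i, hi⟩ := exists_eq_ciSup_of_finite (f := a)
  refine le_antisymm ?_ ?_
  · refine ciSup_le fun j => ?_
    exact sub_le_sub_right (le_ciSup (Set.finite_range a).bddAbove j) c
  · rw [← hi]
    exact le_ciSup (f := fun i => a i - c) (Set.finite_range _).bddAbove i

/-- shift invariance -/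
theorem hmax_sub {k n : ℕ} (hk : 0 < k) (v : Fin k → E n) (w : E n) :
    hmax (fun i => v i - w) = hmax v := by
  unfold hmax
  have h1 : ∀ x : E n, ⨆ i, inner ℝ (v i - w) x = (⨆ i, inner ℝ (v i) x) - inner ℝ w x := by
    intro x
    rw [← iSup_sub_const hk]
    congr 1
    funext i
    rw [inner_sub_left]
  simp_rw [h1]
  rw [integral_sub (integrable_iSup_inner v) (integrable_inner_std w), integral_inner_std, sub_zero]

/-- zero-sum families of `n+1` vectors can be moved to dimension `n`, with the same Gram matrix -/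
theorem exists_gram_dim {n m : ℕ} (v : Fin (n + 1) → E m) (h : ∑ i, v i = 0) :
    ∃ w : Fin (n + 1) → E n, ∀ i j, inner ℝ (w i) (w j) = inner ℝ (v i) (v j) := by
  classical
  let S : Submodule ℝ (E m) := Submodule.span ℝ (Set.range fun i : Fin n => v i.castSucc)
  have hS : Module.finrank ℝ S ≤ n := by
    have h1 := finrank_range_le_card (R := ℝ) (fun i : Fin n => v i.castSucc)
    rw [Fintype.card_fin] at h1
    exact h1
  have hv : ∀ i, v i ∈ S := by
    intro i
    refine Fin.lastCases ?_ (fun j => Submodule.subset_span ⟨j, rfl⟩) i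
    rw [Fin.sum_univ_castSucc] at h
    have h2 : v (Fin.last n) = - ∑ j : Fin n, v j.castSucc := eq_neg_of_add_eq_zero_right h
    rw [h2]
    exact S.neg_mem (S.sum_mem fun j _ => Submodule.subset_span ⟨j, rfl⟩)
  let b := stdOrthonormalBasis ℝ S
  let f : S →ₗ[ℝ] E n := b.toBasis.constr ℝ
    (fun j => EuclideanSpace.basisFun (Fin n) ℝ (Fin.castLE hS j))
  have hf : Orthonormal ℝ (f ∘ b.toBasis) := by
    have h3 : (f ∘ b.toBasis) =
        fun j => EuclideanSpace.basisFun (Fin n) ℝ (Fin.castLE hS j) := by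
      funext j
      simp [f]
    rw [h3]
    exact (EuclideanSpace.basisFun (Fin n) ℝ).orthonormal.comp _ (Fin.castLE_injective hS)
  have hb : Orthonormal ℝ b.toBasis := by
    rw [b.coe_toBasis]
    exact b.orthonormal
  let L : S →ₗᵢ[ℝ] E n := f.isometryOfOrthonormal hb hf
  refine ⟨fun i => L ⟨v i, hv i⟩, fun i j => ?_⟩
  rw [L.inner_map_map]
  rfl

end Vale.Agent.Lib.P226
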