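import Vale.Agent.Lib.P226.Defs
import Vale.Agent.Lib.P226.Basic2

/-!
# P226: existence of a critical configuration
-/

namespace Vale.Agent.Lib.P226

open MeasureTheory ProbabilityTheory Set

namespace CritAux

variable {n k : ℕ}

theorem integrable_id_G (n : ℕ) : Integrable (fun x : E n => x) (G n) :=
  IsGaussian.integrable_id

theorem integrable_inner_G (v : E n) : Integrable (fun x => inner ℝ v x) (G n) :=
  (integrable_id_G n).const_inner v

theorem integral_inner_G (v : E n) : ∫ x, inner ℝ v x ∂(G n) = 0 := by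
  rw [integral_inner (integrable_id_G n) v]
  have : ∫ x, x ∂(G n) = 0 := integral_id_stdGaussian
  rw [this, inner_zero_right]

theorem le_sup (v : Fin k → E n) (x : E n) (i : Fin k) :
    inner ℝ (v i) x ≤ ⨆ i, inner ℝ (v i) x :=
  le_ciSup (f := fun i => inner ℝ (v i) x) (Set.finite_range _).bddAbove i

theorem measurable_sup (v : Fin k → E n) : Measurable (fun x => ⨆ i, inner ℝ (v i) x) :=
  Measurable.iSup fun i => by fun_prop

theorem abs_sup_sub_le (hk : 0 < k) (v w : Fin k → E n) (x : E n) :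
    |(⨆ i, inner ℝ (v i) x) - ⨆ i, inner ℝ (w i) x| ≤ (∑ i, ‖v i - w i‖) * ‖x‖ := by
  have : Nonempty (Fin k) := ⟨⟨0, hk⟩⟩
  have key : ∀ a b : Fin k → E n, (⨆ i, inner ℝ (a i) x) - (⨆ i, inner ℝ (b i) x)
      ≤ (∑ i, ‖a i - b i‖) * ‖x‖ := by
    intro a b
    rw [sub_le_iff_le_add]
    refine ciSup_le fun i => ?_
    have h1 : inner ℝ (a i) x = inner ℝ (a i - b i) x + inner ℝ (b i) x := by
      rw [inner_sub_left]; ring
    rw [h1]
    have h2 : inner ℝ (a i - b i) x ≤ ‖a i - b i‖ * ‖x‖ := real_inner_le_norm _ _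
    have h3 : ‖a i - b i‖ ≤ ∑ i, ‖a i - b i‖ :=
      Finset.single_le_sum (f := fun i => ‖a i - b i‖) (fun _ _ => norm_nonneg _)
        (Finset.mem_univ i)
    have h4 := le_sup b x i
    have h5 : ‖a i - b i‖ * ‖x‖ ≤ (∑ i, ‖a i - b i‖) * ‖x‖ :=
      mul_le_mul_of_nonneg_right h3 (norm_nonneg _)
    linarith
  rw [abs_le]
  constructor
  · have := key w v
    have e : (∑ i, ‖w i - v i‖) = ∑ i, ‖v i - w i‖ :=
      Finset.sum_congr rfl fun i _ => norm_sub_rev _ _
    rw [e] at this
    linarith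
  · exact key v w

theorem integrable_sup (hk : 0 < k) (v : Fin k → E n) :
    Integrable (fun x => ⨆ i, inner ℝ (v i) x) (G n) := by
  have : Nonempty (Fin k) := ⟨⟨0, hk⟩⟩
  refine Integrable.mono' ((integrable_id_G n).norm.const_mul (∑ i, ‖v i - 0‖))
    (measurable_sup v).aestronglyMeasurable (Filter.Eventually.of_forall fun x => ?_)
  have := abs_sup_sub_le hk v (fun _ => 0) x
  simpa using this

theorem abs_hmax_sub_le (hk : 0 < k) (v w : Fin k → E n) :
    |hmax v - hmax w| ≤ (∑ i, ‖v i - w i‖) * ∫ x, ‖x‖ ∂(G n) := by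
  unfold hmax
  rw [← integral_sub (integrable_sup hk v) (integrable_sup hk w)]
  refine (abs_integral_le_integral_abs).trans ?_
  rw [← integral_const_mul]
  refine integral_mono_of_nonneg (Filter.Eventually.of_forall fun x => abs_nonneg _)
    ((integrable_id_G n).norm.const_mul _) (Filter.Eventually.of_forall fun x => ?_)
  exact abs_sup_sub_le hk v w x

theorem continuous_hmax (hk : 0 < k) : Continuous (fun v : Fin k → E n => hmax v) := by
  rw [continuous_iff_continuousAt]
  intro v
  rw [ContinuousAt, tendsto_iff_norm_sub_tendsto_zero]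
  refine squeeze_zero (fun _ => norm_nonneg _)
    (fun w => (abs_hmax_sub_le hk w v)) ?_
  have : Continuous (fun w : Fin k → E n => (∑ i, ‖w i - v i‖) * ∫ x, ‖x‖ ∂(G n)) := by
    fun_prop
  have h2 := this.tendsto v
  simpa using h2

theorem hmax_nonneg (hk : 0 < k) (v : Fin k → E n) : 0 ≤ hmax v := by
  rw [← integral_inner_G (v ⟨0, hk⟩)]
  exact integral_mono (integrable_inner_G _) (integrable_sup hk v) fun x => le_sup v x _

theorem hmax_smul {c : ℝ} (hc : 0 ≤ c) (v : Fin k → E n) :
    hmax (fun i => c • v i) = c * hmax v := by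
  unfold hmax
  rw [← integral_const_mul]
  refine integral_congr_ae (Filter.Eventually.of_forall fun x => ?_)
  simp only [real_inner_smul_left]
  rw [Real.mul_iSup_of_nonneg hc]

/-- The partition lower bound for `∫ sup`. -/
theorem partition_le {m : ℕ} (hk : 0 < k) (v : Fin k → E n) (A : Fin m → Set (E n))
    (hA : ∀ i, MeasurableSet (A i)) (hd : Pairwise (Function.onFun Disjoint A))
    (hu : ⋃ i, A i = Set.univ) (w : Fin m → E n)
    (hw : ∀ i x, inner ℝ (w i) x ≤ ⨆ j, inner ℝ (v j) x) :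
    ∑ i, inner ℝ (w i) (∫ x in A i, x ∂(G n)) ≤ hmax v := by
  have h1 : hmax v = ∑ i, ∫ x in A i, (⨆ j, inner ℝ (v j) x) ∂(G n) := by
    unfold hmax
    rw [← integral_iUnion_fintype hA hd (fun i => (integrable_sup hk v).integrableOn), hu,
      Measure.restrict_univ]
  rw [h1]
  refine Finset.sum_le_sum fun i _ => ?_
  rw [← integral_inner (integrable_id_G n).integrableOn (w i)]
  exact integral_mono (integrable_inner_G _).integrableOn (integrable_sup hk v).integrableOn
    (fun x => hw i x)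

/-- Tie-broken cells. -/
def tcell (z : Fin k → E n) (i : Fin k) : Set (E n) :=
  {x | (∀ j, inner ℝ (z j) x ≤ inner ℝ (z i) x) ∧ ∀ j, j < i → inner ℝ (z j) x < inner ℝ (z i) x}

theorem measurableSet_tcell (z : Fin k → E n) (i : Fin k) : MeasurableSet (tcell z i) := by
  have e : tcell z i = (⋂ j, {x | inner ℝ (z j) x ≤ inner ℝ (z i) x}) ∩
      ⋂ j, ⋂ (_ : j < i), {x | inner ℝ (z j) x < inner ℝ (z i) x} := by
    ext x; simp [tcell]
  rw [e]
  refine MeasurableSet.inter (MeasurableSet.iInter fun j => ?_)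
    (MeasurableSet.iInter fun j => MeasurableSet.iInter fun _ => ?_)
  · exact measurableSet_le (by fun_prop) (by fun_prop)
  · exact measurableSet_lt (by fun_prop) (by fun_prop)

theorem tcell_disjoint (z : Fin k → E n) : Pairwise (Function.onFun Disjoint (tcell z)) := by
  intro i j hij
  rw [Function.onFun, Set.disjoint_left]
  intro x hi hj
  rcases lt_or_gt_of_ne hij with h | h
  · exact absurd (hj.2 i h) (not_lt.2 (hi.1 j))
  · exact absurd (hi.2 j h) (not_lt.2 (hj.1 i))

theorem tcell_union (hk : 0 < k) (z : Fin k → E n) : ⋃ i, tcell z i = Set.univ := by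
  have : Nonempty (Fin k) := ⟨⟨0, hk⟩⟩
  rw [Set.eq_univ_iff_forall]
  intro x
  rw [mem_iUnion]
  let S : Finset (Fin k) := Finset.univ.filter fun i => ∀ j, inner ℝ (z j) x ≤ inner ℝ (z i) x
  have hS : S.Nonempty := by
    obtain ⟨i, hi⟩ := Finite.exists_max (fun i => inner ℝ (z i) x)
    exact ⟨i, by simp [S, hi]⟩
  refine ⟨S.min' hS, ?_, ?_⟩
  · have := S.min'_mem hS
    simp only [S, Finset.mem_filter, Finset.mem_univ, true_and] at this
    exact this
  · intro j hj
    have h1 := S.min'_mem hS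
    simp only [S, Finset.mem_filter, Finset.mem_univ, true_and] at h1
    have h2 : j ∉ S := fun h => absurd (S.min'_le j h) (not_le.2 hj)
    simp only [S, Finset.mem_filter, Finset.mem_univ, true_and, not_forall, not_le] at h2
    obtain ⟨l, hl⟩ := h2
    exact hl.trans_le (h1 l)

theorem sup_eq_of_mem_tcell (z : Fin k → E n) (i : Fin k) {x : E n} (hx : x ∈ tcell z i) :
    (⨆ j, inner ℝ (z j) x) = inner ℝ (z i) x := by
  have : Nonempty (Fin k) := ⟨i⟩
  exact le_antisymm (ciSup_le hx.1) (le_sup z x i)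

theorem hmax_eq_sum (hk : 0 < k) (v : Fin k → E n) :
    hmax v = ∑ i, inner ℝ (v i) (∫ x in tcell v i, x ∂(G n)) := by
  have h1 : hmax v = ∑ i, ∫ x in tcell v i, (⨆ j, inner ℝ (v j) x) ∂(G n) := by
    unfold hmax
    rw [← integral_iUnion_fintype (measurableSet_tcell v) (tcell_disjoint v)
      (fun i => (integrable_sup hk v).integrableOn), tcell_union hk v, Measure.restrict_univ]
  rw [h1]
  refine Finset.sum_congr rfl fun i _ => ?_
  rw [← integral_inner (integrable_id_G n).integrableOn (v i)]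
  exact setIntegral_congr_fun (measurableSet_tcell v i) fun x hx => sup_eq_of_mem_tcell v i hx

/-- hyperplanes are null -/
theorem hyperplane_null (u : E n) (hu : u ≠ 0) : G n {x | inner ℝ u x = 0} = 0 := by
  have h1 : (G n).map (innerSL ℝ u) = gaussianReal 0 (‖u‖ ^ 2).toNNReal := by
    rw [IsGaussian.map_eq_gaussianReal, integral_strongDual_stdGaussian,
      variance_dual_stdGaussian, innerSL_apply_norm]
  have h2 : (‖u‖ ^ 2).toNNReal ≠ 0 := by
    rw [Ne, Real.toNNReal_eq_zero, not_le]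
    have := norm_pos_iff.2 hu
    positivity
  have := nullSingletonClass_gaussianReal (μ := 0) h2
  have h3 : (G n).map (innerSL ℝ u) {0} = 0 := by
    rw [h1]; exact measure_singleton 0
  rw [Measure.map_apply (innerSL ℝ u).continuous.measurable (measurableSet_singleton 0)] at h3
  exact h3

theorem cell_ae_eq (z : Fin k → E n) (hz : ∀ i j, i ≠ j → z i ≠ z j) (i : Fin k) :
    cell z i =ᵐ[G n] tcell z i := by
  have hsub : cell z i ⊆ tcell z i := by
    intro x hx
    refine ⟨fun j => ?_, fun j hj => hx j hj.ne⟩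
    by_cases h : j = i
    · rw [h]
    · exact (hx j h).le
  refine Filter.EventuallyLE.antisymm hsub.eventuallyLE ?_
  rw [ae_le_set]
  have h2 : tcell z i \ cell z i ⊆ ⋃ j, ⋃ (_ : j ≠ i), {x | inner ℝ (z i - z j) x = 0} := by
    rintro x ⟨hx1, hx2⟩
    simp only [cell, mem_ofPred_eq, not_forall, not_lt] at hx2
    obtain ⟨j, hj, hj2⟩ := hx2
    simp only [mem_iUnion]
    refine ⟨j, hj, ?_⟩
    simp only [mem_ofPred_eq, inner_sub_left]
    have := hx1.1 j
    linarith
  refine measure_mono_null h2 ?_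
  rw [measure_iUnion_null_iff]
  intro j
  rw [measure_iUnion_null_iff]
  intro hj
  exact hyperplane_null _ (sub_ne_zero.2 (hz i j hj.symm))

end CritAux

open CritAux

/-- Auxiliary form of `exists_crit`, with the Gram-matrix facts as hypotheses. -/
theorem exists_crit_aux
    (hgram : ∀ {k m n : ℕ} (v : Fin k → E m) (w : Fin k → E n)
      (_ : ∀ i j, inner ℝ (v i) (v j) = inner ℝ (w i) (w j)), hmax v = hmax w)
    (hsub : ∀ {k n : ℕ} (_ : 0 < k) (v : Fin k → E n) (w : E n),
      hmax (fun i => v i - w) = hmax v)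
    (hdim : ∀ {n m : ℕ} (v : Fin (n + 1) → E m) (_ : ∑ i, v i = 0),
      ∃ w : Fin (n + 1) → E n, ∀ i j, inner ℝ (w i) (w j) = inner ℝ (v i) (v j))
    {n : ℕ} (hn : 2 ≤ n) (h1 : Bound n) (h2 : ¬ Bound (n + 1)) :
    ∃ z : Fin (n + 1) → E n, Crit n z := by
  have hC0 : 0 < C0 := by unfold C0; positivity
  have hk : 0 < n + 1 := Nat.succ_pos n
  -- a violating configuration
  unfold Bound at h2
  push Not at h2
  obtain ⟨m, v, hv⟩ := h2
  -- center it
  obtain ⟨u, hu⟩ : ∃ u : Fin (n + 1) → E n, C0 * ∑ i, ‖u i‖ ^ 2 < hmax u ^ 2 := by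
    set w : E m := ((n : ℝ) + 1)⁻¹ • ∑ i, v i with hw
    have hn1 : ((n : ℝ) + 1) ≠ 0 := by positivity
    have hsw : ∑ i, v i = ((n : ℝ) + 1) • w := by
      rw [hw, smul_smul, mul_inv_cancel₀ hn1, one_smul]
    have hs0 : ∑ i, (v i - w) = 0 := by
      rw [Finset.sum_sub_distrib, hsw]
      simp only [Finset.sum_const, Finset.card_univ, Fintype.card_fin]
      rw [← Nat.cast_smul_eq_nsmul ℝ]
      push_cast
      rw [sub_self]
    obtain ⟨u, hu⟩ := hdim (fun i => v i - w) hs0
    refine ⟨u, ?_⟩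
    have e1 : hmax u = hmax v := by
      rw [hgram u (fun i => v i - w) hu, hsub hk]
    have e2 : ∑ i, ‖u i‖ ^ 2 = ∑ i, ‖v i - w‖ ^ 2 := by
      refine Finset.sum_congr rfl fun i _ => ?_
      rw [← real_inner_self_eq_norm_sq, ← real_inner_self_eq_norm_sq, hu]
    have e3 : ∑ i, ‖v i - w‖ ^ 2 = ∑ i, ‖v i‖ ^ 2 - ((n : ℝ) + 1) * ‖w‖ ^ 2 := by
      have : ∀ i, ‖v i - w‖ ^ 2 = ‖v i‖ ^ 2 - 2 * inner ℝ (v i) w + ‖w‖ ^ 2 :=
        fun i => norm_sub_sq_real _ _
      simp_rw [this]
      rw [Finset.sum_add_distrib, Finset.sum_sub_distrib, ← Finset.mul_sum, ← sum_inner, hsw,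
        real_inner_smul_left, real_inner_self_eq_norm_sq]
      simp only [Finset.sum_const, Finset.card_univ, Fintype.card_fin, nsmul_eq_mul]
      push_cast
      ring
    rw [e1, e2, e3]
    refine lt_of_le_of_lt ?_ hv
    refine mul_le_mul_of_nonneg_left ?_ hC0.le
    have : 0 ≤ ((n : ℝ) + 1) * ‖w‖ ^ 2 := by positivity
    linarith
  -- the sphere
  set S : Set (Fin (n + 1) → E n) := {v | ∑ i, ‖v i‖ ^ 2 = 1} with hS
  have hScl : IsClosed S := by
    refine isClosed_eq ?_ continuous_const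
    fun_prop
  have hSb : Bornology.IsBounded S := by
    refine (Metric.isBounded_closedBall (x := (0 : Fin (n + 1) → E n)) (r := 1)).subset ?_
    intro v hv
    rw [mem_closedBall_zero_iff, pi_norm_le_iff_of_nonneg zero_le_one]
    intro i
    have h3 : ‖v i‖ ^ 2 ≤ ∑ i, ‖v i‖ ^ 2 :=
      Finset.single_le_sum (f := fun i => ‖v i‖ ^ 2) (fun _ _ => by positivity)
        (Finset.mem_univ i)
    have h4 : ∑ i, ‖v i‖ ^ 2 = 1 := hv
    have h5 : ‖v i‖ ^ 2 ≤ 1 := h3.trans_eq h4
    exact (sq_le_one_iff₀ (norm_nonneg _)).1 h5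
  have hScomp : IsCompact S := Metric.isCompact_of_isClosed_isBounded hScl hSb
  -- normalisation
  have hnorm : ∀ w : Fin (n + 1) → E n, 0 < ∑ i, ‖w i‖ ^ 2 →
      (fun i => (Real.sqrt (∑ i, ‖w i‖ ^ 2))⁻¹ • w i) ∈ S := by
    intro w hw
    simp only [hS, mem_ofPred_eq, norm_smul, mul_pow]
    rw [← Finset.mul_sum]
    rw [norm_inv, inv_pow, Real.norm_of_nonneg (Real.sqrt_nonneg _), Real.sq_sqrt hw.le]
    exact inv_mul_cancel₀ hw.ne'
  have hu0 : 0 < ∑ i, ‖u i‖ ^ 2 := by
    rcases (Finset.sum_nonneg (s := Finset.univ) (f := fun i => ‖u i‖ ^ 2)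
      (fun i _ => by positivity)).lt_or_eq with h | h
    · exact h
    · exfalso
      have hz : ∀ i, u i = 0 := by
        intro i
        have := (Finset.sum_eq_zero_iff_of_nonneg (s := Finset.univ)
          (f := fun i => ‖u i‖ ^ 2) (fun i _ => by positivity)).1 h.symm i (Finset.mem_univ i)
        simpa using this
      have hh : hmax u = 0 := by
        unfold hmax
        simp [hz]
      rw [hh] at hu
      simp only [hz] at hu
      simp at hu
  have hScale : ∀ w : Fin (n + 1) → E n, 0 < ∑ i, ‖w i‖ ^ 2 →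
      hmax w = Real.sqrt (∑ i, ‖w i‖ ^ 2) *
        hmax (fun i => (Real.sqrt (∑ i, ‖w i‖ ^ 2))⁻¹ • w i) := by
    intro w hw
    rw [← hmax_smul (Real.sqrt_nonneg _)]
    congr 1
    funext i
    rw [smul_smul, mul_inv_cancel₀ (Real.sqrt_pos.2 hw).ne', one_smul]
  obtain ⟨v, hvS, hvmax⟩ := hScomp.exists_isMaxOn ⟨_, hnorm u hu0⟩
    (continuous_hmax (n := n) hk).continuousOn
  set M := hmax v with hM
  have hM0 : 0 ≤ M := hmax_nonneg hk v
  have hMle : ∀ w : Fin (n + 1) → E n, hmax w ≤ Real.sqrt (∑ i, ‖w i‖ ^ 2) * M := by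
    intro w
    rcases (Finset.sum_nonneg (s := Finset.univ) (f := fun i => ‖w i‖ ^ 2)
      (fun i _ => by positivity)).lt_or_eq with h | h
    · rw [hScale w h]
      exact mul_le_mul_of_nonneg_left (hvmax (hnorm w h)) (Real.sqrt_nonneg _)
    · have hz : ∀ i, w i = 0 := by
        intro i
        have := (Finset.sum_eq_zero_iff_of_nonneg (s := Finset.univ)
          (f := fun i => ‖w i‖ ^ 2) (fun i _ => by positivity)).1 h.symm i (Finset.mem_univ i)
        simpa using this
      have hh : hmax w = 0 := by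
        unfold hmax
        simp [hz]
      rw [hh]
      positivity
  have hMC : C0 < M ^ 2 := by
    have h3 := hMle u
    have h4 : hmax u ^ 2 ≤ (∑ i, ‖u i‖ ^ 2) * M ^ 2 := by
      have := pow_le_pow_left₀ (hmax_nonneg hk u) h3 2
      rwa [mul_pow, Real.sq_sqrt hu0.le] at this
    have h5 : C0 * ∑ i, ‖u i‖ ^ 2 < M ^ 2 * ∑ i, ‖u i‖ ^ 2 := by
      refine hu.trans_le (h4.trans_eq ?_)
      ring
    exact lt_of_mul_lt_mul_right h5 hu0.le
  have hMpos : 0 < M := by
    rcases hM0.lt_or_eq with h | h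
    · exact h
    · rw [← h] at hMC; norm_num at hMC; linarith
  -- the moments of the cells
  set ζ : Fin (n + 1) → E n := fun i => ∫ x in tcell v i, x ∂(G n) with hζ
  have hvS' : ∑ i, ‖v i‖ ^ 2 = 1 := hvS
  have hMsum : M = ∑ i, inner ℝ (v i) (ζ i) := hmax_eq_sum hk v
  set P := ∑ i, ‖ζ i‖ ^ 2 with hP
  have hP0 : 0 ≤ P := Finset.sum_nonneg fun i _ => by positivity
  have hPle : P ≤ Real.sqrt P * M := by
    have h3 := partition_le hk ζ (tcell v) (measurableSet_tcell v) (tcell_disjoint v)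
      (tcell_union hk v) ζ (fun i x => le_sup ζ x i)
    have h4 : ∑ i, inner ℝ (ζ i) (∫ x in tcell v i, x ∂(G n)) = P := by
      refine Finset.sum_congr rfl fun i _ => ?_
      exact real_inner_self_eq_norm_sq _
    rw [h4] at h3
    exact h3.trans (hMle ζ)
  have hPM : P ≤ M ^ 2 := by
    have h3 : Real.sqrt P * Real.sqrt P = P := Real.mul_self_sqrt hP0
    have h4 : Real.sqrt P ≤ M := by
      by_contra hcon
      rw [not_le] at hcon
      have h5 : 0 < Real.sqrt P := hM0.trans_lt hcon
      nlinarith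
    calc P = Real.sqrt P * Real.sqrt P := h3.symm
      _ ≤ M * M := mul_self_le_mul_self (Real.sqrt_nonneg _) h4
      _ = M ^ 2 := by ring
  have hzero : ∑ i, ‖ζ i - M • v i‖ ^ 2 = P - M ^ 2 := by
    have : ∀ i, ‖ζ i - M • v i‖ ^ 2 = ‖ζ i‖ ^ 2 - 2 * M * inner ℝ (v i) (ζ i)
        + M ^ 2 * ‖v i‖ ^ 2 := by
      intro i
      rw [norm_sub_sq_real, real_inner_smul_right, norm_smul, mul_pow,
        Real.norm_of_nonneg hM0, real_inner_comm]
      ring
    simp_rw [this]
    rw [Finset.sum_add_distrib, Finset.sum_sub_distrib, ← Finset.mul_sum, ← Finset.mul_sum,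
      ← hMsum, hvS']
    ring
  have hζv : ∀ i, ζ i = M • v i := by
    intro i
    have h3 : ∑ i, ‖ζ i - M • v i‖ ^ 2 ≤ 0 := by rw [hzero]; linarith
    have h4 : ‖ζ i - M • v i‖ ^ 2 ≤ ∑ i, ‖ζ i - M • v i‖ ^ 2 :=
      Finset.single_le_sum (f := fun i => ‖ζ i - M • v i‖ ^ 2) (fun _ _ => by positivity)
        (Finset.mem_univ i)
    have h5 : ‖ζ i - M • v i‖ ^ 2 = 0 := le_antisymm (h4.trans h3) (by positivity)
    have h6 : ‖ζ i - M • v i‖ = 0 := by simpa using h5
    exact sub_eq_zero.1 (norm_eq_zero.1 h6)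
  have htc : ∀ i, tcell ζ i = tcell v i := by
    intro i
    ext x
    simp only [tcell, mem_ofPred_eq, hζv, real_inner_smul_left]
    constructor
    · rintro ⟨ha, hb⟩
      exact ⟨fun j => le_of_mul_le_mul_left (ha j) hMpos,
        fun j hj => lt_of_mul_lt_mul_left (hb j hj) hMpos.le⟩
    · rintro ⟨ha, hb⟩
      exact ⟨fun j => mul_le_mul_of_nonneg_left (ha j) hMpos.le,
        fun j hj => mul_lt_mul_of_pos_left (hb j hj) hMpos⟩
  have hmom : ∀ i, ∫ x in tcell ζ i, x ∂(G n) = ζ i := by
    intro i; rw [htc i]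
  have hF : ∑ i, ‖ζ i‖ ^ 2 = M ^ 2 := by
    have : ∀ i, ‖ζ i‖ ^ 2 = M ^ 2 * ‖v i‖ ^ 2 := by
      intro i; rw [hζv, norm_smul, mul_pow, Real.norm_of_nonneg hM0]
    simp_rw [this]
    rw [← Finset.mul_sum, hvS', mul_one]
  have hneg : ∀ i j, i ≠ j → inner ℝ (ζ i) (ζ j) < 0 := by
    intro i j hij
    by_contra hcon
    rw [not_lt] at hcon
    obtain ⟨i', hi'⟩ := Fin.exists_succAbove_eq hij
    -- merged vectors
    let w : Fin n → E n := fun l => ζ (j.succAbove l) + if l = i' then ζ j else 0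
    let y : Fin (n + 1) → E n := fun m => ζ m + if m = i then ζ j else if m = j then ζ i else 0
    have hn0 : 0 < n := by omega
    have hyw : ∀ m x, inner ℝ (y m) x ≤ ⨆ l, inner ℝ (w l) x := by
      intro m x
      by_cases hm : m = j
      · have e : y m = w i' := by
          simp only [y, w, hm, if_true, hi', hij.symm, if_false]
          rw [add_comm]
        rw [e]; exact le_sup w x i'
      · obtain ⟨l, hl⟩ := Fin.exists_succAbove_eq hm
        have e : y m = w l := by
          simp only [y, w, hl, hm, if_false]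
          by_cases hmi : m = i
          · have hli : l = i' := by
              apply Fin.succAbove_right_injective (p := j)
              rw [hl, hi', hmi]
            simp [hmi, hli]
          · have hli : l ≠ i' := by
              intro h
              apply hmi
              rw [← hl, ← hi', h]
            simp [hmi, hli]
        rw [e]; exact le_sup w x l
    have h3 := partition_le hn0 w (tcell ζ) (measurableSet_tcell ζ) (tcell_disjoint ζ)
      (tcell_union hk ζ) y hyw
    have h4 : ∑ m, inner ℝ (y m) (∫ x in tcell ζ m, x ∂(G n))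
        = M ^ 2 + 2 * inner ℝ (ζ i) (ζ j) := by
      simp_rw [hmom]
      have e : ∀ m, inner ℝ (y m) (ζ m) = ‖ζ m‖ ^ 2 +
          ((if m = i then inner ℝ (ζ i) (ζ j) else 0)
            + if m = j then inner ℝ (ζ i) (ζ j) else 0) := by
        intro m
        simp only [y]
        rw [inner_add_left, real_inner_self_eq_norm_sq]
        by_cases hmi : m = i
        · subst hmi
          simp only [if_true, hij, if_false, add_zero]
          rw [real_inner_comm]
        · by_cases hmj : m = j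
          · subst hmj
            simp [hmi]
          · simp [hmi, hmj]
      simp_rw [e]
      rw [Finset.sum_add_distrib, Finset.sum_add_distrib, hF]
      simp only [Finset.sum_ite_eq', Finset.mem_univ, if_true]
      ring
    have h5 : ∑ l, ‖w l‖ ^ 2 = M ^ 2 + 2 * inner ℝ (ζ i) (ζ j) := by
      have e : ∀ l, ‖w l‖ ^ 2 = ‖ζ (j.succAbove l)‖ ^ 2 +
          if l = i' then 2 * inner ℝ (ζ i) (ζ j) + ‖ζ j‖ ^ 2 else 0 := by
        intro l
        simp only [w]
        by_cases hl : l = i'
        · subst hl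
          simp only [if_true, hi']
          rw [norm_add_sq_real]
          ring
        · simp [hl]
      simp_rw [e]
      rw [Finset.sum_add_distrib]
      simp only [Finset.sum_ite_eq', Finset.mem_univ, if_true]
      rw [← hF, Fin.sum_univ_succAbove _ j]
      ring
    rw [h4] at h3
    have h6 := h1 n w
    rw [h5] at h6
    set Q := M ^ 2 + 2 * inner ℝ (ζ i) (ζ j) with hQ
    have h7 : C0 < Q := by rw [hQ]; linarith
    have h8 : Q ^ 2 ≤ hmax w ^ 2 := pow_le_pow_left₀ (hC0.le.trans h7.le) h3 2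
    nlinarith
  have hne : ∀ i j, i ≠ j → ζ i ≠ ζ j := by
    intro i j hij h
    have := hneg i j hij
    rw [h, real_inner_self_eq_norm_sq] at this
    have h3 : 0 ≤ ‖ζ j‖ ^ 2 := by positivity
    linarith
  have hae : ∀ i, cell ζ i =ᵐ[G n] tcell ζ i := cell_ae_eq ζ hne
  refine ⟨ζ, ?_, ?_, hneg, ?_, ?_⟩
  · rw [hF]; exact hMC
  · have h3 : ∑ i, ∫ x in tcell ζ i, x ∂(G n) = 0 := by
      rw [← integral_iUnion_fintype (measurableSet_tcell ζ) (tcell_disjoint ζ)
        (fun i => (integrable_id_G n).integrableOn), tcell_union hk ζ, Measure.restrict_univ]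
      exact integral_id_stdGaussian
    rw [← h3]
    exact Finset.sum_congr rfl fun i _ => (hmom i).symm
  · intro i
    rw [setIntegral_congr_set (hae i), hmom i]
  · have h3 : ∀ i, mass ζ i = (G n).real (tcell ζ i) := by
      intro i
      unfold mass
      exact measureReal_congr (hae i)
    simp_rw [h3]
    rw [← measureReal_iUnion_fintype (tcell_disjoint ζ) (measurableSet_tcell ζ), tcell_union hk ζ]
    simp

/-- **CRIT**: existence of a critical configuration. -/
theorem exists_crit {n : ℕ} (hn : 2 ≤ n) (h1 : Bound n) (h2 : ¬ Bound (n + 1)) :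
    ∃ z : Fin (n + 1) → E n, Crit n z :=
  exists_crit_aux (fun v w h => hmax_congr_gram v w h) (fun hk v w => hmax_sub hk v w)
    (fun v h => exists_gram_dim v h) hn h1 h2

end Vale.Agent.Lib.P226
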