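import Vale.Agent.Lib.P226.CapPolar

/-!
# Cap bounds for cones in dimension 3, 4, 5
-/

namespace Vale.Agent.Lib.P226

open MeasureTheory ProbabilityTheory Set Metric
open scoped ENNReal

namespace Cap

/-- Splitting off the first coordinate. -/
theorem lintegral_split {m : ℕ} {Φ : ℝ → ℝ → ℝ≥0∞} (hΦ : Measurable (Function.uncurry Φ)) :
    ∫⁻ x, Φ (x 0) ‖x‖ ∂(G (m + 1)) =
      ∫⁻ t, ∫⁻ y, Φ t √(t ^ 2 + ‖y‖ ^ 2) ∂(G m) ∂(gaussianReal 0 1) := by
  have hm1 : Measurable fun x : E (m + 1) => Φ (x 0) ‖x‖ :=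
    hΦ.comp ((by fun_prop : Measurable fun x : E (m + 1) => x 0).prodMk measurable_norm)
  have hto : Measurable (WithLp.toLp 2 : (Fin (m + 1) → ℝ) → E (m + 1)) := by fun_prop
  have hto' : Measurable (WithLp.toLp 2 : (Fin m → ℝ) → E m) := by fun_prop
  have hG : G (m + 1) = (Measure.pi (fun _ => gaussianReal 0 1)).map (WithLp.toLp 2) :=
    map_pi_eq_stdGaussian.symm
  have hG' : G m = (Measure.pi (fun _ => gaussianReal 0 1)).map (WithLp.toLp 2) :=
    map_pi_eq_stdGaussian.symm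
  rw [hG, hG', lintegral_map hm1 hto]
  have hmp := measurePreserving_piFinSuccAbove (fun _ : Fin (m + 1) => gaussianReal 0 1) 0
  have hm2 : Measurable fun p : ℝ × (Fin m → ℝ) =>
      Φ p.1 √(p.1 ^ 2 + ‖(WithLp.toLp 2 p.2 : E m)‖ ^ 2) := by
    refine hΦ.comp (measurable_fst.prodMk ?_)
    exact Real.continuous_sqrt.measurable.comp ((measurable_fst.pow_const 2).add
      ((measurable_norm.comp (hto'.comp measurable_snd)).pow_const 2))
  have h1 : ∫⁻ y : Fin (m + 1) → ℝ, Φ ((WithLp.toLp 2 y : E (m + 1)) 0)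
      ‖(WithLp.toLp 2 y : E (m + 1))‖ ∂(Measure.pi fun _ => gaussianReal 0 1) =
      ∫⁻ p : ℝ × (Fin m → ℝ), Φ p.1 √(p.1 ^ 2 + ‖(WithLp.toLp 2 p.2 : E m)‖ ^ 2)
        ∂((gaussianReal 0 1).prod (Measure.pi fun _ => gaussianReal 0 1)) := by
    rw [← hmp.lintegral_comp hm2]
    refine lintegral_congr fun y => ?_
    congr 1
    rw [EuclideanSpace.norm_eq, EuclideanSpace.real_norm_sq_eq, Fin.sum_univ_succ]
    congr 2
    · simp
    · refine Finset.sum_congr rfl fun i _ => ?_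
      rw [Real.norm_eq_abs, sq_abs]
      rfl
  rw [h1, lintegral_prod _ hm2.aemeasurable]
  refine lintegral_congr fun t => ?_
  have hm3 : Measurable fun y : E m => Φ t √(t ^ 2 + ‖y‖ ^ 2) := by
    refine hΦ.comp (measurable_const.prodMk ?_)
    exact Real.continuous_sqrt.measurable.comp (measurable_const.add
      (measurable_norm.pow_const 2))
  rw [lintegral_map hm3 hto']

/-- Rotation invariance. -/
theorem lintegral_rotate {m : ℕ} {u : E (m + 1)} (hu : ‖u‖ = 1) {Φ : ℝ → ℝ → ℝ≥0∞}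
    (hΦ : Measurable (Function.uncurry Φ)) :
    ∫⁻ x, Φ (inner ℝ u x) ‖x‖ ∂(G (m + 1)) = ∫⁻ x, Φ (x 0) ‖x‖ ∂(G (m + 1)) := by
  have hv : Orthonormal ℝ (({0} : Set (Fin (m + 1))).domRestrict (fun _ => u)) := by
    constructor
    · intro i; exact hu
    · intro i j hij
      exact absurd (Subsingleton.elim i j) hij
  obtain ⟨b, hb⟩ := hv.exists_orthonormalBasis_extension_of_card_eq (by simp)
  have hb0 : b 0 = u := hb 0 (mem_singleton _)
  have hmap := stdGaussian_map b.repr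
  have hm1 : Measurable fun x : E (m + 1) => Φ (x 0) ‖x‖ :=
    hΦ.comp ((by fun_prop : Measurable fun x : E (m + 1) => x 0).prodMk measurable_norm)
  conv_rhs => rw [show (G (m + 1)) = (stdGaussian (E (m + 1))).map b.repr from hmap.symm]
  rw [lintegral_map hm1 b.repr.continuous.measurable]
  refine lintegral_congr fun x => ?_
  rw [OrthonormalBasis.repr_apply_apply, hb0, LinearIsometryEquiv.norm_map]

/-- The two-dimensional integral in polar coordinates. -/
theorem lintegral_plane (j : ℕ) (c θ : ℝ) (hc : c = Real.cos θ) (h0 : 0 ≤ θ)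
    (h1 : θ ≤ Real.pi / 2) :
    ∫⁻ p : ℝ × ℝ, (Ioi (0 : ℝ)).indicator 1 p.2 *
      ENNReal.ofReal (p.2 ^ j * Real.exp (-(p.1 ^ 2 + p.2 ^ 2) / 2) *
        (p.1 - c * √(p.1 ^ 2 + p.2 ^ 2))) ≤
      ENNReal.ofReal (Mo (j + 2)) *
        ENNReal.ofReal (∫ s in (0 : ℝ)..θ, Real.sin s ^ j * (Real.cos s - c)) := by
  have hpi := Real.pi_pos
  rw [← lintegral_comp_polarCoord_symm]
  have htarget : polarCoord.target = Ioi (0 : ℝ) ×ˢ Ioo (-Real.pi) Real.pi := rfl
  have hsymm : ∀ p : ℝ × ℝ, polarCoord.symm p = (p.1 * Real.cos p.2, p.1 * Real.sin p.2) :=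
    fun p => rfl
  let A : ℝ → ℝ≥0∞ := fun r => ENNReal.ofReal (r ^ (j + 2) * Real.exp (-r ^ 2 / 2))
  let B : ℝ → ℝ≥0∞ := (Ioc 0 θ).indicator
    fun s => ENNReal.ofReal (Real.sin s ^ j * (Real.cos s - c))
  have hA : Measurable A := by fun_prop
  have hB : Measurable B := Measurable.indicator (by fun_prop) measurableSet_Ioc
  have hpt : ∀ p ∈ Ioi (0 : ℝ) ×ˢ Ioo (-Real.pi) Real.pi,
      ENNReal.ofReal p.1 • ((Ioi (0 : ℝ)).indicator 1 (polarCoord.symm p).2 *
        ENNReal.ofReal ((polarCoord.symm p).2 ^ j *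
          Real.exp (-((polarCoord.symm p).1 ^ 2 + (polarCoord.symm p).2 ^ 2) / 2) *
          ((polarCoord.symm p).1 - c * √((polarCoord.symm p).1 ^ 2 +
            (polarCoord.symm p).2 ^ 2)))) ≤ A p.1 * B p.2 := by
    rintro ⟨r, s⟩ ⟨hr, hs⟩
    have hr0 : (0 : ℝ) < r := hr
    rw [hsymm]
    simp only
    have e1 : (r * Real.cos s) ^ 2 + (r * Real.sin s) ^ 2 = r ^ 2 := by
      have := Real.sin_sq_add_cos_sq s
      nlinarith
    rw [e1, Real.sqrt_sq hr0.le]
    by_cases hsin : 0 < r * Real.sin s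
    · rw [indicator_of_mem (show r * Real.sin s ∈ Ioi (0 : ℝ) from hsin), Pi.one_apply, one_mul,
        smul_eq_mul, ← ENNReal.ofReal_mul hr0.le]
      have hsin' : 0 < Real.sin s := (mul_pos_iff_of_pos_left hr0).1 hsin
      have hs0 : 0 < s := by
        by_contra hcon
        have := Real.sin_nonpos_of_nonpos_of_neg_pi_le (not_lt.1 hcon) hs.1.le
        linarith
      have e2 : r * ((r * Real.sin s) ^ j * Real.exp (-r ^ 2 / 2) *
          (r * Real.cos s - c * r)) = (r ^ (j + 2) * Real.exp (-r ^ 2 / 2)) *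
            (Real.sin s ^ j * (Real.cos s - c)) := by ring
      rw [e2]
      by_cases hsθ : s ≤ θ
      · simp only [A, B]
        rw [indicator_of_mem (show s ∈ Ioc 0 θ from ⟨hs0, hsθ⟩),
          ← ENNReal.ofReal_mul (by positivity)]
      · have hcos : Real.cos s ≤ c := by
          rw [hc]
          exact Real.cos_le_cos_of_nonneg_of_le_pi h0 hs.2.le (not_le.1 hsθ).le
        have : ENNReal.ofReal (r ^ (j + 2) * Real.exp (-r ^ 2 / 2) *
            (Real.sin s ^ j * (Real.cos s - c))) = 0 := by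
          rw [ENNReal.ofReal_eq_zero]
          refine mul_nonpos_of_nonneg_of_nonpos (by positivity) ?_
          exact mul_nonpos_of_nonneg_of_nonpos (by positivity) (by linarith)
        rw [this]
        exact zero_le
    · rw [indicator_of_notMem (show r * Real.sin s ∉ Ioi (0 : ℝ) from hsin), zero_mul, smul_zero]
      exact zero_le
  rw [htarget]
  have hmeas : MeasurableSet (Ioi (0 : ℝ) ×ˢ Ioo (-Real.pi) Real.pi) :=
    measurableSet_Ioi.prod measurableSet_Ioo
  refine (setLIntegral_mono' hmeas hpt).trans ?_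
  rw [Measure.volume_eq_prod, ← Measure.prod_restrict, lintegral_prod_mul hA.aemeasurable
    hB.aemeasurable, lintegral_Mo]
  refine mul_le_mul_right ?_ _
  refine (setLIntegral_le_lintegral _ _).trans ?_
  simp only [B]
  rw [lintegral_indicator measurableSet_Ioc, intervalIntegral.integral_of_le h0]
  have hcont : Continuous fun s : ℝ => Real.sin s ^ j * (Real.cos s - c) := by fun_prop
  rw [ofReal_integral_eq_lintegral_ofReal
    ((hcont.intervalIntegrable (μ := volume) 0 θ).1)]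
  filter_upwards [ae_restrict_mem measurableSet_Ioc] with s hs
  simp only [Pi.zero_apply]
  refine mul_nonneg (pow_nonneg (Real.sin_nonneg_of_nonneg_of_le_pi hs.1.le
    (by linarith [hs.2])) _) ?_
  rw [hc, sub_nonneg]
  exact Real.cos_le_cos_of_nonneg_of_le_pi hs.1.le (by linarith) hs.2

/-- The positive part of `⟪X, u⟫ - c |X|`. -/
theorem lintegral_cap {m : ℕ} (hm : 0 < m) {u : E (m + 1)} (hu : ‖u‖ = 1) (c θ : ℝ)
    (hc : c = Real.cos θ) (h0 : 0 ≤ θ) (h1 : θ ≤ Real.pi / 2) :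
    ∫⁻ x, ENNReal.ofReal (inner ℝ u x - c * ‖x‖) ∂(G (m + 1)) ≤
      ENNReal.ofReal ((√(2 * Real.pi))⁻¹ * m *
        ∫ s in (0 : ℝ)..θ, Real.sin s ^ (m - 1) * (Real.cos s - c)) := by
  have hΦ : Measurable (Function.uncurry fun t r : ℝ => ENNReal.ofReal (t - c * r)) := by
    fun_prop
  rw [lintegral_rotate hu hΦ, lintegral_split hΦ]
  have hin : ∀ t : ℝ, ∫⁻ y, ENNReal.ofReal (t - c * √(t ^ 2 + ‖y‖ ^ 2)) ∂(G m) =
      ENNReal.ofReal (Mo (m - 1))⁻¹ * ∫⁻ r in Ioi (0 : ℝ),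
        ENNReal.ofReal (r ^ (m - 1) * Real.exp (-r ^ 2 / 2)) *
          ENNReal.ofReal (t - c * √(t ^ 2 + r ^ 2)) := by
    intro t
    exact lintegral_norm_gauss hm (f := fun r => ENNReal.ofReal (t - c * √(t ^ 2 + r ^ 2)))
      (by fun_prop)
  simp only [hin]
  rw [gaussianReal_of_var_ne_zero _ one_ne_zero, lintegral_withDensity_eq_lintegral_mul_non_measurable₀
    _ (measurable_gaussianPDF 0 1).aemeasurable (by simp [gaussianPDF])]
  have hstep : ∀ t : ℝ, (gaussianPDF 0 1 * fun t => ENNReal.ofReal (Mo (m - 1))⁻¹ *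
      ∫⁻ r in Ioi (0 : ℝ), ENNReal.ofReal (r ^ (m - 1) * Real.exp (-r ^ 2 / 2)) *
          ENNReal.ofReal (t - c * √(t ^ 2 + r ^ 2))) t =
      ENNReal.ofReal ((√(2 * Real.pi))⁻¹ * (Mo (m - 1))⁻¹) * ∫⁻ r : ℝ,
        (Ioi (0 : ℝ)).indicator 1 r *
        ENNReal.ofReal (r ^ (m - 1) * Real.exp (-(t ^ 2 + r ^ 2) / 2) *
          (t - c * √(t ^ 2 + r ^ 2))) := by
    intro t
    rw [Pi.mul_apply]
    have hpdf : gaussianPDF 0 1 t = ENNReal.ofReal (√(2 * Real.pi))⁻¹ *
        ENNReal.ofReal (Real.exp (-t ^ 2 / 2)) := by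
      rw [← ENNReal.ofReal_mul (by positivity)]
      simp [gaussianPDF, gaussianPDFReal]
    rw [hpdf, ENNReal.ofReal_mul (by positivity)]
    have hmo := Mo_pos (m - 1)
    have e1 : ∫⁻ r : ℝ, (Ioi (0 : ℝ)).indicator 1 r *
        ENNReal.ofReal (r ^ (m - 1) * Real.exp (-(t ^ 2 + r ^ 2) / 2) *
          (t - c * √(t ^ 2 + r ^ 2))) =
        ENNReal.ofReal (Real.exp (-t ^ 2 / 2)) * ∫⁻ r in Ioi (0 : ℝ),
          ENNReal.ofReal (r ^ (m - 1) * Real.exp (-r ^ 2 / 2)) *
            ENNReal.ofReal (t - c * √(t ^ 2 + r ^ 2)) := by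
      rw [← lintegral_const_mul' _ _ ENNReal.ofReal_ne_top, ← lintegral_indicator measurableSet_Ioi]
      refine lintegral_congr fun r => ?_
      by_cases hr : r ∈ Ioi (0 : ℝ)
      · have hr0 : (0 : ℝ) < r := hr
        rw [indicator_of_mem hr, indicator_of_mem hr, Pi.one_apply, one_mul,
          ← ENNReal.ofReal_mul (by positivity), ← ENNReal.ofReal_mul (by positivity)]
        congr 1
        rw [show -(t ^ 2 + r ^ 2) / 2 = -t ^ 2 / 2 + -r ^ 2 / 2 by ring, Real.exp_add]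
        ring
      · rw [indicator_of_notMem hr, indicator_of_notMem hr, zero_mul]
    rw [e1]
    ring
  rw [lintegral_congr hstep, lintegral_const_mul' _ _ ENNReal.ofReal_ne_top]
  have hmeas : Measurable fun p : ℝ × ℝ => (Ioi (0 : ℝ)).indicator (1 : ℝ → ℝ≥0∞) p.2 *
      ENNReal.ofReal (p.2 ^ (m - 1) * Real.exp (-(p.1 ^ 2 + p.2 ^ 2) / 2) *
        (p.1 - c * √(p.1 ^ 2 + p.2 ^ 2))) := by
    refine Measurable.mul ((measurable_one.indicator measurableSet_Ioi).comp measurable_snd) ?_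
    fun_prop
  have hfub := lintegral_prod (μ := (volume : Measure ℝ)) (ν := (volume : Measure ℝ)) _
    hmeas.aemeasurable
  rw [← Measure.volume_eq_prod] at hfub
  simp only at hfub
  rw [← hfub]
  refine (mul_le_mul_right (lintegral_plane (m - 1) c θ hc h0 h1) _).trans (le_of_eq ?_)
  have hJ : 0 ≤ ∫ s in (0 : ℝ)..θ, Real.sin s ^ (m - 1) * (Real.cos s - c) := by
    refine intervalIntegral.integral_nonneg h0 fun s hs => ?_
    have hpi := Real.pi_pos
    refine mul_nonneg (pow_nonneg (Real.sin_nonneg_of_nonneg_of_le_pi hs.1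
      (by linarith [hs.2])) _) ?_
    rw [hc, sub_nonneg]
    exact Real.cos_le_cos_of_nonneg_of_le_pi hs.1 (by linarith) hs.2
  have hmo := Mo_pos (m - 1)
  have hmo2 := Mo_pos (m - 1 + 2)
  rw [← ENNReal.ofReal_mul hmo2.le, ← ENNReal.ofReal_mul (by positivity)]
  congr 1
  rw [Mo_succ, Nat.cast_sub hm]
  field_simp
  push_cast
  ring

theorem Mo_two : Mo 2 = √(2 * Real.pi) / 2 := by
  have := Mo_succ 0
  rw [Mo_zero] at this
  simpa using this

theorem Mo_three : Mo (2 + 1) = 2 := by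
  have := Mo_succ 1
  rw [Mo_one] at this
  norm_num at this
  exact this

theorem Mo_four : Mo (3 + 1) = 3 * (√(2 * Real.pi) / 2) := by
  have := Mo_succ 2
  rw [Mo_two] at this
  norm_num at this
  simpa using this

theorem Mo_five : Mo (4 + 1) = 8 := by
  have := Mo_succ 3
  rw [show Mo 3 = 2 from Mo_three] at this
  norm_num at this
  exact this

theorem exists_unit {n : ℕ} (z : E (n + 1)) : ∃ u : E (n + 1), ‖u‖ = 1 ∧ inner ℝ u z = ‖z‖ := by
  by_cases hz : z = 0
  · refine ⟨EuclideanSpace.single 0 1, by simp, by simp [hz]⟩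
  · have hz' : ‖z‖ ≠ 0 := norm_ne_zero_iff.2 hz
    refine ⟨‖z‖⁻¹ • z, ?_, ?_⟩
    · rw [norm_smul, norm_inv, norm_norm, inv_mul_cancel₀ hz']
    · rw [real_inner_smul_left, real_inner_self_eq_norm_sq, sq, ← mul_assoc,
        inv_mul_cancel₀ hz', one_mul]

theorem cap_bound {m : ℕ} (hm : 0 < m) {A : Set (E (m + 1))} (hA : MeasurableSet A)
    (hc : ∀ x ∈ A, ∀ t : ℝ, 0 < t → t • x ∈ A) (c θ : ℝ) (hcθ : c = Real.cos θ) (h0 : 0 ≤ θ)
    (h1 : θ ≤ Real.pi / 2) :
    ‖∫ x in A, x ∂(G (m + 1))‖ ≤ c * (Mo (m + 1) / Mo m) * (G (m + 1)).real A +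
      (√(2 * Real.pi))⁻¹ * m *
        ∫ s in (0 : ℝ)..θ, Real.sin s ^ (m - 1) * (Real.cos s - c) := by
  have hpi := Real.pi_pos
  have hc0 : 0 ≤ c := by
    rw [hcθ]
    exact Real.cos_nonneg_of_neg_pi_div_two_le_of_le (by linarith) h1
  have hJ : 0 ≤ ∫ s in (0 : ℝ)..θ, Real.sin s ^ (m - 1) * (Real.cos s - c) := by
    refine intervalIntegral.integral_nonneg h0 fun s hs => ?_
    refine mul_nonneg (pow_nonneg (Real.sin_nonneg_of_nonneg_of_le_pi hs.1
      (by linarith [hs.2])) _) ?_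
    rw [hcθ, sub_nonneg]
    exact Real.cos_le_cos_of_nonneg_of_le_pi hs.1 (by linarith) hs.2
  have hid : Integrable (fun x : E (m + 1) => x) (G (m + 1)) := IsGaussian.integrable_id
  have hnorm : Integrable (fun x : E (m + 1) => ‖x‖) (G (m + 1)) := hid.norm
  obtain ⟨u, hu, huz⟩ := exists_unit (∫ x in A, x ∂(G (m + 1)))
  rw [← huz, ← integral_inner hid.integrableOn]
  have hin : Integrable (fun x : E (m + 1) => inner ℝ u x) (G (m + 1)) := hid.const_inner _
  have hmax : Integrable (fun x : E (m + 1) => max (inner ℝ u x - c * ‖x‖) 0) (G (m + 1)) :=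
    (hin.sub (hnorm.const_mul c)).pos_part
  have hstep1 : ∫ x in A, inner ℝ u x ∂(G (m + 1)) ≤
      ∫ x in A, (c * ‖x‖ + max (inner ℝ u x - c * ‖x‖) 0) ∂(G (m + 1)) := by
    refine setIntegral_mono hin.integrableOn ((hnorm.const_mul c).add hmax).integrableOn
      fun x => ?_
    have := le_max_left (inner ℝ u x - c * ‖x‖) 0
    simp only
    linarith
  rw [integral_add (hnorm.const_mul c).integrableOn hmax.integrableOn, integral_const_mul] at hstep1
  have hstep2 : ∫ x in A, max (inner ℝ u x - c * ‖x‖) 0 ∂(G (m + 1)) ≤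
      ∫ x, max (inner ℝ u x - c * ‖x‖) 0 ∂(G (m + 1)) :=
    setIntegral_le_integral hmax (Filter.Eventually.of_forall fun x => le_max_right _ _)
  have hval1 : ∫ x in A, ‖x‖ ∂(G (m + 1)) = Mo (m + 1) / Mo m * (G (m + 1)).real A := by
    rw [integral_eq_lintegral_of_nonneg_ae (Filter.Eventually.of_forall fun x => norm_nonneg _)
      hnorm.integrableOn.aestronglyMeasurable, lintegral_norm_cone (Nat.succ_pos m) hA hc,
      ENNReal.toReal_mul, ENNReal.toReal_ofReal (div_nonneg (Mo_pos _).le (Mo_pos _).le)]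
    rfl
  have hval2 : ∫ x, max (inner ℝ u x - c * ‖x‖) 0 ∂(G (m + 1)) ≤ (√(2 * Real.pi))⁻¹ * m *
        ∫ s in (0 : ℝ)..θ, Real.sin s ^ (m - 1) * (Real.cos s - c) := by
    have hnn : 0 ≤ᵐ[G (m + 1)] fun x => max (inner ℝ u x - c * ‖x‖) 0 :=
      Filter.Eventually.of_forall fun x => le_max_right _ _
    rw [integral_eq_lintegral_of_nonneg_ae hnn hmax.aestronglyMeasurable]
    refine ENNReal.toReal_le_of_le_ofReal (by positivity) ?_
    refine le_trans (le_of_eq ?_) (lintegral_cap hm hu c θ hcθ h0 h1)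
    refine lintegral_congr fun x => ?_
    rcases le_total (inner ℝ u x - c * ‖x‖) 0 with h | h
    · rw [max_eq_right h, ENNReal.ofReal_zero, ENNReal.ofReal_of_nonpos h]
    · rw [max_eq_left h]
  rw [hval1] at hstep1
  calc _ ≤ _ := hstep1
    _ ≤ _ := by
      rw [← mul_assoc]
      exact add_le_add_right (hstep2.trans hval2) _

end Cap

open Cap

theorem cap_bound_three (A : Set (E 3)) (hA : MeasurableSet A)
    (hc : ∀ x ∈ A, ∀ t : ℝ, 0 < t → t • x ∈ A) (c : ℝ) (h0 : 0 ≤ c) (h1 : c ≤ 1) :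
    ‖∫ x in A, x ∂(G 3)‖ ≤
      (4 * c * (G 3).real A + (1 - c) ^ 2) / Real.sqrt (2 * Real.pi) := by
  have hθ : c = Real.cos (Real.arccos c) := (Real.cos_arccos (by linarith) h1).symm
  have h := cap_bound (m := 2) (by norm_num) hA hc c (Real.arccos c) hθ (Real.arccos_nonneg c)
    ((Real.arccos_le_pi_div_two).2 h0)
  have hJ : ∫ s in (0 : ℝ)..(Real.arccos c), Real.sin s ^ (2 - 1) * (Real.cos s - c) =
      (1 - c) ^ 2 / 2 := by
    have hd : ∀ s ∈ Set.uIcc 0 (Real.arccos c), HasDerivAt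
        (fun s => Real.sin s ^ 2 / 2 + c * Real.cos s)
        (Real.sin s ^ (2 - 1) * (Real.cos s - c)) s := by
      intro s _
      have h' : HasDerivAt (fun s => Real.sin s ^ 2 / 2 + c * Real.cos s) _ s :=
        (((Real.hasDerivAt_sin s).pow 2).div_const 2).add ((Real.hasDerivAt_cos s).const_mul c)
      refine h'.congr_deriv ?_
      norm_num
      ring
    rw [intervalIntegral.integral_eq_sub_of_hasDerivAt hd
      (Continuous.intervalIntegrable (by fun_prop) _ _)]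
    rw [Real.sin_sq, ← hθ]
    simp
    ring
  have hMo : Mo (2 + 1) / Mo 2 = 4 / √(2 * Real.pi) := by
    rw [Mo_two, Mo_three]
    field_simp
    norm_num
  rw [hJ, hMo] at h
  refine h.trans (le_of_eq ?_)
  push_cast
  field_simp

theorem cap_bound_four (A : Set (E 4)) (hA : MeasurableSet A)
    (hc : ∀ x ∈ A, ∀ t : ℝ, 0 < t → t • x ∈ A) (θ : ℝ) (h0 : 0 ≤ θ) (h1 : θ ≤ Real.pi / 2) :
    ‖∫ x in A, x ∂(G 4)‖ ≤
      ((3 * Real.pi / 2) * Real.cos θ * (G 4).real A + Real.sin θ ^ 3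
        - (3 / 2) * Real.cos θ * (θ - Real.sin θ * Real.cos θ)) / Real.sqrt (2 * Real.pi) := by
  have h := cap_bound (m := 3) (by norm_num) hA hc (Real.cos θ) θ rfl h0 h1
  have hJ : ∫ s in (0 : ℝ)..θ, Real.sin s ^ (3 - 1) * (Real.cos s - Real.cos θ) =
      Real.sin θ ^ 3 / 3 - Real.cos θ * (θ - Real.sin θ * Real.cos θ) / 2 := by
    have hd : ∀ s ∈ Set.uIcc 0 θ, HasDerivAt
        (fun s => Real.sin s ^ 3 / 3 - Real.cos θ * ((s - Real.sin s * Real.cos s) / 2))
        (Real.sin s ^ (3 - 1) * (Real.cos s - Real.cos θ)) s := by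
      intro s _
      have h' : HasDerivAt
          (fun s => Real.sin s ^ 3 / 3 - Real.cos θ * ((s - Real.sin s * Real.cos s) / 2)) _ s :=
        (((Real.hasDerivAt_sin s).pow 3).div_const 3).sub
          ((((hasDerivAt_id s).sub ((Real.hasDerivAt_sin s).mul
            (Real.hasDerivAt_cos s))).div_const 2).const_mul (Real.cos θ))
      refine h'.congr_deriv ?_
      norm_num
      have h2 := Real.sin_sq_add_cos_sq s
      have h3 : Real.cos s * Real.cos s = 1 - Real.sin s ^ 2 := by nlinarith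
      rw [h3]
      ring
    rw [intervalIntegral.integral_eq_sub_of_hasDerivAt hd
      (Continuous.intervalIntegrable (by fun_prop) _ _)]
    simp
    ring
  have hMo : Mo (3 + 1) / Mo 3 = (3 * Real.pi / 2) / √(2 * Real.pi) := by
    rw [Mo_three, Mo_four]
    have hs : √(2 * Real.pi) ^ 2 = 2 * Real.pi := Real.sq_sqrt (by positivity)
    have hs0 : √(2 * Real.pi) ≠ 0 := by positivity
    field_simp
    rw [hs]
  rw [hJ, hMo] at h
  refine h.trans (le_of_eq ?_)
  push_cast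
  field_simp
  ring

theorem cap_bound_five (A : Set (E 5)) (hA : MeasurableSet A)
    (hc : ∀ x ∈ A, ∀ t : ℝ, 0 < t → t • x ∈ A) (c : ℝ) (h0 : 0 ≤ c) (h1 : c ≤ 1) :
    ‖∫ x in A, x ∂(G 5)‖ ≤
      ((16 / 3) * c * (G 5).real A + (1 - c) ^ 3 * (3 + c) / 3) / Real.sqrt (2 * Real.pi) := by
  have hθ : c = Real.cos (Real.arccos c) := (Real.cos_arccos (by linarith) h1).symm
  have h := cap_bound (m := 4) (by norm_num) hA hc c (Real.arccos c) hθ (Real.arccos_nonneg c)
    ((Real.arccos_le_pi_div_two).2 h0)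
  have hJ : ∫ s in (0 : ℝ)..(Real.arccos c), Real.sin s ^ (4 - 1) * (Real.cos s - c) =
      (1 - c) ^ 3 * (3 + c) / 12 := by
    have hd : ∀ s ∈ Set.uIcc 0 (Real.arccos c), HasDerivAt
        (fun s => Real.sin s ^ 4 / 4 + c * (Real.cos s - Real.cos s ^ 3 / 3))
        (Real.sin s ^ (4 - 1) * (Real.cos s - c)) s := by
      intro s _
      have h' : HasDerivAt
          (fun s => Real.sin s ^ 4 / 4 + c * (Real.cos s - Real.cos s ^ 3 / 3)) _ s :=
        (((Real.hasDerivAt_sin s).pow 4).div_const 4).add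
        (((Real.hasDerivAt_cos s).sub (((Real.hasDerivAt_cos s).pow 3).div_const 3)).const_mul c)
      refine h'.congr_deriv ?_
      norm_num
      have h2 := Real.sin_sq_add_cos_sq s
      have h3 : Real.cos s ^ 2 = 1 - Real.sin s ^ 2 := by nlinarith
      rw [h3]
      ring
    rw [intervalIntegral.integral_eq_sub_of_hasDerivAt hd
      (Continuous.intervalIntegrable (by fun_prop) _ _)]
    have h4 : Real.sin (Real.arccos c) ^ 4 = (1 - c ^ 2) ^ 2 := by
      rw [show Real.sin (Real.arccos c) ^ 4 = (Real.sin (Real.arccos c) ^ 2) ^ 2 by ring,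
        Real.sin_sq, ← hθ]
    rw [h4, ← hθ]
    simp
    ring
  have hMo : Mo (4 + 1) / Mo 4 = (16 / 3) / √(2 * Real.pi) := by
    rw [Mo_five, Mo_four]
    field_simp
    norm_num
  rw [hJ, hMo] at h
  refine h.trans (le_of_eq ?_)
  push_cast
  field_simp
  ring

end Vale.Agent.Lib.P226
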