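import Vale.Agent.Lib.P226.Basic1

/-!
# P226: module KFOUR (direct bound of `Del` for four vectors in dimension 3)
-/

namespace Vale.Agent.Lib.P226

open MeasureTheory ProbabilityTheory Set
open scoped ENNReal

namespace KFour

theorem lint_aux (f : ℝ → ℝ) (hf : Continuous f) {a b : ℝ} (hab : a ≤ b)
    (h1 : ∀ x ∈ Ioc a b, 0 ≤ f x) (h2 : ∀ x, b < x → f x ≤ 0) :
    ∫⁻ x in Ioi a, ENNReal.ofReal (f x) = ENNReal.ofReal (∫ x in a..b, f x) := by
  rw [intervalIntegral.integral_of_le hab, ofReal_integral_eq_lintegral_ofReal]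
  · rw [← Ioc_union_Ioi_eq_Ioi hab, lintegral_union measurableSet_Ioi]
    · have : ∫⁻ x in Ioi b, ENNReal.ofReal (f x) = 0 := by
        rw [setLIntegral_congr_fun (g := fun _ => 0) measurableSet_Ioi]
        · simp
        · intro x hx
          exact ENNReal.ofReal_of_nonpos (h2 x hx)
      rw [this, add_zero]
    · exact Set.disjoint_left.2 fun x hx hx' => not_lt.2 hx.2 hx'
  · exact (hf.integrableOn_Icc (a := a) (b := b)).mono_set Ioc_subset_Icc_self
  · exact (ae_restrict_iff' measurableSet_Ioc).2 (Filter.Eventually.of_forall h1)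

theorem lint_lin (a T : ℝ) :
    ∫⁻ x in Ioi a, ENNReal.ofReal (T - x) = ENNReal.ofReal ((max 0 (T - a)) ^ 2 / 2) := by
  rcases le_total a T with h | h
  · rw [lint_aux (fun x => T - x) (by fun_prop) h (fun x hx => by linarith [hx.2])
      (fun x hx => by linarith)]
    congr 1
    rw [max_eq_right (by linarith)]
    rw [intervalIntegral.integral_sub (by simp) (by simp)]
    simp
    ring
  · rw [max_eq_left (by linarith)]
    rw [setLIntegral_congr_fun (g := fun _ => 0) measurableSet_Ioi]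
    · simp
    · intro x hx
      exact ENNReal.ofReal_of_nonpos (by have := mem_Ioi.1 hx; linarith)

theorem lint_sq (S : ℝ) :
    ∫⁻ s in Ioi (0 : ℝ), ENNReal.ofReal ((max 0 (S - 3 * s)) ^ 2 / 2) =
      ENNReal.ofReal ((max 0 S) ^ 3 / 18) := by
  rcases le_total 0 S with h | h
  · rw [lint_aux (fun s => (max 0 (S - 3 * s)) ^ 2 / 2) (by fun_prop) (b := S / 3) (by linarith)
      (fun x hx => by positivity)
      (fun x hx => by
        rw [max_eq_left (by linarith)]
        simp)]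
    congr 1
    rw [max_eq_right h]
    have : ∫ x in (0:ℝ)..(S/3), (max 0 (S - 3 * x)) ^ 2 / 2 =
        ∫ x in (0:ℝ)..(S/3), (S - 3 * x) ^ 2 / 2 := by
      apply intervalIntegral.integral_congr
      intro x hx
      rw [uIcc_of_le (by linarith)] at hx
      show (max 0 (S - 3 * x)) ^ 2 / 2 = (S - 3 * x) ^ 2 / 2
      rw [max_eq_right (by linarith [hx.2])]
    rw [this]
    have hd : ∀ x ∈ uIcc (0:ℝ) (S/3), HasDerivAt (fun x => -(S - 3 * x) ^ 3 / 18)
        ((S - 3 * x) ^ 2 / 2) x := by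
      intro x _
      have h1 : HasDerivAt (fun x : ℝ => S - 3 * x) (-(3 * 1)) x :=
        ((hasDerivAt_id x).const_mul 3).const_sub S
      have h2 : HasDerivAt (fun x => -(S - 3 * x) ^ 3 / 18)
          (-(((3 : ℕ) : ℝ) * (S - 3 * x) ^ (3 - 1) * -(3 * 1)) / 18) x :=
        ((h1.pow 3).neg).div_const 18
      refine h2.congr_deriv ?_
      push_cast
      ring
    rw [intervalIntegral.integral_eq_sub_of_hasDerivAt hd]
    · ring
    · apply Continuous.intervalIntegrable
      fun_prop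
  · rw [max_eq_left h]
    rw [setLIntegral_congr_fun (g := fun _ => 0) measurableSet_Ioi]
    · simp
    · intro x hx
      show ENNReal.ofReal ((max 0 (S - 3 * x)) ^ 2 / 2) = 0
      rw [max_eq_left (by have := mem_Ioi.1 hx; linarith)]
      simp

/-- the planar integral -/
theorem lint_plane (S : ℝ) :
    ∫⁻ p : ℝ × ℝ, ENNReal.ofReal (max 0 (min p.1 (min p.2 (S - p.1 - p.2)))) =
      ENNReal.ofReal ((max 0 S) ^ 3 / 18) := by
  rw [lintegral_eq_lintegral_meas_lt
    (f := fun p : ℝ × ℝ => max 0 (min p.1 (min p.2 (S - p.1 - p.2)))) volume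
    (Filter.Eventually.of_forall fun p => le_max_left _ _)
    (by
      apply Measurable.aemeasurable
      fun_prop)]
  rw [← lint_sq]
  apply setLIntegral_congr_fun measurableSet_Ioi
  intro s hs
  have hs0 : (0:ℝ) < s := hs
  simp only
  have hset : {a : ℝ × ℝ | s < max 0 (min a.1 (min a.2 (S - a.1 - a.2)))} =
      {a : ℝ × ℝ | s < a.1 ∧ s < a.2 ∧ s < S - a.1 - a.2} := by
    ext a
    simp only [mem_ofPred_eq, lt_max_iff, lt_min_iff]
    constructor
    · rintro (h | h)
      · exact absurd h (not_lt.2 hs0.le)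
      · exact h
    · intro h
      exact Or.inr h
  have hmeas : MeasurableSet {a : ℝ × ℝ | s < a.1 ∧ s < a.2 ∧ s < S - a.1 - a.2} := by
    apply MeasurableSet.inter
    · exact measurableSet_lt measurable_const measurable_fst
    apply MeasurableSet.inter
    · exact measurableSet_lt measurable_const measurable_snd
    · exact measurableSet_lt measurable_const
        (f := fun _ : ℝ × ℝ => s) (g := fun a : ℝ × ℝ => S - a.1 - a.2) (by fun_prop)
  rw [hset, Measure.volume_eq_prod, Measure.prod_apply hmeas]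
  have : ∀ x : ℝ, volume (Prod.mk x ⁻¹' {a : ℝ × ℝ | s < a.1 ∧ s < a.2 ∧ s < S - a.1 - a.2}) =
      (Ioi s).indicator (fun x => ENNReal.ofReal ((S - 2 * s) - x)) x := by
    intro x
    by_cases hx : s < x
    · rw [indicator_of_mem (mem_Ioi.2 hx)]
      have : Prod.mk x ⁻¹' {a : ℝ × ℝ | s < a.1 ∧ s < a.2 ∧ s < S - a.1 - a.2} =
          Ioo s (S - x - s) := by
        ext y
        simp only [mem_preimage, mem_ofPred_eq, mem_Ioo]
        constructor
        · rintro ⟨_, h1, h2⟩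
          exact ⟨h1, by linarith⟩
        · rintro ⟨h1, h2⟩
          exact ⟨hx, h1, by linarith⟩
      rw [this, Real.volume_Ioo]
      congr 1
      ring
    · rw [indicator_of_notMem (by simpa using hx)]
      have : Prod.mk x ⁻¹' {a : ℝ × ℝ | s < a.1 ∧ s < a.2 ∧ s < S - a.1 - a.2} = ∅ := by
        ext y
        simp only [mem_preimage, mem_ofPred_eq, mem_empty_iff_false, iff_false]
        exact fun h => hx h.1
      rw [this, measure_empty]
  simp_rw [this]
  rw [lintegral_indicator measurableSet_Ioi, lint_lin]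
  congr 4
  ring

/-- the Gaussian moment -/
theorem lint_gauss {d : ℝ} (hd : 0 < d) :
    ∫⁻ w : ℝ, ENNReal.ofReal (Real.exp (-(w ^ 2) / (2 * d ^ 2))) *
      ENNReal.ofReal ((max 0 (4 * w)) ^ 3 / 18) = ENNReal.ofReal (64 / 9 * d ^ 4) := by
  have h0 : ∀ w : ℝ, ENNReal.ofReal (Real.exp (-(w ^ 2) / (2 * d ^ 2))) *
      ENNReal.ofReal ((max 0 (4 * w)) ^ 3 / 18) =
      (Ioi (0:ℝ)).indicator (fun w => ENNReal.ofReal
        (32 / 9 * (w ^ (3:ℝ) * Real.exp (-(1 / (2 * d ^ 2)) * w ^ (2:ℝ))))) w := by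
    intro w
    by_cases hw : 0 < w
    · rw [indicator_of_mem (mem_Ioi.2 hw), ← ENNReal.ofReal_mul (Real.exp_pos _).le,
        max_eq_right (by linarith)]
      congr 1
      have h3 : w ^ (3:ℝ) = w ^ 3 := by
        rw [← Real.rpow_natCast]; norm_num
      have h2 : w ^ (2:ℝ) = w ^ 2 := by
        rw [← Real.rpow_natCast]; norm_num
      rw [h3, h2]
      have : -(w ^ 2) / (2 * d ^ 2) = -(1 / (2 * d ^ 2)) * w ^ 2 := by ring
      rw [this]
      ring
    · rw [indicator_of_notMem (by simpa using hw), max_eq_left (by linarith)]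
      simp
  simp_rw [h0]
  rw [lintegral_indicator measurableSet_Ioi]
  rw [← ofReal_integral_eq_lintegral_ofReal]
  · congr 1
    rw [integral_const_mul, integral_rpow_mul_exp_neg_mul_rpow (by norm_num) (by norm_num)
      (by positivity)]
    have h1 : ((3:ℝ) + 1) / 2 = 2 := by norm_num
    rw [h1]
    have h2 : Real.Gamma 2 = 1 := Real.Gamma_two
    rw [h2]
    have h3 : (1 / (2 * d ^ 2)) ^ (-(2:ℝ)) = 4 * d ^ 4 := by
      rw [Real.rpow_neg (by positivity)]
      have : (1 / (2 * d ^ 2)) ^ (2:ℝ) = (1 / (2 * d ^ 2)) ^ 2 := by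
        rw [← Real.rpow_natCast]; norm_num
      rw [this]
      field_simp
      ring
    have h4 : (1 / (2 * d ^ 2)) ^ (-((3:ℝ) + 1) / 2) = 4 * d ^ 4 := by
      rw [← h3]; norm_num
    rw [h4]
    ring
  · apply Integrable.const_mul
    exact integrableOn_rpow_mul_exp_neg_mul_rpow (by norm_num) (by norm_num) (by positivity)
  · refine (ae_restrict_iff' measurableSet_Ioi).2 (Filter.Eventually.of_forall fun x hx => ?_)
    have : (0:ℝ) < x := hx
    positivity

/-- the integrand in coordinates -/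
noncomputable def H (d : ℝ) (u : Fin 3 → ℝ) : ℝ≥0∞ :=
  ENNReal.ofReal (Real.exp (-(u 0 ^ 2) / (2 * d ^ 2))) *
    ENNReal.ofReal (max 0 (min (u 1) (min (u 2) (4 * u 0 - u 1 - u 2))))

theorem measurable_H (d : ℝ) : Measurable (H d) := by
  unfold H
  fun_prop

theorem lint_H {d : ℝ} (hd : 0 < d) : ∫⁻ u, H d u = ENNReal.ofReal (64 / 9 * d ^ 4) := by
  have h1 := (volume_preserving_piFinSuccAbove (fun _ : Fin 3 => ℝ) 0).symm
  rw [← h1.lintegral_comp_emb (MeasurableEquiv.measurableEmbedding _)]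
  rw [Measure.volume_eq_prod, lintegral_prod]
  · rw [← lint_gauss hd]
    apply lintegral_congr
    intro w
    have h2 : ∀ q : Fin 2 → ℝ, H d ((MeasurableEquiv.piFinSuccAbove (fun _ : Fin 3 => ℝ) 0).symm
        (w, q)) = ENNReal.ofReal (Real.exp (-(w ^ 2) / (2 * d ^ 2))) *
          ENNReal.ofReal (max 0 (min (q 0) (min (q 1) (4 * w - q 0 - q 1)))) := by
      intro q
      rfl
    simp_rw [h2]
    rw [lintegral_const_mul _ (by fun_prop)]
    congr 1
    rw [← lint_plane (4 * w)]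
    rw [← (volume_preserving_finTwoArrow ℝ).lintegral_comp_emb
      (MeasurableEquiv.measurableEmbedding _)]
    rfl
  · apply Measurable.aemeasurable
    exact (measurable_H d).comp (MeasurableEquiv.measurable _)

theorem lint_matrix {d : ℝ} (hd : 0 < d) (M : Matrix (Fin 3) (Fin 3) ℝ) (hM : M.det ≠ 0) :
    ∫⁻ y : Fin 3 → ℝ, H d (Matrix.toLin' M y) =
      ENNReal.ofReal (|M.det|⁻¹ * (64 / 9 * d ^ 4)) := by
  have h1 := Real.map_matrix_volume_pi_eq_smul_volume_pi hM
  have h2 : ∫⁻ y : Fin 3 → ℝ, H d (Matrix.toLin' M y) =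
      ∫⁻ u, H d u ∂(Measure.map (Matrix.toLin' M) volume) := by
    rw [lintegral_map (measurable_H d)]
    exact (LinearMap.continuous_of_finiteDimensional _).measurable
  rw [h2, h1, lintegral_smul_measure, lint_H hd, smul_eq_mul, ← ENNReal.ofReal_mul (abs_nonneg _),
    abs_inv]

/-- matrix with rows `a`, `a - b`, `a - c` -/
noncomputable def mat (a b c : E 3) : Matrix (Fin 3) (Fin 3) ℝ :=
  Matrix.of ![a.ofLp, (a - b).ofLp, (a - c).ofLp]

theorem det_mat_sq (a b c : E 3) :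
    (mat a b c).det ^ 2 = ‖a‖ ^ 2 * ‖b‖ ^ 2 * ‖c‖ ^ 2 - ‖b‖ ^ 2 * (inner ℝ a c) ^ 2
      - ‖c‖ ^ 2 * (inner ℝ a b) ^ 2 - ‖a‖ ^ 2 * (inner ℝ b c) ^ 2
      + 2 * (inner ℝ a b) * (inner ℝ a c) * (inner ℝ b c) := by
  simp only [EuclideanSpace.real_norm_sq_eq, PiLp.inner_apply, Fin.sum_univ_three,
    Matrix.det_fin_three, mat]
  simp
  ring

theorem gram_eq (a b c : E 3) (ha : a ≠ 0) :
    (mat a b c).det ^ 2 = ‖a‖ ^ 2 * gram2 (b + (-inner ℝ a b / ‖a‖ ^ 2) • a)
      (c + (-inner ℝ a c / ‖a‖ ^ 2) • a) := by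
  have hA : ‖a‖ ^ 2 ≠ 0 := by
    have := norm_ne_zero_iff.2 ha
    positivity
  rw [det_mat_sq, gram2]
  have h1 : ‖b + (-inner ℝ a b / ‖a‖ ^ 2) • a‖ ^ 2 = ‖b‖ ^ 2 - (inner ℝ a b) ^ 2 / ‖a‖ ^ 2 := by
    rw [norm_add_sq_real, inner_smul_right, norm_smul, real_inner_comm, mul_pow, Real.norm_eq_abs,
      sq_abs]
    field_simp
    ring
  have h2 : ‖c + (-inner ℝ a c / ‖a‖ ^ 2) • a‖ ^ 2 = ‖c‖ ^ 2 - (inner ℝ a c) ^ 2 / ‖a‖ ^ 2 := by
    rw [norm_add_sq_real, inner_smul_right, norm_smul, real_inner_comm, mul_pow, Real.norm_eq_abs,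
      sq_abs]
    field_simp
    ring
  have h3 : inner ℝ (b + (-inner ℝ a b / ‖a‖ ^ 2) • a) (c + (-inner ℝ a c / ‖a‖ ^ 2) • a) =
      inner ℝ b c - inner ℝ a b * inner ℝ a c / ‖a‖ ^ 2 := by
    rw [inner_add_left, inner_add_right, inner_add_right, inner_smul_left, inner_smul_left,
      inner_smul_right, inner_smul_right, real_inner_self_eq_norm_sq, real_inner_comm b a]
    simp only [conj_trivial]
    field_simp
    ring
  rw [h1, h2, h3]
  field_simp
  ring

theorem del_le {z : Fin 4 → E 3} (hs : ∑ i, z i = 0) (i j l : Fin 4)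
    (hij : j ≠ i) (hil : l ≠ i) (hjl : j ≠ l) (x : E 3) :
    (⨅ k : Fin 3, inner ℝ (z i - z (i.succAbove k)) x) ≤
      min (inner ℝ (z i - z j) x) (min (inner ℝ (z i - z l) x)
        (4 * inner ℝ (z i) x - inner ℝ (z i - z j) x - inner ℝ (z i - z l) x)) := by
  have key : ∀ m : Fin 4, m ≠ i → (⨅ k : Fin 3, inner ℝ (z i - z (i.succAbove k)) x) ≤
      inner ℝ (z i - z m) x := by
    intro m hm
    obtain ⟨k, rfl⟩ := Fin.exists_succAbove_eq hm
    exact ciInf_le (Set.finite_range _).bddBelow k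
  have hm : ∃ m : Fin 4, m ≠ i ∧ m ≠ j ∧ m ≠ l ∧ ∑ k, z k = z i + z j + z l + z m := by
    have hcard : ({i, j, l} : Finset (Fin 4)).card = 3 := by
      rw [Finset.card_insert_of_notMem, Finset.card_insert_of_notMem, Finset.card_singleton]
      · simpa using hjl
      · simp only [Finset.mem_insert, Finset.mem_singleton, not_or]
        exact ⟨hij.symm, hil.symm⟩
    have hc : (({i, j, l} : Finset (Fin 4))ᶜ).card = 1 := by
      rw [Finset.card_compl, hcard]; rfl
    obtain ⟨m, hm⟩ := Finset.card_eq_one.1 hc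
    have hm' : m ∈ (({i, j, l} : Finset (Fin 4))ᶜ) := by rw [hm]; simp
    simp only [Finset.mem_compl, Finset.mem_insert, Finset.mem_singleton, not_or] at hm'
    refine ⟨m, hm'.1, hm'.2.1, hm'.2.2, ?_⟩
    rw [← Finset.sum_add_sum_compl ({i, j, l} : Finset (Fin 4)) z, hm, Finset.sum_singleton]
    rw [Finset.sum_insert, Finset.sum_insert, Finset.sum_singleton]
    · abel
    · simpa using hjl
    · simp only [Finset.mem_insert, Finset.mem_singleton, not_or]
      exact ⟨hij.symm, hil.symm⟩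
  obtain ⟨m, hmi, hmj, hml, hsum⟩ := hm
  refine le_min (key j hij) (le_min (key l hil) ((key m hmi).trans (le_of_eq ?_)))
  rw [hs] at hsum
  have hzm : z m = -(z i + z j + z l) := by
    rw [eq_neg_iff_add_eq_zero, add_comm, ← hsum]
  rw [hzm]
  simp only [inner_sub_left, inner_neg_left, inner_add_left]
  ring

theorem main (hG : G 3 = (volume : Measure (E 3)).withDensity
      (fun x => ENNReal.ofReal ((2 * Real.pi) ^ (-((3 : ℕ) : ℝ) / 2) * Real.exp (-‖x‖ ^ 2 / 2))))
    {z : Fin 4 → E 3} (hs : ∑ i, z i = 0) (i j l : Fin 4)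
    (hij : j ≠ i) (hil : l ≠ i) (hjl : j ≠ l) (h0 : z i ≠ 0)
    (hdet : (mat (z i) (z j) (z l)).det ≠ 0) :
    Del z i ≤ (2 * Real.pi) ^ (-((3 : ℕ) : ℝ) / 2) *
      (|(mat (z i) (z j) (z l)).det|⁻¹ * (64 / 9 * ‖z i‖ ^ 4)) := by
  set M := mat (z i) (z j) (z l) with hM
  set cst : ℝ := (2 * Real.pi) ^ (-((3 : ℕ) : ℝ) / 2) with hcst
  have hcst0 : 0 < cst := by positivity
  have hd : 0 < ‖z i‖ := norm_pos_iff.2 h0
  have hfm : Measurable (fun x : E 3 => max 0 (⨅ k : Fin 3, inner ℝ (z i - z (i.succAbove k)) x)) := by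
    apply Measurable.max measurable_const
    apply Measurable.iInf
    intro k
    fun_prop
  have hkey : ∫⁻ x : E 3, ENNReal.ofReal
      (max 0 (⨅ k : Fin 3, inner ℝ (z i - z (i.succAbove k)) x)) ∂(G 3) ≤
      ENNReal.ofReal (cst * (|M.det|⁻¹ * (64 / 9 * ‖z i‖ ^ 4))) := by
    rw [hG, lintegral_withDensity_eq_lintegral_mul _ (by fun_prop) hfm.ennreal_ofReal]
    simp only [Pi.mul_apply]
    calc ∫⁻ x : E 3, ENNReal.ofReal (cst * Real.exp (-‖x‖ ^ 2 / 2)) *
          ENNReal.ofReal (max 0 (⨅ k : Fin 3, inner ℝ (z i - z (i.succAbove k)) x))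
        ≤ ∫⁻ x : E 3, ENNReal.ofReal cst * H ‖z i‖ (Matrix.toLin' M x.ofLp) := by
          apply lintegral_mono
          intro x
          have e0 : Matrix.toLin' M x.ofLp 0 = inner ℝ (z i) x := by
            rw [hM, mat, Matrix.toLin'_apply]
            simp [Matrix.mulVec, dotProduct, PiLp.inner_apply, Fin.sum_univ_three]
            ring
          have e1 : Matrix.toLin' M x.ofLp 1 = inner ℝ (z i - z j) x := by
            rw [hM, mat, Matrix.toLin'_apply]
            simp [Matrix.mulVec, dotProduct, PiLp.inner_apply, Fin.sum_univ_three]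
            ring
          have e2 : Matrix.toLin' M x.ofLp 2 = inner ℝ (z i - z l) x := by
            rw [hM, mat, Matrix.toLin'_apply]
            simp [Matrix.mulVec, dotProduct, PiLp.inner_apply, Fin.sum_univ_three]
            ring
          simp only [H]
          rw [e0, e1, e2, ENNReal.ofReal_mul hcst0.le, mul_assoc]
          have h2 : (inner ℝ (z i) x) ^ 2 ≤ (‖z i‖ * ‖x‖) ^ 2 := by
            rw [sq_le_sq, abs_of_nonneg (by positivity : 0 ≤ ‖z i‖ * ‖x‖)]
            exact abs_real_inner_le_norm _ _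
          have h3 : -‖x‖ ^ 2 / 2 ≤ -(inner ℝ (z i) x ^ 2) / (2 * ‖z i‖ ^ 2) := by
            rw [neg_div, neg_div, neg_le_neg_iff, div_le_div_iff₀ (by positivity) (by norm_num)]
            nlinarith
          exact mul_le_mul' le_rfl (mul_le_mul' (ENNReal.ofReal_le_ofReal (Real.exp_le_exp.2 h3))
            (ENNReal.ofReal_le_ofReal (max_le_max le_rfl (del_le hs i j l hij hil hjl x))))
      _ = ENNReal.ofReal (cst * (|M.det|⁻¹ * (64 / 9 * ‖z i‖ ^ 4))) := by
          have hmeas : Measurable (fun y : Fin 3 → ℝ => H ‖z i‖ (Matrix.toLin' M y)) :=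
            (measurable_H _).comp
              (LinearMap.continuous_of_finiteDimensional (Matrix.toLin' M)).measurable
          have hmeas2 : Measurable (fun x : E 3 => H ‖z i‖ (Matrix.toLin' M x.ofLp)) :=
            hmeas.comp (WithLp.measurable_ofLp 2 (Fin 3 → ℝ))
          rw [lintegral_const_mul _ hmeas2, ENNReal.ofReal_mul hcst0.le,
            ← lint_matrix hd M hdet]
          congr 1
          exact (PiLp.volume_preserving_ofLp (Fin 3)).lintegral_comp hmeas
  unfold Del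
  rw [integral_eq_lintegral_of_nonneg_ae
    (f := fun x : E 3 => max 0 (⨅ k : Fin 3, inner ℝ (z i - z (i.succAbove k)) x))
    (Filter.Eventually.of_forall fun x => le_max_left _ _) hfm.aestronglyMeasurable]
  exact ENNReal.toReal_le_of_le_ofReal (by positivity) hkey

end KFour

theorem del_le_three_aux (hG : G 3 = (volume : Measure (E 3)).withDensity
      (fun x => ENNReal.ofReal ((2 * Real.pi) ^ (-((3 : ℕ) : ℝ) / 2) * Real.exp (-‖x‖ ^ 2 / 2))))
    {z : Fin 4 → E 3} (hz : Crit 3 z) (i j l : Fin 4)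
    (hij : j ≠ i) (hil : l ≠ i) (hjl : j ≠ l) :
    Del z i ^ 2 * gram2 (ee z i j) (ee z i l) ≤ 512 / (81 * Real.pi ^ 3) * (‖z i‖ ^ 2) ^ 3 := by
  have h0 : z i ≠ 0 := by
    intro h
    have := hz.neg i j hij.symm
    rw [h, inner_zero_left] at this
    exact lt_irrefl _ this
  have hd : 0 < ‖z i‖ := norm_pos_iff.2 h0
  by_cases hD : gram2 (ee z i j) (ee z i l) ≤ 0
  · calc Del z i ^ 2 * gram2 (ee z i j) (ee z i l) ≤ 0 :=
        mul_nonpos_of_nonneg_of_nonpos (sq_nonneg _) hD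
      _ ≤ _ := by positivity
  replace hD := not_le.1 hD
  have hg := KFour.gram_eq (z i) (z j) (z l) h0
  have hg' : (KFour.mat (z i) (z j) (z l)).det ^ 2 = ‖z i‖ ^ 2 * gram2 (ee z i j) (ee z i l) := hg
  have hdet : (KFour.mat (z i) (z j) (z l)).det ≠ 0 := by
    intro h
    rw [h] at hg'
    have : 0 < ‖z i‖ ^ 2 * gram2 (ee z i j) (ee z i l) := by positivity
    rw [← hg'] at this
    simp at this
  have hm := KFour.main hG hz.sum_zero i j l hij hil hjl h0 hdet
  have hnn : 0 ≤ Del z i := integral_nonneg fun x => le_max_left _ _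
  have hsq : Del z i ^ 2 ≤ ((2 * Real.pi) ^ (-((3 : ℕ) : ℝ) / 2) *
      (|(KFour.mat (z i) (z j) (z l)).det|⁻¹ * (64 / 9 * ‖z i‖ ^ 4))) ^ 2 :=
    pow_le_pow_left₀ hnn hm 2
  have hc : ((2 * Real.pi) ^ (-((3 : ℕ) : ℝ) / 2)) ^ 2 = 1 / (8 * Real.pi ^ 3) := by
    rw [← Real.rpow_natCast, ← Real.rpow_mul (by positivity)]
    have : (-((3 : ℕ) : ℝ) / 2) * ((2 : ℕ) : ℝ) = -((3 : ℕ) : ℝ) := by push_cast; ring
    rw [this, Real.rpow_neg (by positivity), Real.rpow_natCast]
    field_simp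
    norm_num
  have hpos : 0 < (KFour.mat (z i) (z j) (z l)).det ^ 2 := by positivity
  rw [mul_pow, hc, mul_pow, inv_pow, sq_abs] at hsq
  calc Del z i ^ 2 * gram2 (ee z i j) (ee z i l)
      ≤ (1 / (8 * Real.pi ^ 3) * (((KFour.mat (z i) (z j) (z l)).det ^ 2)⁻¹ *
        (64 / 9 * ‖z i‖ ^ 4) ^ 2)) * gram2 (ee z i j) (ee z i l) :=
        mul_le_mul_of_nonneg_right hsq hD.le
    _ = 512 / (81 * Real.pi ^ 3) * (‖z i‖ ^ 2) ^ 3 := by
        rw [hg']
        have h1 : gram2 (ee z i j) (ee z i l) ≠ 0 := hD.ne'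
        have h2 : ‖z i‖ ≠ 0 := hd.ne'
        have h3 : Real.pi ≠ 0 := Real.pi_ne_zero
        field_simp
        norm_num

/-- Module KFOUR of P226. -/
theorem del_le_three {z : Fin 4 → E 3} (hz : Crit 3 z) (i j l : Fin 4)
    (hij : j ≠ i) (hil : l ≠ i) (hjl : j ≠ l) :
    Del z i ^ 2 * gram2 (ee z i j) (ee z i l) ≤ 512 / (81 * Real.pi ^ 3) * (‖z i‖ ^ 2) ^ 3 :=
  del_le_three_aux (G_eq_withDensity 3) hz i j l hij hil hjl

end Vale.Agent.Lib.P226
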