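import Vale.Agent.Lib.P226.Defs

/-!
# P226, module NUMFOUR: real arithmetic for four cells
-/

namespace Vale.Agent.Lib.P226

/-- tangent inequality for `(a (1 - a)) ^ 2` -/
theorem psi_tangent {a p : ℝ} (h : (1 - a - p) ^ 2 ≤ 2 * p * (1 - p)) :
    (a * (1 - a)) ^ 2 ≤ (p * (1 - p)) ^ 2 + 2 * p * (1 - p) * (1 - 2 * p) * (a - p) := by
  have h1 : (a * (1 - a)) ^ 2 - (p * (1 - p)) ^ 2 - 2 * p * (1 - p) * (1 - 2 * p) * (a - p)
      = (a - p) ^ 2 * ((1 - a - p) ^ 2 - 2 * p * (1 - p)) := by ring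
  have h2 : (a - p) ^ 2 * ((1 - a - p) ^ 2 - 2 * p * (1 - p)) ≤ 0 :=
    mul_nonpos_of_nonneg_of_nonpos (sq_nonneg _) (by linarith)
  linarith

theorem psi_le_sixteenth {a : ℝ} (h0 : 0 ≤ a) (h1 : a ≤ 1) : (a * (1 - a)) ^ 2 ≤ 1 / 16 := by
  have h2 : a * (1 - a) ≤ 1 / 4 := by nlinarith [sq_nonneg (a - 1 / 2)]
  have h3 : 0 ≤ a * (1 - a) := mul_nonneg h0 (by linarith)
  nlinarith

theorem psi_line {a : ℝ} (h0 : 0 ≤ a) (h1 : a ≤ 1) : (a * (1 - a)) ^ 2 ≤ 4 / 27 * a := by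
  have h : 4 / 27 * a - (a * (1 - a)) ^ 2 = a * (a - 1 / 3) ^ 2 * (4 / 3 - a) := by ring
  have h2 : 0 ≤ a * (a - 1 / 3) ^ 2 * (4 / 3 - a) :=
    mul_nonneg (mul_nonneg h0 (sq_nonneg _)) (by linarith)
  linarith

/-- the sum of three tangent bounds at `p = (1 - x) / 3` -/
theorem psi_three {a1 a2 a3 x : ℝ} (hx : 0 ≤ x) (h1 : x ≤ a1) (h2 : x ≤ a2) (h3 : x ≤ a3)
    (hs : a1 + a2 + a3 + x = 1) :
    (a1 * (1 - a1)) ^ 2 + (a2 * (1 - a2)) ^ 2 + (a3 * (1 - a3)) ^ 2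
      ≤ (1 - x) ^ 2 * (2 + x) ^ 2 / 27 := by
  have key : ∀ a : ℝ, x ≤ a → a ≤ 1 → (1 - a - (1 - x) / 3) ^ 2
      ≤ 2 * ((1 - x) / 3) * (1 - (1 - x) / 3) := by
    intro a ha ha1
    have hx1 : x ≤ 1 := ha.trans ha1
    have e1 : 1 - a - (1 - x) / 3 ≤ 2 * ((1 - x) / 3) := by linarith
    have e2 : -((1 - x) / 3) ≤ 1 - a - (1 - x) / 3 := by linarith
    have e3 : 0 ≤ (1 - x) / 3 := by linarith
    nlinarith [mul_nonneg (sub_nonneg.2 e1) (by linarith : 0 ≤ 1 - a - (1 - x) / 3 + (1 - x) / 3)]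
  have t1 := psi_tangent (key a1 h1 (by linarith))
  have t2 := psi_tangent (key a2 h2 (by linarith))
  have t3 := psi_tangent (key a3 h3 (by linarith))
  have e : (a1 - (1 - x) / 3) + (a2 - (1 - x) / 3) + (a3 - (1 - x) / 3) = 0 := by linarith
  have e4 : 2 * ((1 - x) / 3) * (1 - (1 - x) / 3) * (1 - 2 * ((1 - x) / 3)) * (a1 - (1 - x) / 3)
      + 2 * ((1 - x) / 3) * (1 - (1 - x) / 3) * (1 - 2 * ((1 - x) / 3)) * (a2 - (1 - x) / 3)
      + 2 * ((1 - x) / 3) * (1 - (1 - x) / 3) * (1 - 2 * ((1 - x) / 3)) * (a3 - (1 - x) / 3)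
      = 0 := by
    rw [← mul_add, ← mul_add, e, mul_zero]
  have e5 : 3 * ((1 - x) / 3 * (1 - (1 - x) / 3)) ^ 2 = (1 - x) ^ 2 * (2 + x) ^ 2 / 27 := by ring
  linarith

/-- large `x`, in normalised form -/
theorem four_large {a1 a2 a3 x w0 w1 w2 w3 : ℝ} (hx : 815 / 10000 ≤ x) (h1 : x ≤ a1)
    (h2 : x ≤ a2) (h3 : x ≤ a3) (hs : a1 + a2 + a3 + x = 1) (k0 : w0 ≤ (x * (1 - x)) ^ 2)
    (k0' : w0 ≤ 7854 / 10000 * x ^ 2) (k1 : w1 ≤ (a1 * (1 - a1)) ^ 2)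
    (k2 : w2 ≤ (a2 * (1 - a2)) ^ 2) (k3 : w3 ≤ (a3 * (1 - a3)) ^ 2) :
    w0 + w1 + w2 + w3 ≤ 9 / 64 := by
  have h := psi_three (by linarith) h1 h2 h3 hs
  have hx4 : x ≤ 1 / 4 := by linarith
  rcases le_total x (918 / 10000) with hb | hb
  · have e : 7854 / 10000 * x ^ 2 + (1 - x) ^ 2 * (2 + x) ^ 2 / 27 ≤ 9 / 64 := by
      have f1 : 0 ≤ (x - 815 / 10000) * (918 / 10000 - x) :=
        mul_nonneg (by linarith) (by linarith)
      have f2 : (1 - x) * (2 + x) = 2 - x - x ^ 2 := by ring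
      have f3 : (1 - x) ^ 2 * (2 + x) ^ 2 = (2 - x - x ^ 2) ^ 2 := by rw [← f2]; ring
      rw [f3]
      nlinarith [f1, mul_nonneg f1 (by linarith : 0 ≤ x), sq_nonneg x,
        mul_nonneg f1 (sq_nonneg x)]
    linarith
  · have e : (x * (1 - x)) ^ 2 + (1 - x) ^ 2 * (2 + x) ^ 2 / 27 ≤ 9 / 64 := by
      have f : 9 / 64 - ((x * (1 - x)) ^ 2 + (1 - x) ^ 2 * (2 + x) ^ 2 / 27)
          = (x - 1 / 4) ^ 2 * (-1792 * x ^ 2 + 2432 * x - 208) / 1728 := by ring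
      have f2 : 0 ≤ -1792 * x ^ 2 + 2432 * x - 208 := by nlinarith
      have f3 : 0 ≤ (x - 1 / 4) ^ 2 * (-1792 * x ^ 2 + 2432 * x - 208) / 1728 := by positivity
      linarith
    linarith

/-- small `x`: each of the three cells is large -/
theorem four_cell {a1 a2 a3 x w0 w1 w2 w3 : ℝ} (hx0 : 0 ≤ x) (hx : x ≤ 815 / 10000)
    (h1 : x ≤ a1) (h2 : x ≤ a2) (h3 : x ≤ a3) (hs : a1 + a2 + a3 + x = 1)
    (k0' : w0 ≤ 7854 / 10000 * x ^ 2) (k1 : w1 ≤ (a1 * (1 - a1)) ^ 2)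
    (k2 : w2 ≤ (a2 * (1 - a2)) ^ 2) (k3 : w3 ≤ (a3 * (1 - a3)) ^ 2)
    (hF : 9 / 64 < w0 + w1 + w2 + w3) (hy : w3 ≤ 3927 / 10000 * (2 * x ^ 2 + 1107 / 1000 * x)) :
    False := by
  have b1 := psi_le_sixteenth (hx0.trans h1) (by linarith)
  have b2 := psi_le_sixteenth (hx0.trans h2) (by linarith)
  have l1 := psi_line (hx0.trans h1) (by linarith)
  have l2 := psi_line (hx0.trans h2) (by linarith)
  have ha3 := hx0.trans h3
  rcases le_total a3 (1377 / 10000) with c | c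
  · -- small third cell
    rcases le_total x (3 / 100) with d | d
    · have h0 : 0 ≤ a3 * (1 - a3) := mul_nonneg ha3 (by linarith)
      have h5 : a3 * (1 - a3) ≤ 1377 / 10000 :=
        (mul_le_of_le_one_right ha3 (by linarith)).trans c
      have e : (a3 * (1 - a3)) ^ 2 ≤ (1377 / 10000) ^ 2 := pow_le_pow_left₀ h0 h5 2
      have hx2 : x ^ 2 ≤ (3 / 100) ^ 2 := pow_le_pow_left₀ hx0 d 2
      linarith
    · rcases le_total a3 (115 / 1000) with f | f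
      · have e1 : a3 * (1 - a3) ≤ 115 / 1000 * (885 / 1000) := by
          have := mul_nonneg (sub_nonneg.2 f) (by linarith : 0 ≤ 885 / 1000 - a3)
          linarith
        have h0 : 0 ≤ a3 * (1 - a3) := mul_nonneg ha3 (by linarith)
        have e2 : (a3 * (1 - a3)) ^ 2 ≤ (115 / 1000 * (885 / 1000)) ^ 2 :=
          pow_le_pow_left₀ h0 e1 2
        have hx2 : x ^ 2 ≤ (815 / 10000) ^ 2 := pow_le_pow_left₀ hx0 hx 2
        linarith
      · have g : 4 / 27 * a3 - (a3 * (1 - a3)) ^ 2 = a3 * ((a3 - 1 / 3) ^ 2 * (4 / 3 - a3)) := by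
          ring
        have g1 : (1 / 3 - 1377 / 10000) ^ 2 ≤ (a3 - 1 / 3) ^ 2 := by
          have := mul_nonneg (sub_nonneg.2 c) (by linarith : 0 ≤ 2 / 3 - 1377 / 10000 - a3)
          linarith
        have g2 : 4 / 3 - 1377 / 10000 ≤ 4 / 3 - a3 := by linarith
        have g3 : (1 / 3 - 1377 / 10000) ^ 2 * (4 / 3 - 1377 / 10000)
            ≤ (a3 - 1 / 3) ^ 2 * (4 / 3 - a3) :=
          mul_le_mul g1 g2 (by norm_num) (sq_nonneg _)
        have g4 : (115 / 1000 : ℝ) * ((1 / 3 - 1377 / 10000) ^ 2 * (4 / 3 - 1377 / 10000))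
            ≤ a3 * ((a3 - 1 / 3) ^ 2 * (4 / 3 - a3)) :=
          mul_le_mul f g3 (by norm_num) ha3
        have hxx := mul_nonneg (sub_nonneg.2 d) (sub_nonneg.2 hx)
        linarith
  · have t : (1 - a3 - 1 / 4) ^ 2 ≤ 2 * (1 / 4) * (1 - 1 / 4) := by
      have h6 : a3 ≤ 1 := by linarith
      have := mul_nonneg (sub_nonneg.2 c) (sub_nonneg.2 h6)
      linarith
    have t2 := psi_tangent t
    have hxx := mul_nonneg hx0 (sub_nonneg.2 hx)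
    linarith

/-- pure real arithmetic for four cells -/
theorem num_four (a1 a2 a3 x v1 v2 v3 v0 c1 c2 c3 : ℝ) (hx : 0 ≤ x) (h1 : x ≤ a1) (h2 : x ≤ a2)
    (h3 : x ≤ a3) (hs : a1 + a2 + a3 + x = 1) (p0 : 0 ≤ v0) (p1 : 0 ≤ v1) (p2 : 0 ≤ v2)
    (p3 : 0 ≤ v3) (k0 : v0 ≤ 8 / Real.pi * (x * (1 - x)) ^ 2)
    (k1 : v1 ≤ 8 / Real.pi * (a1 * (1 - a1)) ^ 2) (k2 : v2 ≤ 8 / Real.pi * (a2 * (1 - a2)) ^ 2)
    (k3 : v3 ≤ 8 / Real.pi * (a3 * (1 - a3)) ^ 2) (k0' : v0 ≤ 2 * x ^ 2)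
    (g1 : 0 ≤ c1) (g2 : 0 ≤ c2) (g3 : 0 ≤ c3) (gs : c1 + c2 + c3 = 1)
    (hF : 9 / (8 * Real.pi) < v0 + v1 + v2 + v3)
    (hD : ((v1 - c1 ^ 2 * v0) + (v2 - c2 ^ 2 * v0) + (v3 - c3 ^ 2 * v0)) ^ 2
      - 2 * ((v1 - c1 ^ 2 * v0) ^ 2 + (v2 - c2 ^ 2 * v0) ^ 2 + (v3 - c3 ^ 2 * v0) ^ 2)
      < 4 * (128 / (9 * Real.pi ^ 3)) * v0) : False := by
  have hpi := Real.pi_pos
  have hlo := Real.pi_gt_d2
  have hhi := Real.pi_lt_d4
  set P := Real.pi with hP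
  -- normalised values
  have sc : ∀ v a : ℝ, v ≤ 8 / P * (a * (1 - a)) ^ 2 → P / 8 * v ≤ (a * (1 - a)) ^ 2 := by
    intro v a h
    have := mul_le_mul_of_nonneg_left h (by positivity : 0 ≤ P / 8)
    have e : P / 8 * (8 / P * (a * (1 - a)) ^ 2) = (a * (1 - a)) ^ 2 := by
      field_simp
    rwa [e] at this
  have K0 := sc v0 x k0
  have K1 := sc v1 a1 k1
  have K2 := sc v2 a2 k2
  have K3 := sc v3 a3 k3
  have K0' : P / 8 * v0 ≤ 7854 / 10000 * x ^ 2 := by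
    have e1 : P / 8 * v0 ≤ P / 8 * (2 * x ^ 2) :=
      mul_le_mul_of_nonneg_left k0' (by positivity)
    have e2 : P / 4 * x ^ 2 ≤ 7854 / 10000 * x ^ 2 :=
      mul_le_mul_of_nonneg_right (by linarith) (sq_nonneg x)
    have e3 : P / 8 * (2 * x ^ 2) = P / 4 * x ^ 2 := by ring
    linarith
  have HF : 9 / 64 < P / 8 * v0 + P / 8 * v1 + P / 8 * v2 + P / 8 * v3 := by
    have e := mul_lt_mul_of_pos_left hF (by positivity : 0 < P / 8)
    have e2 : P / 8 * (9 / (8 * P)) = 9 / 64 := by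
      field_simp
      norm_num
    rw [e2] at e
    linarith
  have hxs : x < 815 / 10000 := by
    by_contra hc
    push Not at hc
    exact absurd (four_large hc h1 h2 h3 hs K0 K0' K1 K2 K3) (not_le.2 HF)
  -- lower bounds of the cells
  have lowaux : ∀ v : ℝ, v ≤ 2 * x ^ 2 + 1107 / 1000 * x →
      P / 8 * v ≤ 3927 / 10000 * (2 * x ^ 2 + 1107 / 1000 * x) := by
    intro v h
    have e1 : P / 8 * v ≤ P / 8 * (2 * x ^ 2 + 1107 / 1000 * x) :=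
      mul_le_mul_of_nonneg_left h (by positivity)
    have e2 : 0 ≤ 2 * x ^ 2 + 1107 / 1000 * x := by positivity
    have e3 : P / 8 * (2 * x ^ 2 + 1107 / 1000 * x)
        ≤ 3927 / 10000 * (2 * x ^ 2 + 1107 / 1000 * x) :=
      mul_le_mul_of_nonneg_right (by linarith) e2
    linarith
  have L3 : 2 * x ^ 2 + 1107 / 1000 * x < v3 := by
    by_contra hc
    push Not at hc
    exact four_cell (w0 := P / 8 * v0) (w1 := P / 8 * v1) (w2 := P / 8 * v2) (w3 := P / 8 * v3)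
      hx hxs.le h1 h2 h3 hs K0' K1 K2 K3 HF (lowaux v3 hc)
  have L2 : 2 * x ^ 2 + 1107 / 1000 * x < v2 := by
    by_contra hc
    push Not at hc
    exact four_cell (w0 := P / 8 * v0) (w1 := P / 8 * v1) (w2 := P / 8 * v3) (w3 := P / 8 * v2)
      hx hxs.le h1 h3 h2 (by linarith) K0' K1 K3 K2 (by linarith) (lowaux v2 hc)
  have L1 : 2 * x ^ 2 + 1107 / 1000 * x < v1 := by
    by_contra hc
    push Not at hc
    exact four_cell (w0 := P / 8 * v0) (w1 := P / 8 * v3) (w2 := P / 8 * v2) (w3 := P / 8 * v1)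
      hx hxs.le h3 h2 h1 (by linarith) K0' K3 K2 K1 (by linarith) (lowaux v1 hc)
  -- the three numbers `u`
  have cu : ∀ c : ℝ, 0 ≤ c → c ≤ 1 → c ^ 2 * v0 ≤ v0 := by
    intro c h0 h1
    exact mul_le_of_le_one_left p0 (pow_le_one₀ h0 h1)
  have U1 : 1107 / 1000 * x < v1 - c1 ^ 2 * v0 := by
    have := cu c1 g1 (by linarith)
    linarith
  have U2 : 1107 / 1000 * x < v2 - c2 ^ 2 * v0 := by
    have := cu c2 g2 (by linarith)
    linarith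
  have U3 : 1107 / 1000 * x < v3 - c3 ^ 2 * v0 := by
    have := cu c3 g3 (by linarith)
    linarith
  -- upper bounds `v ≤ 1 / (2 π)`
  have T : ∀ v a : ℝ, 0 ≤ a → a ≤ 1 → P / 8 * v ≤ (a * (1 - a)) ^ 2 → P / 8 * v ≤ 1 / 16 :=
    fun v a h0 h1 h => h.trans (psi_le_sixteenth h0 h1)
  have T1 := T v1 a1 (hx.trans h1) (by linarith) K1
  have T2 := T v2 a2 (hx.trans h2) (by linarith) K2
  have T3 := T v3 a3 (hx.trans h3) (by linarith) K3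
  -- triangle inequality among the `u`
  have hx2 : x ^ 2 ≤ (815 / 10000) ^ 2 := pow_le_pow_left₀ hx hxs.le 2
  have tri : ∀ va vb vc ca cb cd : ℝ, P / 8 * va ≤ 1 / 16 → va + vb + vc = v1 + v2 + v3 →
      0 ≤ ca → 0 ≤ cb → 0 ≤ cd → ca + cb + cd = 1 →
      va - ca ^ 2 * v0 ≤ (vb - cb ^ 2 * v0) + (vc - cd ^ 2 * v0) := by
    intro va vb vc ca cb cd hva hsum q1 q2 q3 q4
    have e1 : cb ^ 2 + cd ^ 2 ≤ 1 := by
      have r1 : (cb + cd) ^ 2 ≤ 1 := pow_le_one₀ (by linarith) (by linarith)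
      have r2 := mul_nonneg q2 q3
      linarith
    have e2 : (cb ^ 2 + cd ^ 2) * v0 ≤ v0 := mul_le_of_le_one_left p0 e1
    have e3 : 0 ≤ ca ^ 2 * v0 := by positivity
    have e4 : va ≤ vb + vc - v0 := by
      have hh : P / 8 * (2 * va + 2 * v0) ≤ P / 8 * (v0 + v1 + v2 + v3) := by
        have r1 : P / 8 * (2 * va + 2 * v0) = 2 * (P / 8 * va) + 2 * (P / 8 * v0) := by ring
        have r2 : P / 8 * (v0 + v1 + v2 + v3)
            = P / 8 * v0 + P / 8 * v1 + P / 8 * v2 + P / 8 * v3 := by ring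
        rw [r1, r2]
        linarith
      have := le_of_mul_le_mul_left hh (by positivity : 0 < P / 8)
      linarith
    have e5 : (cb ^ 2 + cd ^ 2) * v0 = cb ^ 2 * v0 + cd ^ 2 * v0 := by ring
    linarith
  -- the final contradiction
  have fin : ∀ ua ub uc : ℝ, 1107 / 1000 * x < ua → 1107 / 1000 * x < ub →
      1107 / 1000 * x < uc → ub ≤ ua → uc ≤ ua → ua ≤ ub + uc →
      ¬ ((ua + ub + uc) ^ 2 - 2 * (ua ^ 2 + ub ^ 2 + uc ^ 2)
        < 4 * (128 / (9 * P ^ 3)) * v0) := by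
    intro ua ub uc q1 q2 q3 q4 q5 q6 q7
    have hx' : 0 ≤ 1107 / 1000 * x := by positivity
    have e1 : (ub + uc - ua) ^ 2 ≤ ub * uc := by
      have f1 : 0 ≤ ub + uc - ua := by linarith
      have f2 : ub + uc - ua ≤ ub := by linarith
      have f3 : ub + uc - ua ≤ uc := by linarith
      calc (ub + uc - ua) ^ 2 = (ub + uc - ua) * (ub + uc - ua) := sq _
        _ ≤ ub * uc := mul_le_mul f2 f3 f1 (by linarith)
    have e2 : (1107 / 1000 * x) * (1107 / 1000 * x) ≤ ub * uc :=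
      mul_le_mul q2.le q3.le hx' (by linarith)
    have e3 : 4 * (128 / (9 * P ^ 3)) ≤ 3 * (1107 / 1000) ^ 2 / 2 := by
      have e4 : (314 / 100 : ℝ) ^ 3 ≤ P ^ 3 := pow_le_pow_left₀ (by norm_num) (by linarith) 3
      rw [← mul_div_assoc, div_le_iff₀ (by positivity)]
      linarith
    have e5 : 4 * (128 / (9 * P ^ 3)) * v0 ≤ 3 * (1107 / 1000) ^ 2 / 2 * (2 * x ^ 2) :=
      mul_le_mul e3 k0' p0 (by positivity)
    have e6 : (ua + ub + uc) ^ 2 - 2 * (ua ^ 2 + ub ^ 2 + uc ^ 2)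
        = 4 * (ub * uc) - (ub + uc - ua) ^ 2 := by ring
    rw [e6] at q7
    linarith
  have t1 := tri v1 v2 v3 c1 c2 c3 T1 rfl g1 g2 g3 gs
  have t2 := tri v2 v1 v3 c2 c1 c3 T2 (by ring) g2 g1 g3 (by linarith)
  have t3 := tri v3 v1 v2 c3 c1 c2 T3 (by ring) g3 g1 g2 (by linarith)
  set u1 := v1 - c1 ^ 2 * v0 with hu1
  set u2 := v2 - c2 ^ 2 * v0 with hu2
  set u3 := v3 - c3 ^ 2 * v0 with hu3
  rcases le_total u1 u2 with m12 | m12
  · rcases le_total u2 u3 with m23 | m23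
    · refine fin u3 u1 u2 U3 U1 U2 (m12.trans m23) m23 t3 ?_
      have e : (u3 + u1 + u2) ^ 2 - 2 * (u3 ^ 2 + u1 ^ 2 + u2 ^ 2)
        = (u1 + u2 + u3) ^ 2 - 2 * (u1 ^ 2 + u2 ^ 2 + u3 ^ 2) := by ring
      rw [e]; exact hD
    · refine fin u2 u1 u3 U2 U1 U3 m12 m23 t2 ?_
      have e : (u2 + u1 + u3) ^ 2 - 2 * (u2 ^ 2 + u1 ^ 2 + u3 ^ 2)
        = (u1 + u2 + u3) ^ 2 - 2 * (u1 ^ 2 + u2 ^ 2 + u3 ^ 2) := by ring
      rw [e]; exact hD
  · rcases le_total u1 u3 with m13 | m13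
    · refine fin u3 u1 u2 U3 U1 U2 m13 (m12.trans m13) t3 ?_
      have e : (u3 + u1 + u2) ^ 2 - 2 * (u3 ^ 2 + u1 ^ 2 + u2 ^ 2)
        = (u1 + u2 + u3) ^ 2 - 2 * (u1 ^ 2 + u2 ^ 2 + u3 ^ 2) := by ring
      rw [e]; exact hD
    · exact fin u1 u2 u3 U1 U2 U3 m12 m13 t1 hD

end Vale.Agent.Lib.P226
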