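import Vale.Agent.Lib.P226.Extract
import Vale.Agent.Lib.P226.KFour
import Vale.Agent.Lib.P226.Cap
import Vale.Agent.Lib.P226.Num4

/-!
# P226: no critical configuration of four vectors in dimension three
-/

namespace Vale.Agent.Lib.P226

open MeasureTheory ProbabilityTheory

namespace NoThree

theorem cap_half (A : Set (E 3)) (hA : MeasurableSet A)
    (hc : ∀ x ∈ A, ∀ t : ℝ, 0 < t → t • x ∈ A) (ha : (G 3).real A ≤ 1 / 2) :
    ‖∫ x in A, x ∂(G 3)‖ ≤ 4 * ((G 3).real A * (1 - (G 3).real A)) / √(2 * Real.pi) := by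
  have h0 : 0 ≤ (G 3).real A := measureReal_nonneg
  have h := cap_bound_three A hA hc (1 - 2 * (G 3).real A) (by linarith) (by linarith)
  refine h.trans (le_of_eq ?_)
  congr 1
  ring

theorem cap_three (A : Set (E 3)) (hA : MeasurableSet A)
    (hc : ∀ x ∈ A, ∀ t : ℝ, 0 < t → t • x ∈ A) :
    ‖∫ x in A, x ∂(G 3)‖ ≤ 4 * ((G 3).real A * (1 - (G 3).real A)) / √(2 * Real.pi) := by
  rcases le_total ((G 3).real A) (1 / 2) with ha | ha
  · exact cap_half A hA hc ha
  · have hcc : ∀ x ∈ Aᶜ, ∀ t : ℝ, 0 < t → t • x ∈ Aᶜ := by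
      intro x hx t ht hx2
      apply hx
      have h1 := hc _ hx2 t⁻¹ (inv_pos.2 ht)
      rwa [smul_smul, inv_mul_cancel₀ ht.ne', one_smul] at h1
    have hm : (G 3).real Aᶜ = 1 - (G 3).real A := probReal_compl_eq_one_sub hA
    have h2 := cap_half Aᶜ hA.compl hcc (by rw [hm]; linarith)
    rw [hm] at h2
    have hint : Integrable (fun x : E 3 => x) (G 3) := IsGaussian.integrable_id
    have h3 : ∫ x in A, x ∂(G 3) + ∫ x in Aᶜ, x ∂(G 3) = 0 := by
      rw [integral_add_compl hA hint]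
      exact integral_id_stdGaussian
    have h4 : ∫ x in A, x ∂(G 3) = - ∫ x in Aᶜ, x ∂(G 3) := eq_neg_of_add_eq_zero_left h3
    rw [h4, norm_neg]
    refine h2.trans (le_of_eq ?_)
    congr 1
    ring

theorem cap_sq (A : Set (E 3)) (hA : MeasurableSet A)
    (hc : ∀ x ∈ A, ∀ t : ℝ, 0 < t → t • x ∈ A) :
    ‖∫ x in A, x ∂(G 3)‖ ^ 2 ≤ 8 / Real.pi * ((G 3).real A * (1 - (G 3).real A)) ^ 2 := by
  have h := pow_le_pow_left₀ (norm_nonneg _) (cap_three A hA hc) 2
  refine h.trans (le_of_eq ?_)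
  rw [div_pow, mul_pow, Real.sq_sqrt (by positivity)]
  have hpi := Real.pi_pos
  field_simp
  ring

variable {z : Fin 4 → E 3}

theorem ne_zero (hz : Crit 3 z) (i : Fin 4) : z i ≠ 0 := by
  intro h
  have h1 := hz.neg i (i.succAbove 0) (Fin.succAbove_ne i 0).symm
  rw [h, inner_zero_left] at h1
  exact lt_irrefl _ h1

theorem sum_others (hz : Crit 3 z) (i : Fin 4) :
    z (i.succAbove 0) + z (i.succAbove 1) + z (i.succAbove 2) = - z i := by
  have h := hz.sum_zero
  rw [Fin.sum_univ_succAbove _ i, Fin.sum_univ_three] at h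
  exact eq_neg_of_add_eq_zero_right h

theorem cc_nonneg (hz : Crit 3 z) (i j : Fin 4) (hij : j ≠ i) : 0 ≤ cc z i j := by
  unfold cc
  have h := hz.neg i j hij.symm
  exact div_nonneg (by linarith) (sq_nonneg _)

theorem cc_sum (hz : Crit 3 z) (i : Fin 4) :
    cc z i (i.succAbove 0) + cc z i (i.succAbove 1) + cc z i (i.succAbove 2) = 1 := by
  have h0 : 0 < ‖z i‖ ^ 2 := by
    have := norm_pos_iff.2 (ne_zero hz i)
    positivity
  have h1 : inner ℝ (z i) (z (i.succAbove 0)) + inner ℝ (z i) (z (i.succAbove 1)) +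
      inner ℝ (z i) (z (i.succAbove 2)) = - ‖z i‖ ^ 2 := by
    rw [← inner_add_right, ← inner_add_right, sum_others hz i, inner_neg_right,
      real_inner_self_eq_norm_sq]
  unfold cc
  rw [← add_div, ← add_div, div_eq_one_iff_eq h0.ne']
  linarith

theorem inner_cc (hz : Crit 3 z) (i j : Fin 4) :
    inner ℝ (z i) (z j) = - (cc z i j * ‖z i‖ ^ 2) := by
  have h0 : ‖z i‖ ^ 2 ≠ 0 := by
    have := norm_pos_iff.2 (ne_zero hz i)
    positivity
  unfold cc
  rw [div_mul_cancel₀ _ h0, neg_neg]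

theorem norm_ee (hz : Crit 3 z) (i j : Fin 4) :
    ‖ee z i j‖ ^ 2 = ‖z j‖ ^ 2 - cc z i j ^ 2 * ‖z i‖ ^ 2 := by
  unfold ee
  rw [norm_add_sq_real, inner_smul_right, real_inner_comm, inner_cc hz, norm_smul, mul_pow,
    Real.norm_eq_abs, sq_abs]
  ring

theorem ee_sum (hz : Crit 3 z) (i : Fin 4) :
    ee z i (i.succAbove 2) = - (ee z i (i.succAbove 0) + ee z i (i.succAbove 1)) := by
  have h1 := cc_sum hz i
  have h2 := sum_others hz i
  have h3 : ee z i (i.succAbove 0) + ee z i (i.succAbove 1) + ee z i (i.succAbove 2) = 0 := by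
    unfold ee
    calc z (i.succAbove 0) + cc z i (i.succAbove 0) • z i +
          (z (i.succAbove 1) + cc z i (i.succAbove 1) • z i) +
          (z (i.succAbove 2) + cc z i (i.succAbove 2) • z i) =
        (z (i.succAbove 0) + z (i.succAbove 1) + z (i.succAbove 2)) +
          (cc z i (i.succAbove 0) + cc z i (i.succAbove 1) + cc z i (i.succAbove 2)) • z i := by
          module
      _ = 0 := by rw [h1, h2, one_smul, neg_add_cancel]
  exact eq_neg_of_add_eq_zero_right h3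

theorem heron (u v w : E 3) (h : w = -(u + v)) :
    (‖u‖ ^ 2 + ‖v‖ ^ 2 + ‖w‖ ^ 2) ^ 2 - 2 * ((‖u‖ ^ 2) ^ 2 + (‖v‖ ^ 2) ^ 2 + (‖w‖ ^ 2) ^ 2) =
      4 * gram2 u v := by
  unfold gram2
  rw [h, norm_neg, norm_add_sq_real]
  ring

theorem gram2_nonneg {n : ℕ} (u v : E n) : 0 ≤ gram2 u v := by
  unfold gram2
  have h := real_inner_mul_inner_self_le u v
  rw [real_inner_self_eq_norm_sq, real_inner_self_eq_norm_sq] at h
  nlinarith

end NoThree

open NoThree

theorem no_crit_three (h1 : Bound 3) (z : Fin 4 → E 3) : ¬ Crit 3 z := by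
  intro hz
  obtain ⟨i, hi⟩ := Finite.exists_min (fun l => mass z l)
  set j1 := i.succAbove 0 with hj1
  set j2 := i.succAbove 1 with hj2
  set j3 := i.succAbove 2 with hj3
  have n1 : j1 ≠ i := Fin.succAbove_ne i 0
  have n2 : j2 ≠ i := Fin.succAbove_ne i 1
  have n3 : j3 ≠ i := Fin.succAbove_ne i 2
  have n12 : j1 ≠ j2 := by
    rw [hj1, hj2]
    exact fun h => by simpa using Fin.succAbove_right_injective h
  have hv0 : 0 < ‖z i‖ ^ 2 := by
    have := norm_pos_iff.2 (ne_zero hz i)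
    positivity
  have hcap : ∀ l, ‖z l‖ ^ 2 ≤ 8 / Real.pi * (mass z l * (1 - mass z l)) ^ 2 := by
    intro l
    have h := cap_sq (cell z l) (measurableSet_cell_std z l) (cell_cone z l)
    rw [hz.moment l] at h
    exact h
  have hsum : mass z j1 + mass z j2 + mass z j3 + mass z i = 1 := by
    have h := hz.mass_sum
    rw [Fin.sum_univ_succAbove _ i, Fin.sum_univ_three] at h
    linarith
  have hF : 9 / (8 * Real.pi) < ‖z i‖ ^ 2 + ‖z j1‖ ^ 2 + ‖z j2‖ ^ 2 + ‖z j3‖ ^ 2 := by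
    have h := hz.gt
    rw [Fin.sum_univ_succAbove _ i, Fin.sum_univ_three] at h
    unfold C0 at h
    linarith
  refine num_four (mass z j1) (mass z j2) (mass z j3) (mass z i) (‖z j1‖ ^ 2) (‖z j2‖ ^ 2)
    (‖z j3‖ ^ 2) (‖z i‖ ^ 2) (cc z i j1) (cc z i j2) (cc z i j3) measureReal_nonneg (hi j1)
    (hi j2) (hi j3) hsum (sq_nonneg _) (sq_nonneg _) (sq_nonneg _) (sq_nonneg _) (hcap i)
    (hcap j1) (hcap j2) (hcap j3) (norm_sq_lt (by norm_num) h1 hz i).le (cc_nonneg hz i j1 n1)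
    (cc_nonneg hz i j2 n2) (cc_nonneg hz i j3 n3) (cc_sum hz i) hF ?_
  rw [← norm_ee hz, ← norm_ee hz, ← norm_ee hz, heron _ _ _ (ee_sum hz i), mul_assoc]
  refine mul_lt_mul_of_pos_left ?_ (by norm_num)
  have hdel := deletion (by norm_num) h1 hz i
  have hk := del_le_three hz i j1 j2 n1 n2 n12
  have hg := gram2_nonneg (ee z i j1) (ee z i j2)
  set D := gram2 (ee z i j1) (ee z i j2)
  have hd2 : 2 / 3 * ‖z i‖ ^ 2 < Del z i := by
    norm_num at hdel
    linarith
  have hpi : 0 < Real.pi := Real.pi_pos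
  rcases hg.eq_or_lt with h0 | h0
  · rw [← h0]
    positivity
  · have h5 : (2 / 3 * ‖z i‖ ^ 2) ^ 2 * D < Del z i ^ 2 * D :=
      mul_lt_mul_of_pos_right (pow_lt_pow_left₀ hd2 (by positivity) (by norm_num)) h0
    have h6 := h5.trans_le hk
    have h7 : (2 / 3 * ‖z i‖ ^ 2) ^ 2 * D <
        (2 / 3 * ‖z i‖ ^ 2) ^ 2 * (128 / (9 * Real.pi ^ 3) * ‖z i‖ ^ 2) := by
      refine h6.trans_le (le_of_eq ?_)
      field_simp
      ring
    exact lt_of_mul_lt_mul_left h7 (by positivity)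

end Vale.Agent.Lib.P226
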