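import Vale.Agent.Lib.P226.NumCert

/-!
# P226, numeric certificates: five cells
-/

namespace Vale.Agent.Lib.P226

theorem k5_env {s a : ℝ} (α β : ℝ) (hs : 0 ≤ s) (lc : s ^ 2 ≤ 2 * a ^ 2)
    (h0 : s ≤ 39895 / 100000) (l1 : s ≤ (93543 / 100000) * a + (7627 / 100000)) (l2 : s ≤ (19199 / 25000) * a + (11343 / 100000)) (l3 : s ≤ (32303 / 50000) * a + (14591 / 100000)) (l4 : s ≤ (22417 / 50000) * a + (20867 / 100000)) (ha : 11 / 100 ≤ a) (hα : 0 ≤ α)
    (e0 : 2 * (11 / 100) ^ 2 ≤ α * (11 / 100) + β)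
    (e1 : 2 * (1593 / 10000) ^ 2 ≤ α * (1593 / 10000) + β)
    (e2 : ((93543 / 100000) * (1593 / 10000) + (7627 / 100000)) ^ 2 ≤ α * (1593 / 10000) + β)
    (e3 : ((93543 / 100000) * (2219 / 10000) + (7627 / 100000)) ^ 2 ≤ α * (2219 / 10000) + β)
    (e4 : ((19199 / 25000) * (2219 / 10000) + (11343 / 100000)) ^ 2 ≤ α * (2219 / 10000) + β)
    (e5 : ((19199 / 25000) * (333 / 1250) + (11343 / 100000)) ^ 2 ≤ α * (333 / 1250) + β)
    (e6 : ((32303 / 50000) * (333 / 1250) + (14591 / 100000)) ^ 2 ≤ α * (333 / 1250) + β)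
    (e7 : ((32303 / 50000) * (1587 / 5000) + (14591 / 100000)) ^ 2 ≤ α * (1587 / 5000) + β)
    (e8 : ((22417 / 50000) * (1587 / 5000) + (20867 / 100000)) ^ 2 ≤ α * (1587 / 5000) + β)
    (e9 : ((22417 / 50000) * (1061 / 2500) + (20867 / 100000)) ^ 2 ≤ α * (1061 / 2500) + β)
    (e10 : (39895 / 100000) ^ 2 ≤ α * (1061 / 2500) + β) :
    s ^ 2 ≤ α * a + β := by
  rcases le_total a (1593 / 10000) with t0 | t0
  · exact seg_lc lc ha t0 e0 e1
  rcases le_total a (2219 / 10000) with t1 | t1
  · exact seg_line hs l1 t0 t1 e2 e3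
  rcases le_total a (333 / 1250) with t2 | t2
  · exact seg_line hs l2 t1 t2 e4 e5
  rcases le_total a (1587 / 5000) with t3 | t3
  · exact seg_line hs l3 t2 t3 e6 e7
  rcases le_total a (1061 / 2500) with t4 | t4
  · exact seg_line hs l4 t3 t4 e8 e9
  exact seg_const (pow_le_pow_left₀ hs h0 2) t4 hα e10

variable {a s : Fin (4 + 1) → ℝ} {i j1 j2 : Fin (4 + 1)} {R : Finset (Fin (4 + 1))}

theorem k5_q0 (D : NData 4 a s) (T : Top a s i j1 j2 R) (hx : a i ≤ 11 / 100)
    (l1 : ∀ l, s l ≤ (93543 / 100000) * a l + (7627 / 100000)) (l2 : ∀ l, s l ≤ (19199 / 25000) * a l + (11343 / 100000)) (l3 : ∀ l, s l ≤ (32303 / 50000) * a l + (14591 / 100000)) (l4 : ∀ l, s l ≤ (22417 / 50000) * a l + (20867 / 100000))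
    (hq : (R.filter (fun r => 11 / 100 ≤ a r)).card = 0) : False := by
  have hx0 := D.a_nonneg i
  have hcard : (R.card : ℝ) = 2 := by rw [T.card]; norm_num
  rcases le_total (a i) (3 / 200) with y0 | y0
  · have hbig : ∀ l, 11 / 100 ≤ a l → s l ^ 2 ≤ (1 / 4) * a l + (5307 / 100000) := fun l hl =>
      k5_env _ _ (D.s_nonneg l) (D.lc l) (D.c0 l) (l1 l) (l2 l) (l3 l) (l4 l) hl (by norm_num)
        (by norm_num) (by norm_num) (by norm_num) (by norm_num) (by norm_num) (by norm_num) (by norm_num) (by norm_num) (by norm_num) (by norm_num) (by norm_num)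
    have key := cert D T hx (1 / 4) (5307 / 100000) (5307 / 100000) hbig (fun r _ h => hbig r h) (by linarith)
    rw [hq, hcard] at key
    push_cast at key
    nlinarith [mul_nonneg (sub_nonneg.2 hx0) (sub_nonneg.2 y0)]
  rcases le_total (a i) (3 / 50) with y1 | y1
  · have hbig : ∀ l, 11 / 100 ≤ a l → s l ^ 2 ≤ (17 / 50) * a l + (1527 / 100000) := fun l hl =>
      k5_env _ _ (D.s_nonneg l) (D.lc l) (D.c0 l) (l1 l) (l2 l) (l3 l) (l4 l) hl (by norm_num)
        (by norm_num) (by norm_num) (by norm_num) (by norm_num) (by norm_num) (by norm_num) (by norm_num) (by norm_num) (by norm_num) (by norm_num) (by norm_num)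
    have key := cert D T hx (17 / 50) (1527 / 100000) (1527 / 100000) hbig (fun r _ h => hbig r h) (by linarith)
    rw [hq, hcard] at key
    push_cast at key
    nlinarith [mul_nonneg (sub_nonneg.2 y0) (sub_nonneg.2 y1)]
  have hbig : ∀ l, 11 / 100 ≤ a l → s l ^ 2 ≤ (11 / 25) * a l + (-1607 / 100000) := fun l hl =>
    k5_env _ _ (D.s_nonneg l) (D.lc l) (D.c0 l) (l1 l) (l2 l) (l3 l) (l4 l) hl (by norm_num)
      (by norm_num) (by norm_num) (by norm_num) (by norm_num) (by norm_num) (by norm_num) (by norm_num) (by norm_num) (by norm_num) (by norm_num) (by norm_num)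
  have key := cert D T hx (11 / 25) (-1607 / 100000) (-1607 / 100000) hbig (fun r _ h => hbig r h) (by linarith)
  rw [hq, hcard] at key
  push_cast at key
  nlinarith [mul_nonneg (sub_nonneg.2 y1) (sub_nonneg.2 hx)]

theorem k5_q1 (D : NData 4 a s) (T : Top a s i j1 j2 R) (hx : a i ≤ 11 / 100)
    (l1 : ∀ l, s l ≤ (93543 / 100000) * a l + (7627 / 100000)) (l2 : ∀ l, s l ≤ (19199 / 25000) * a l + (11343 / 100000)) (l3 : ∀ l, s l ≤ (32303 / 50000) * a l + (14591 / 100000)) (l4 : ∀ l, s l ≤ (22417 / 50000) * a l + (20867 / 100000))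
    (hq : (R.filter (fun r => 11 / 100 ≤ a r)).card = 1) : False := by
  have hx0 := D.a_nonneg i
  have hcard : (R.card : ℝ) = 2 := by rw [T.card]; norm_num
  rcases le_total (a i) (3 / 50) with y0 | y0
  · have hbig : ∀ l, 11 / 100 ≤ a l → s l ^ 2 ≤ (17 / 50) * a l + (1527 / 100000) := fun l hl =>
      k5_env _ _ (D.s_nonneg l) (D.lc l) (D.c0 l) (l1 l) (l2 l) (l3 l) (l4 l) hl (by norm_num)
        (by norm_num) (by norm_num) (by norm_num) (by norm_num) (by norm_num) (by norm_num) (by norm_num) (by norm_num) (by norm_num) (by norm_num) (by norm_num)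
    have hnu : ∀ r ∈ R, 11 / 100 ≤ a r → s r ^ 2 ≤ (17 / 50) * a r
        + ((1 - (17 / 23)) * (1703 / 1000 * a i + 102 / 100 * a i ^ 2) + (17 / 23) * (-107 / 5000)) := by
      intro r hr har
      have hN0 := rest_nu D T (by linarith) hr
      have hN : s r ^ 2 ≤ (26463 / 250000) := by nlinarith
      have h2 : s r ^ 2 ≤ (23 / 50) * a r + (-107 / 5000) := by
        rcases le_total (a r) (2777 / 10000) with u | u
        · rcases le_total (a r) (1593 / 10000) with w0 | w0
          · exact seg_lc (D.lc r) har w0 (by norm_num) (by norm_num)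
          rcases le_total (a r) (2219 / 10000) with w1 | w1
          · exact seg_line (D.s_nonneg r) (l1 r) w0 w1 (by norm_num) (by norm_num)
          rcases le_total (a r) (333 / 1250) with w2 | w2
          · exact seg_line (D.s_nonneg r) (l2 r) w1 w2 (by norm_num) (by norm_num)
          exact seg_line (D.s_nonneg r) (l3 r) w2 u (by norm_num) (by norm_num)
        · exact seg_const hN u (by norm_num) (by norm_num)
      exact mix hN0 h2 (by norm_num) (by norm_num) (by norm_num)
    have key := cert D T hx (17 / 50) (1527 / 100000) _ hbig hnu (by linarith)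
    rw [hq, hcard] at key
    push_cast at key
    nlinarith [mul_nonneg (sub_nonneg.2 hx0) (sub_nonneg.2 y0)]
  have hbig : ∀ l, 11 / 100 ≤ a l → s l ^ 2 ≤ (11 / 25) * a l + (-1607 / 100000) := fun l hl =>
    k5_env _ _ (D.s_nonneg l) (D.lc l) (D.c0 l) (l1 l) (l2 l) (l3 l) (l4 l) hl (by norm_num)
      (by norm_num) (by norm_num) (by norm_num) (by norm_num) (by norm_num) (by norm_num) (by norm_num) (by norm_num) (by norm_num) (by norm_num) (by norm_num)
  have key := cert D T hx (11 / 25) (-1607 / 100000) (-1607 / 100000) hbig (fun r _ h => hbig r h) (by linarith)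
  rw [hq, hcard] at key
  push_cast at key
  nlinarith [mul_nonneg (sub_nonneg.2 y0) (sub_nonneg.2 hx)]

theorem k5_q2 (D : NData 4 a s) (T : Top a s i j1 j2 R) (hx : a i ≤ 11 / 100)
    (l1 : ∀ l, s l ≤ (93543 / 100000) * a l + (7627 / 100000)) (l2 : ∀ l, s l ≤ (19199 / 25000) * a l + (11343 / 100000)) (l3 : ∀ l, s l ≤ (32303 / 50000) * a l + (14591 / 100000)) (l4 : ∀ l, s l ≤ (22417 / 50000) * a l + (20867 / 100000))
    (hq : (R.filter (fun r => 11 / 100 ≤ a r)).card = 2) : False := by
  have hx0 := D.a_nonneg i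
  have hcard : (R.card : ℝ) = 2 := by rw [T.card]; norm_num
  rcases le_total (a i) (69 / 2000) with y0 | y0
  · have hbig : ∀ l, 11 / 100 ≤ a l → s l ^ 2 ≤ (199 / 500) * a l + (-157 / 50000) := fun l hl =>
      k5_env _ _ (D.s_nonneg l) (D.lc l) (D.c0 l) (l1 l) (l2 l) (l3 l) (l4 l) hl (by norm_num)
        (by norm_num) (by norm_num) (by norm_num) (by norm_num) (by norm_num) (by norm_num) (by norm_num) (by norm_num) (by norm_num) (by norm_num) (by norm_num)
    have hnu : ∀ r ∈ R, 11 / 100 ≤ a r → s r ^ 2 ≤ (199 / 500) * a r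
        + ((1 - (199 / 220)) * (1703 / 1000 * a i + 102 / 100 * a i ^ 2) + (199 / 220) * (-1933 / 100000)) := by
      intro r hr har
      have hN0 := rest_nu D T (by linarith) hr
      have hN : s r ^ 2 ≤ (11993511 / 200000000) := by nlinarith
      have h2 : s r ^ 2 ≤ (11 / 25) * a r + (-1933 / 100000) := by
        rcases le_total (a r) (1803 / 10000) with u | u
        · rcases le_total (a r) (1593 / 10000) with w0 | w0
          · exact seg_lc (D.lc r) har w0 (by norm_num) (by norm_num)
          exact seg_line (D.s_nonneg r) (l1 r) w0 u (by norm_num) (by norm_num)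
        · exact seg_const hN u (by norm_num) (by norm_num)
      exact mix hN0 h2 (by norm_num) (by norm_num) (by norm_num)
    have key := cert D T hx (199 / 500) (-157 / 50000) _ hbig hnu (by linarith)
    rw [hq, hcard] at key
    push_cast at key
    nlinarith [mul_nonneg (sub_nonneg.2 hx0) (sub_nonneg.2 y0)]
  rcases le_total (a i) (107 / 2500) with y1 | y1
  · have hbig : ∀ l, 11 / 100 ≤ a l → s l ^ 2 ≤ (54 / 125) * a l + (-1393 / 100000) := fun l hl =>
      k5_env _ _ (D.s_nonneg l) (D.lc l) (D.c0 l) (l1 l) (l2 l) (l3 l) (l4 l) hl (by norm_num)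
        (by norm_num) (by norm_num) (by norm_num) (by norm_num) (by norm_num) (by norm_num) (by norm_num) (by norm_num) (by norm_num) (by norm_num) (by norm_num)
    have hnu : ∀ r ∈ R, 11 / 100 ≤ a r → s r ^ 2 ≤ (54 / 125) * a r
        + ((1 - (432 / 469)) * (1703 / 1000 * a i + 102 / 100 * a i ^ 2) + (432 / 469) * (-479 / 20000)) := by
      intro r hr har
      have hN0 := rest_nu D T (by linarith) hr
      have hN : s r ^ 2 ≤ (5840381 / 78125000) := by nlinarith
      have h2 : s r ^ 2 ≤ (469 / 1000) * a r + (-479 / 20000) := by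
        rcases le_total (a r) (527 / 2500) with u | u
        · rcases le_total (a r) (1593 / 10000) with w0 | w0
          · exact seg_lc (D.lc r) har w0 (by norm_num) (by norm_num)
          exact seg_line (D.s_nonneg r) (l1 r) w0 u (by norm_num) (by norm_num)
        · exact seg_const hN u (by norm_num) (by norm_num)
      exact mix hN0 h2 (by norm_num) (by norm_num) (by norm_num)
    have key := cert D T hx (54 / 125) (-1393 / 100000) _ hbig hnu (by linarith)
    rw [hq, hcard] at key
    push_cast at key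
    nlinarith [mul_nonneg (sub_nonneg.2 y0) (sub_nonneg.2 y1)]
  rcases le_total (a i) (91 / 2000) with y2 | y2
  · have hbig : ∀ l, 11 / 100 ≤ a l → s l ^ 2 ≤ (221 / 500) * a l + (-1661 / 100000) := fun l hl =>
      k5_env _ _ (D.s_nonneg l) (D.lc l) (D.c0 l) (l1 l) (l2 l) (l3 l) (l4 l) hl (by norm_num)
        (by norm_num) (by norm_num) (by norm_num) (by norm_num) (by norm_num) (by norm_num) (by norm_num) (by norm_num) (by norm_num) (by norm_num) (by norm_num)
    have hnu : ∀ r ∈ R, 11 / 100 ≤ a r → s r ^ 2 ≤ (221 / 500) * a r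
        + ((1 - (221 / 237)) * (1703 / 1000 * a i + 102 / 100 * a i ^ 2) + (221 / 237) * (-2471 / 100000)) := by
      intro r hr har
      have hN0 := rest_nu D T (by linarith) hr
      have hN : s r ^ 2 ≤ (15919631 / 200000000) := by nlinarith
      have h2 : s r ^ 2 ≤ (237 / 500) * a r + (-2471 / 100000) := by
        rcases le_total (a r) (2201 / 10000) with u | u
        · rcases le_total (a r) (1593 / 10000) with w0 | w0
          · exact seg_lc (D.lc r) har w0 (by norm_num) (by norm_num)
          exact seg_line (D.s_nonneg r) (l1 r) w0 u (by norm_num) (by norm_num)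
        · exact seg_const hN u (by norm_num) (by norm_num)
      exact mix hN0 h2 (by norm_num) (by norm_num) (by norm_num)
    have key := cert D T hx (221 / 500) (-1661 / 100000) _ hbig hnu (by linarith)
    rw [hq, hcard] at key
    push_cast at key
    nlinarith [mul_nonneg (sub_nonneg.2 y1) (sub_nonneg.2 y2)]
  have hbig : ∀ l, 11 / 100 ≤ a l → s l ^ 2 ≤ (231 / 500) * a l + (-2193 / 100000) := fun l hl =>
    k5_env _ _ (D.s_nonneg l) (D.lc l) (D.c0 l) (l1 l) (l2 l) (l3 l) (l4 l) hl (by norm_num)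
      (by norm_num) (by norm_num) (by norm_num) (by norm_num) (by norm_num) (by norm_num) (by norm_num) (by norm_num) (by norm_num) (by norm_num) (by norm_num)
  have key := cert D T hx (231 / 500) (-2193 / 100000) (-2193 / 100000) hbig (fun r _ h => hbig r h) (by linarith)
  rw [hq, hcard] at key
  push_cast at key
  nlinarith [mul_nonneg (sub_nonneg.2 y2) (sub_nonneg.2 hx)]

theorem num_five (D : NData 4 a s)
    (l1 : ∀ l, s l ≤ (93543 / 100000) * a l + (7627 / 100000)) (l2 : ∀ l, s l ≤ (19199 / 25000) * a l + (11343 / 100000)) (l3 : ∀ l, s l ≤ (32303 / 50000) * a l + (14591 / 100000)) (l4 : ∀ l, s l ≤ (22417 / 50000) * a l + (20867 / 100000)) : False := by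
  obtain ⟨i, j1, j2, R, T⟩ := exists_Top (by norm_num) a s
  rcases le_total (a i) (11 / 100) with hx | hx
  · have hq : (R.filter (fun r => 11 / 100 ≤ a r)).card ≤ 2 :=
      (Finset.card_filter_le _ _).trans T.card.le
    interval_cases hq' : (R.filter (fun r => 11 / 100 ≤ a r)).card
    · exact k5_q0 D T hx l1 l2 l3 l4 hq'
    · exact k5_q1 D T hx l1 l2 l3 l4 hq'
    · exact k5_q2 D T hx l1 l2 l3 l4 hq'
  · have hbig : ∀ l, 11 / 100 ≤ a l → s l ^ 2 ≤ (231 / 500) * a l + (-2193 / 100000) := fun l hl =>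
      k5_env _ _ (D.s_nonneg l) (D.lc l) (D.c0 l) (l1 l) (l2 l) (l3 l) (l4 l) hl (by norm_num)
        (by norm_num) (by norm_num) (by norm_num) (by norm_num) (by norm_num) (by norm_num) (by norm_num) (by norm_num) (by norm_num) (by norm_num) (by norm_num)
    have key := cert_all D T hx (231 / 500) (-2193 / 100000) hbig
    norm_num at key

end Vale.Agent.Lib.P226
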