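import Vale.Agent.Lib.P226.NumCert

/-!
# P226, numeric certificates: seven or more cells
-/

namespace Vale.Agent.Lib.P226

theorem k7_env {s a : ℝ} (α β : ℝ) (hs : 0 ≤ s) (lc : s ^ 2 ≤ 2 * a ^ 2)
    (h0 : s ≤ 39895 / 100000) (l1 : s ≤ (17 / 20) * a + (10999 / 100000)) (l2 : s ≤ (7 / 10) * a + (14289 / 100000)) (l3 : s ≤ (11 / 20) * a + (9141 / 50000)) (l4 : s ≤ (3 / 10) * a + (13339 / 50000)) (ha : 11 / 100 ≤ a) (hα : 0 ≤ α)
    (e0 : 2 * (11 / 100) ^ 2 ≤ α * (11 / 100) + β)
    (e1 : 2 * (1949 / 10000) ^ 2 ≤ α * (1949 / 10000) + β)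
    (e2 : ((17 / 20) * (1949 / 10000) + (10999 / 100000)) ^ 2 ≤ α * (1949 / 10000) + β)
    (e3 : ((17 / 20) * (2193 / 10000) + (10999 / 100000)) ^ 2 ≤ α * (2193 / 10000) + β)
    (e4 : ((7 / 10) * (2193 / 10000) + (14289 / 100000)) ^ 2 ≤ α * (2193 / 10000) + β)
    (e5 : ((7 / 10) * (1331 / 5000) + (14289 / 100000)) ^ 2 ≤ α * (1331 / 5000) + β)
    (e6 : ((11 / 20) * (1331 / 5000) + (9141 / 50000)) ^ 2 ≤ α * (1331 / 5000) + β)
    (e7 : ((11 / 20) * (1679 / 5000) + (9141 / 50000)) ^ 2 ≤ α * (1679 / 5000) + β)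
    (e8 : ((3 / 10) * (1679 / 5000) + (13339 / 50000)) ^ 2 ≤ α * (1679 / 5000) + β)
    (e9 : ((3 / 10) * (2203 / 5000) + (13339 / 50000)) ^ 2 ≤ α * (2203 / 5000) + β)
    (e10 : (39895 / 100000) ^ 2 ≤ α * (2203 / 5000) + β) :
    s ^ 2 ≤ α * a + β := by
  rcases le_total a (1949 / 10000) with t0 | t0
  · exact seg_lc lc ha t0 e0 e1
  rcases le_total a (2193 / 10000) with t1 | t1
  · exact seg_line hs l1 t0 t1 e2 e3
  rcases le_total a (1331 / 5000) with t2 | t2
  · exact seg_line hs l2 t1 t2 e4 e5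
  rcases le_total a (1679 / 5000) with t3 | t3
  · exact seg_line hs l3 t2 t3 e6 e7
  rcases le_total a (2203 / 5000) with t4 | t4
  · exact seg_line hs l4 t3 t4 e8 e9
  exact seg_const (pow_le_pow_left₀ hs h0 2) t4 hα e10

variable {n : ℕ} {a s : Fin (n + 1) → ℝ} {i j1 j2 : Fin (n + 1)} {R : Finset (Fin (n + 1))}

theorem k7_q0 (D : NData n a s) (T : Top a s i j1 j2 R) (hx : a i ≤ 11 / 100)
    (l1 : ∀ l, s l ≤ (17 / 20) * a l + (10999 / 100000)) (l2 : ∀ l, s l ≤ (7 / 10) * a l + (14289 / 100000)) (l3 : ∀ l, s l ≤ (11 / 20) * a l + (9141 / 50000)) (l4 : ∀ l, s l ≤ (3 / 10) * a l + (13339 / 50000))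
    (hn : 6 ≤ n)
    (hq : (R.filter (fun r => 11 / 100 ≤ a r)).card = 0) : False := by
  have hx0 := D.a_nonneg i
  have hcard : (R.card : ℝ) = (n : ℝ) - 2 := by
    rw [T.card, Nat.cast_sub (by omega)]; norm_num
  have hn' : (6 : ℝ) ≤ n := by exact_mod_cast hn
  rcases le_total (a i) (39 / 2000) with y0 | y0
  · have hbig : ∀ l, 11 / 100 ≤ a l → s l ^ 2 ≤ (13 / 50) * a l + (4777 / 100000) := fun l hl =>
      k7_env _ _ (D.s_nonneg l) (D.lc l) (D.c0 l) (l1 l) (l2 l) (l3 l) (l4 l) hl (by norm_num)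
        (by norm_num) (by norm_num) (by norm_num) (by norm_num) (by norm_num) (by norm_num) (by norm_num) (by norm_num) (by norm_num) (by norm_num) (by norm_num)
    have key := cert D T hx (13 / 50) (4777 / 100000) (4777 / 100000) hbig (fun r _ h => hbig r h) (by linarith)
    rw [hq, hcard] at key
    push_cast at key
    have p1 : 0 ≤ a i * ((13 / 50) - 2 * a i) := mul_nonneg hx0 (by linarith)
    have p2 := mul_nonneg (sub_nonneg.2 hn') p1
    nlinarith [mul_nonneg (sub_nonneg.2 hx0) (sub_nonneg.2 y0), p2, p1]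
  rcases le_total (a i) (693 / 10000) with y1 | y1
  · have hbig : ∀ l, 11 / 100 ≤ a l → s l ^ 2 ≤ (9 / 25) * a l + (1419 / 100000) := fun l hl =>
      k7_env _ _ (D.s_nonneg l) (D.lc l) (D.c0 l) (l1 l) (l2 l) (l3 l) (l4 l) hl (by norm_num)
        (by norm_num) (by norm_num) (by norm_num) (by norm_num) (by norm_num) (by norm_num) (by norm_num) (by norm_num) (by norm_num) (by norm_num) (by norm_num)
    have key := cert D T hx (9 / 25) (1419 / 100000) (1419 / 100000) hbig (fun r _ h => hbig r h) (by linarith)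
    rw [hq, hcard] at key
    push_cast at key
    have p1 : 0 ≤ a i * ((9 / 25) - 2 * a i) := mul_nonneg hx0 (by linarith)
    have p2 := mul_nonneg (sub_nonneg.2 hn') p1
    nlinarith [mul_nonneg (sub_nonneg.2 y0) (sub_nonneg.2 y1), p2, p1]
  have hbig : ∀ l, 11 / 100 ≤ a l → s l ^ 2 ≤ (11 / 25) * a l + (-863 / 100000) := fun l hl =>
    k7_env _ _ (D.s_nonneg l) (D.lc l) (D.c0 l) (l1 l) (l2 l) (l3 l) (l4 l) hl (by norm_num)
      (by norm_num) (by norm_num) (by norm_num) (by norm_num) (by norm_num) (by norm_num) (by norm_num) (by norm_num) (by norm_num) (by norm_num) (by norm_num)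
  have key := cert D T hx (11 / 25) (-863 / 100000) (-863 / 100000) hbig (fun r _ h => hbig r h) (by linarith)
  rw [hq, hcard] at key
  push_cast at key
  have p1 : 0 ≤ a i * ((11 / 25) - 2 * a i) := mul_nonneg hx0 (by linarith)
  have p2 := mul_nonneg (sub_nonneg.2 hn') p1
  nlinarith [mul_nonneg (sub_nonneg.2 y1) (sub_nonneg.2 hx), p2, p1]

theorem k7_q1 (D : NData n a s) (T : Top a s i j1 j2 R) (hx : a i ≤ 11 / 100)
    (l1 : ∀ l, s l ≤ (17 / 20) * a l + (10999 / 100000)) (l2 : ∀ l, s l ≤ (7 / 10) * a l + (14289 / 100000)) (l3 : ∀ l, s l ≤ (11 / 20) * a l + (9141 / 50000)) (l4 : ∀ l, s l ≤ (3 / 10) * a l + (13339 / 50000))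
    (hn : 6 ≤ n)
    (hq : (R.filter (fun r => 11 / 100 ≤ a r)).card = 1) : False := by
  have hx0 := D.a_nonneg i
  have hcard : (R.card : ℝ) = (n : ℝ) - 2 := by
    rw [T.card, Nat.cast_sub (by omega)]; norm_num
  have hn' : (6 : ℝ) ≤ n := by exact_mod_cast hn
  rcases le_total (a i) (3 / 50) with y0 | y0
  · have hbig : ∀ l, 11 / 100 ≤ a l → s l ^ 2 ≤ (17 / 50) * a l + (209 / 10000) := fun l hl =>
      k7_env _ _ (D.s_nonneg l) (D.lc l) (D.c0 l) (l1 l) (l2 l) (l3 l) (l4 l) hl (by norm_num)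
        (by norm_num) (by norm_num) (by norm_num) (by norm_num) (by norm_num) (by norm_num) (by norm_num) (by norm_num) (by norm_num) (by norm_num) (by norm_num)
    have hnu : ∀ r ∈ R, 11 / 100 ≤ a r → s r ^ 2 ≤ (17 / 50) * a r
        + ((1 - (1 / 2)) * (1703 / 1000 * a i + 102 / 100 * a i ^ 2) + (1 / 2) * (-5059 / 100000)) := by
      intro r hr har
      have hN0 := rest_nu D T (by linarith) hr
      have hN : s r ^ 2 ≤ (26463 / 250000) := by nlinarith
      have h2 : s r ^ 2 ≤ (17 / 25) * a r + (-5059 / 100000) := by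
        rcases le_total (a r) (2607 / 10000) with u | u
        · rcases le_total (a r) (1949 / 10000) with w0 | w0
          · exact seg_lc (D.lc r) har w0 (by norm_num) (by norm_num)
          rcases le_total (a r) (2193 / 10000) with w1 | w1
          · exact seg_line (D.s_nonneg r) (l1 r) w0 w1 (by norm_num) (by norm_num)
          exact seg_line (D.s_nonneg r) (l2 r) w1 u (by norm_num) (by norm_num)
        · exact seg_const hN u (by norm_num) (by norm_num)
      exact mix hN0 h2 (by norm_num) (by norm_num) (by norm_num)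
    have key := cert D T hx (17 / 50) (209 / 10000) _ hbig hnu (by linarith)
    rw [hq, hcard] at key
    push_cast at key
    have p1 : 0 ≤ a i * ((17 / 50) - 2 * a i) := mul_nonneg hx0 (by linarith)
    have p2 := mul_nonneg (sub_nonneg.2 hn') p1
    nlinarith [mul_nonneg (sub_nonneg.2 hx0) (sub_nonneg.2 y0), p2, p1]
  have hbig : ∀ l, 11 / 100 ≤ a l → s l ^ 2 ≤ (11 / 25) * a l + (-863 / 100000) := fun l hl =>
    k7_env _ _ (D.s_nonneg l) (D.lc l) (D.c0 l) (l1 l) (l2 l) (l3 l) (l4 l) hl (by norm_num)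
      (by norm_num) (by norm_num) (by norm_num) (by norm_num) (by norm_num) (by norm_num) (by norm_num) (by norm_num) (by norm_num) (by norm_num) (by norm_num)
  have key := cert D T hx (11 / 25) (-863 / 100000) (-863 / 100000) hbig (fun r _ h => hbig r h) (by linarith)
  rw [hq, hcard] at key
  push_cast at key
  have p1 : 0 ≤ a i * ((11 / 25) - 2 * a i) := mul_nonneg hx0 (by linarith)
  have p2 := mul_nonneg (sub_nonneg.2 hn') p1
  nlinarith [mul_nonneg (sub_nonneg.2 y0) (sub_nonneg.2 hx), p2, p1]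

theorem k7_q2 (D : NData n a s) (T : Top a s i j1 j2 R) (hx : a i ≤ 11 / 100)
    (l1 : ∀ l, s l ≤ (17 / 20) * a l + (10999 / 100000)) (l2 : ∀ l, s l ≤ (7 / 10) * a l + (14289 / 100000)) (l3 : ∀ l, s l ≤ (11 / 20) * a l + (9141 / 50000)) (l4 : ∀ l, s l ≤ (3 / 10) * a l + (13339 / 50000))
    (hn : 6 ≤ n)
    (hq : (R.filter (fun r => 11 / 100 ≤ a r)).card = 2) : False := by
  have hx0 := D.a_nonneg i
  have hcard : (R.card : ℝ) = (n : ℝ) - 2 := by
    rw [T.card, Nat.cast_sub (by omega)]; norm_num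
  have hn' : (6 : ℝ) ≤ n := by exact_mod_cast hn
  rcases le_total (a i) (21 / 500) with y0 | y0
  · have hbig : ∀ l, 11 / 100 ≤ a l → s l ^ 2 ≤ (21 / 50) * a l + (-341 / 100000) := fun l hl =>
      k7_env _ _ (D.s_nonneg l) (D.lc l) (D.c0 l) (l1 l) (l2 l) (l3 l) (l4 l) hl (by norm_num)
        (by norm_num) (by norm_num) (by norm_num) (by norm_num) (by norm_num) (by norm_num) (by norm_num) (by norm_num) (by norm_num) (by norm_num) (by norm_num)
    have hnu : ∀ r ∈ R, 11 / 100 ≤ a r → s r ^ 2 ≤ (21 / 50) * a r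
        + ((1 - (7 / 10)) * (1703 / 1000 * a i + 102 / 100 * a i ^ 2) + (7 / 10) * (-831 / 20000)) := by
      intro r hr har
      have hN0 := rest_nu D T (by linarith) hr
      have hN : s r ^ 2 ≤ (458283 / 6250000) := by nlinarith
      have h2 : s r ^ 2 ≤ (3 / 5) * a r + (-831 / 20000) := by
        rcases le_total (a r) (383 / 2000) with u | u
        · exact seg_lc (D.lc r) har u (by norm_num) (by norm_num)
        · exact seg_const hN u (by norm_num) (by norm_num)
      exact mix hN0 h2 (by norm_num) (by norm_num) (by norm_num)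
    have key := cert D T hx (21 / 50) (-341 / 100000) _ hbig hnu (by linarith)
    rw [hq, hcard] at key
    push_cast at key
    have p1 : 0 ≤ a i * ((21 / 50) - 2 * a i) := mul_nonneg hx0 (by linarith)
    have p2 := mul_nonneg (sub_nonneg.2 hn') p1
    nlinarith [mul_nonneg (sub_nonneg.2 hx0) (sub_nonneg.2 y0), p2, p1]
  rcases le_total (a i) (101 / 2000) with y1 | y1
  · have hbig : ∀ l, 11 / 100 ≤ a l → s l ^ 2 ≤ (11 / 25) * a l + (-863 / 100000) := fun l hl =>
      k7_env _ _ (D.s_nonneg l) (D.lc l) (D.c0 l) (l1 l) (l2 l) (l3 l) (l4 l) hl (by norm_num)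
        (by norm_num) (by norm_num) (by norm_num) (by norm_num) (by norm_num) (by norm_num) (by norm_num) (by norm_num) (by norm_num) (by norm_num) (by norm_num)
    have hnu : ∀ r ∈ R, 11 / 100 ≤ a r → s r ^ 2 ≤ (11 / 25) * a r
        + ((1 - (11 / 14)) * (1703 / 1000 * a i + 102 / 100 * a i ^ 2) + (11 / 14) * (-663 / 20000)) := by
      intro r hr har
      have hN0 := rest_nu D T (by linarith) hr
      have hN : s r ^ 2 ≤ (17720551 / 200000000) := by nlinarith
      have h2 : s r ^ 2 ≤ (14 / 25) * a r + (-663 / 20000) := by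
        rcases le_total (a r) (2211 / 10000) with u | u
        · rcases le_total (a r) (1949 / 10000) with w0 | w0
          · exact seg_lc (D.lc r) har w0 (by norm_num) (by norm_num)
          rcases le_total (a r) (2193 / 10000) with w1 | w1
          · exact seg_line (D.s_nonneg r) (l1 r) w0 w1 (by norm_num) (by norm_num)
          exact seg_line (D.s_nonneg r) (l2 r) w1 u (by norm_num) (by norm_num)
        · exact seg_const hN u (by norm_num) (by norm_num)
      exact mix hN0 h2 (by norm_num) (by norm_num) (by norm_num)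
    have key := cert D T hx (11 / 25) (-863 / 100000) _ hbig hnu (by linarith)
    rw [hq, hcard] at key
    push_cast at key
    have p1 : 0 ≤ a i * ((11 / 25) - 2 * a i) := mul_nonneg hx0 (by linarith)
    have p2 := mul_nonneg (sub_nonneg.2 hn') p1
    nlinarith [mul_nonneg (sub_nonneg.2 y0) (sub_nonneg.2 y1), p2, p1]
  have hbig : ∀ l, 11 / 100 ≤ a l → s l ^ 2 ≤ (12 / 25) * a l + (-1741 / 100000) := fun l hl =>
    k7_env _ _ (D.s_nonneg l) (D.lc l) (D.c0 l) (l1 l) (l2 l) (l3 l) (l4 l) hl (by norm_num)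
      (by norm_num) (by norm_num) (by norm_num) (by norm_num) (by norm_num) (by norm_num) (by norm_num) (by norm_num) (by norm_num) (by norm_num) (by norm_num)
  have key := cert D T hx (12 / 25) (-1741 / 100000) (-1741 / 100000) hbig (fun r _ h => hbig r h) (by linarith)
  rw [hq, hcard] at key
  push_cast at key
  have p1 : 0 ≤ a i * ((12 / 25) - 2 * a i) := mul_nonneg hx0 (by linarith)
  have p2 := mul_nonneg (sub_nonneg.2 hn') p1
  nlinarith [mul_nonneg (sub_nonneg.2 y1) (sub_nonneg.2 hx), p2, p1]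

theorem k7_q3 (D : NData n a s) (T : Top a s i j1 j2 R) (hx : a i ≤ 11 / 100)
    (l1 : ∀ l, s l ≤ (17 / 20) * a l + (10999 / 100000)) (l2 : ∀ l, s l ≤ (7 / 10) * a l + (14289 / 100000)) (l3 : ∀ l, s l ≤ (11 / 20) * a l + (9141 / 50000)) (l4 : ∀ l, s l ≤ (3 / 10) * a l + (13339 / 50000))
    (hn : 6 ≤ n)
    (hq : (R.filter (fun r => 11 / 100 ≤ a r)).card = 3) : False := by
  have hx0 := D.a_nonneg i
  have hcard : (R.card : ℝ) = (n : ℝ) - 2 := by
    rw [T.card, Nat.cast_sub (by omega)]; norm_num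
  have hn' : (6 : ℝ) ≤ n := by exact_mod_cast hn
  rcases le_total (a i) (6 / 125) with y0 | y0
  · have hbig : ∀ l, 11 / 100 ≤ a l → s l ^ 2 ≤ (51 / 100) * a l + (-2341 / 100000) := fun l hl =>
      k7_env _ _ (D.s_nonneg l) (D.lc l) (D.c0 l) (l1 l) (l2 l) (l3 l) (l4 l) hl (by norm_num)
        (by norm_num) (by norm_num) (by norm_num) (by norm_num) (by norm_num) (by norm_num) (by norm_num) (by norm_num) (by norm_num) (by norm_num) (by norm_num)
    have hnu : ∀ r ∈ R, 11 / 100 ≤ a r → s r ^ 2 ≤ (51 / 100) * a r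
        + ((1 - (51 / 61)) * (1703 / 1000 * a i + 102 / 100 * a i ^ 2) + (51 / 61) * (-4289 / 100000)) := by
      intro r hr har
      have hN0 := rest_nu D T (by linarith) hr
      have hN : s r ^ 2 ≤ (131397 / 1562500) := by nlinarith
      have h2 : s r ^ 2 ≤ (61 / 100) * a r + (-4289 / 100000) := by
        rcases le_total (a r) (1059 / 5000) with u | u
        · rcases le_total (a r) (1949 / 10000) with w0 | w0
          · exact seg_lc (D.lc r) har w0 (by norm_num) (by norm_num)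
          exact seg_line (D.s_nonneg r) (l1 r) w0 u (by norm_num) (by norm_num)
        · exact seg_const hN u (by norm_num) (by norm_num)
      exact mix hN0 h2 (by norm_num) (by norm_num) (by norm_num)
    have key := cert D T hx (51 / 100) (-2341 / 100000) _ hbig hnu (by linarith)
    rw [hq, hcard] at key
    push_cast at key
    have p1 : 0 ≤ a i * ((51 / 100) - 2 * a i) := mul_nonneg hx0 (by linarith)
    have p2 := mul_nonneg (sub_nonneg.2 hn') p1
    nlinarith [mul_nonneg (sub_nonneg.2 hx0) (sub_nonneg.2 y0), p2, p1]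
  have hbig : ∀ l, 11 / 100 ≤ a l → s l ^ 2 ≤ (61 / 100) * a l + (-4289 / 100000) := fun l hl =>
    k7_env _ _ (D.s_nonneg l) (D.lc l) (D.c0 l) (l1 l) (l2 l) (l3 l) (l4 l) hl (by norm_num)
      (by norm_num) (by norm_num) (by norm_num) (by norm_num) (by norm_num) (by norm_num) (by norm_num) (by norm_num) (by norm_num) (by norm_num) (by norm_num)
  have key := cert D T hx (61 / 100) (-4289 / 100000) (-4289 / 100000) hbig (fun r _ h => hbig r h) (by linarith)
  rw [hq, hcard] at key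
  push_cast at key
  have p1 : 0 ≤ a i * ((61 / 100) - 2 * a i) := mul_nonneg hx0 (by linarith)
  have p2 := mul_nonneg (sub_nonneg.2 hn') p1
  nlinarith [mul_nonneg (sub_nonneg.2 y0) (sub_nonneg.2 hx), p2, p1]

theorem k7_q4 (D : NData n a s) (T : Top a s i j1 j2 R) (hx : a i ≤ 11 / 100)
    (l1 : ∀ l, s l ≤ (17 / 20) * a l + (10999 / 100000)) (l2 : ∀ l, s l ≤ (7 / 10) * a l + (14289 / 100000)) (l3 : ∀ l, s l ≤ (11 / 20) * a l + (9141 / 50000)) (l4 : ∀ l, s l ≤ (3 / 10) * a l + (13339 / 50000))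
    (hn : 6 ≤ n)
    (hq : 4 ≤ (R.filter (fun r => 11 / 100 ≤ a r)).card) : False := by
  have hx0 := D.a_nonneg i
  have hcard : (R.card : ℝ) = (n : ℝ) - 2 := by
    rw [T.card, Nat.cast_sub (by omega)]; norm_num
  have hn' : (6 : ℝ) ≤ n := by exact_mod_cast hn
  have hbig : ∀ l, 11 / 100 ≤ a l → s l ^ 2 ≤ (61 / 100) * a l + (-4289 / 100000) := fun l hl =>
    k7_env _ _ (D.s_nonneg l) (D.lc l) (D.c0 l) (l1 l) (l2 l) (l3 l) (l4 l) hl (by norm_num)
      (by norm_num) (by norm_num) (by norm_num) (by norm_num) (by norm_num) (by norm_num) (by norm_num) (by norm_num) (by norm_num) (by norm_num) (by norm_num)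
  have key := cert D T hx (61 / 100) (-4289 / 100000) (-4289 / 100000) hbig (fun r _ h => hbig r h) (by linarith)
  have hq' : (4 : ℝ) ≤ ((R.filter (fun r => 11 / 100 ≤ a r)).card : ℝ) := by exact_mod_cast hq
  have hq2 : ((R.filter (fun r => 11 / 100 ≤ a r)).card : ℝ) ≤ (R.card : ℝ) := by
    exact_mod_cast Finset.card_filter_le _ _
  have p1 : 0 ≤ a i * ((61 / 100) - 2 * a i) := mul_nonneg hx0 (by linarith)
  have p2 := mul_nonneg (sub_nonneg.2 hq2) p1
  nlinarith [p1, p2, hq']

theorem num_large (hn : 6 ≤ n) (D : NData n a s)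
    (l1 : ∀ l, s l ≤ (17 / 20) * a l + (10999 / 100000)) (l2 : ∀ l, s l ≤ (7 / 10) * a l + (14289 / 100000)) (l3 : ∀ l, s l ≤ (11 / 20) * a l + (9141 / 50000)) (l4 : ∀ l, s l ≤ (3 / 10) * a l + (13339 / 50000)) : False := by
  obtain ⟨i, j1, j2, R, T⟩ := exists_Top (by omega) a s
  rcases le_total (a i) (11 / 100) with hx | hx
  · rcases Nat.lt_or_ge (R.filter (fun r => 11 / 100 ≤ a r)).card 4 with hq | hq
    · interval_cases hq' : (R.filter (fun r => 11 / 100 ≤ a r)).card
      · exact k7_q0 D T hx l1 l2 l3 l4 hn hq'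
      · exact k7_q1 D T hx l1 l2 l3 l4 hn hq'
      · exact k7_q2 D T hx l1 l2 l3 l4 hn hq'
      · exact k7_q3 D T hx l1 l2 l3 l4 hn hq'
    · exact k7_q4 D T hx l1 l2 l3 l4 hn hq
  · have hbig : ∀ l, 11 / 100 ≤ a l → s l ^ 2 ≤ (61 / 100) * a l + (-4289 / 100000) := fun l hl =>
      k7_env _ _ (D.s_nonneg l) (D.lc l) (D.c0 l) (l1 l) (l2 l) (l3 l) (l4 l) hl (by norm_num)
        (by norm_num) (by norm_num) (by norm_num) (by norm_num) (by norm_num) (by norm_num) (by norm_num) (by norm_num) (by norm_num) (by norm_num) (by norm_num)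
    have key := cert_all D T hx (61 / 100) (-4289 / 100000) hbig
    have hn' : (6 : ℝ) ≤ n := by exact_mod_cast hn
    nlinarith

end Vale.Agent.Lib.P226
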