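import Vale.Agent.Lib.P226.NumCert

/-!
# P226, numeric certificates: six cells
-/

namespace Vale.Agent.Lib.P226

theorem k6_env {s a : ℝ} (α β : ℝ) (hs : 0 ≤ s) (lc : s ^ 2 ≤ 2 * a ^ 2)
    (h0 : s ≤ 39895 / 100000) (l1 : s ≤ (17873 / 20000) * a + (2219 / 25000)) (l2 : s ≤ (26597 / 50000) * a + (3647 / 20000)) (l3 : s ≤ (3 / 10) * a + (13339 / 50000)) (ha : 11 / 100 ≤ a) (hα : 0 ≤ α)
    (e0 : 2 * (11 / 100) ^ 2 ≤ α * (11 / 100) + β)
    (e1 : 2 * (341 / 2000) ^ 2 ≤ α * (341 / 2000) + β)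
    (e2 : ((17873 / 20000) * (341 / 2000) + (2219 / 25000)) ^ 2 ≤ α * (341 / 2000) + β)
    (e3 : ((17873 / 20000) * (2587 / 10000) + (2219 / 25000)) ^ 2 ≤ α * (2587 / 10000) + β)
    (e4 : ((26597 / 50000) * (2587 / 10000) + (3647 / 20000)) ^ 2 ≤ α * (2587 / 10000) + β)
    (e5 : ((26597 / 50000) * (91 / 250) + (3647 / 20000)) ^ 2 ≤ α * (91 / 250) + β)
    (e6 : ((3 / 10) * (91 / 250) + (13339 / 50000)) ^ 2 ≤ α * (91 / 250) + β)
    (e7 : ((3 / 10) * (2203 / 5000) + (13339 / 50000)) ^ 2 ≤ α * (2203 / 5000) + β)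
    (e8 : (39895 / 100000) ^ 2 ≤ α * (2203 / 5000) + β) :
    s ^ 2 ≤ α * a + β := by
  rcases le_total a (341 / 2000) with t0 | t0
  · exact seg_lc lc ha t0 e0 e1
  rcases le_total a (2587 / 10000) with t1 | t1
  · exact seg_line hs l1 t0 t1 e2 e3
  rcases le_total a (91 / 250) with t2 | t2
  · exact seg_line hs l2 t1 t2 e4 e5
  rcases le_total a (2203 / 5000) with t3 | t3
  · exact seg_line hs l3 t2 t3 e6 e7
  exact seg_const (pow_le_pow_left₀ hs h0 2) t3 hα e8

variable {a s : Fin (5 + 1) → ℝ} {i j1 j2 : Fin (5 + 1)} {R : Finset (Fin (5 + 1))}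

theorem k6_q0 (D : NData 5 a s) (T : Top a s i j1 j2 R) (hx : a i ≤ 11 / 100)
    (l1 : ∀ l, s l ≤ (17873 / 20000) * a l + (2219 / 25000)) (l2 : ∀ l, s l ≤ (26597 / 50000) * a l + (3647 / 20000)) (l3 : ∀ l, s l ≤ (3 / 10) * a l + (13339 / 50000))
    (hq : (R.filter (fun r => 11 / 100 ≤ a r)).card = 0) : False := by
  have hx0 := D.a_nonneg i
  have hcard : (R.card : ℝ) = 3 := by rw [T.card]; norm_num
  rcases le_total (a i) (31 / 1250) with y0 | y0
  · have hbig : ∀ l, 11 / 100 ≤ a l → s l ^ 2 ≤ (27 / 100) * a l + (4309 / 100000) := fun l hl =>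
      k6_env _ _ (D.s_nonneg l) (D.lc l) (D.c0 l) (l1 l) (l2 l) (l3 l) hl (by norm_num)
        (by norm_num) (by norm_num) (by norm_num) (by norm_num) (by norm_num) (by norm_num) (by norm_num) (by norm_num) (by norm_num)
    have key := cert D T hx (27 / 100) (4309 / 100000) (4309 / 100000) hbig (fun r _ h => hbig r h) (by linarith)
    rw [hq, hcard] at key
    push_cast at key
    nlinarith [mul_nonneg (sub_nonneg.2 hx0) (sub_nonneg.2 y0)]
  rcases le_total (a i) (39 / 500) with y1 | y1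
  · have hbig : ∀ l, 11 / 100 ≤ a l → s l ^ 2 ≤ (19 / 50) * a l + (51 / 12500) := fun l hl =>
      k6_env _ _ (D.s_nonneg l) (D.lc l) (D.c0 l) (l1 l) (l2 l) (l3 l) hl (by norm_num)
        (by norm_num) (by norm_num) (by norm_num) (by norm_num) (by norm_num) (by norm_num) (by norm_num) (by norm_num) (by norm_num)
    have key := cert D T hx (19 / 50) (51 / 12500) (51 / 12500) hbig (fun r _ h => hbig r h) (by linarith)
    rw [hq, hcard] at key
    push_cast at key
    nlinarith [mul_nonneg (sub_nonneg.2 y0) (sub_nonneg.2 y1)]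
  have hbig : ∀ l, 11 / 100 ≤ a l → s l ^ 2 ≤ (11 / 25) * a l + (-229 / 20000) := fun l hl =>
    k6_env _ _ (D.s_nonneg l) (D.lc l) (D.c0 l) (l1 l) (l2 l) (l3 l) hl (by norm_num)
      (by norm_num) (by norm_num) (by norm_num) (by norm_num) (by norm_num) (by norm_num) (by norm_num) (by norm_num) (by norm_num)
  have key := cert D T hx (11 / 25) (-229 / 20000) (-229 / 20000) hbig (fun r _ h => hbig r h) (by linarith)
  rw [hq, hcard] at key
  push_cast at key
  nlinarith [mul_nonneg (sub_nonneg.2 y1) (sub_nonneg.2 hx)]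

theorem k6_q1 (D : NData 5 a s) (T : Top a s i j1 j2 R) (hx : a i ≤ 11 / 100)
    (l1 : ∀ l, s l ≤ (17873 / 20000) * a l + (2219 / 25000)) (l2 : ∀ l, s l ≤ (26597 / 50000) * a l + (3647 / 20000)) (l3 : ∀ l, s l ≤ (3 / 10) * a l + (13339 / 50000))
    (hq : (R.filter (fun r => 11 / 100 ≤ a r)).card = 1) : False := by
  have hx0 := D.a_nonneg i
  have hcard : (R.card : ℝ) = 3 := by rw [T.card]; norm_num
  rcases le_total (a i) (3 / 50) with y0 | y0
  · have hbig : ∀ l, 11 / 100 ≤ a l → s l ^ 2 ≤ (17 / 50) * a l + (1761 / 100000) := fun l hl =>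
      k6_env _ _ (D.s_nonneg l) (D.lc l) (D.c0 l) (l1 l) (l2 l) (l3 l) hl (by norm_num)
        (by norm_num) (by norm_num) (by norm_num) (by norm_num) (by norm_num) (by norm_num) (by norm_num) (by norm_num) (by norm_num)
    have hnu : ∀ r ∈ R, 11 / 100 ≤ a r → s r ^ 2 ≤ (17 / 50) * a r
        + ((1 - (17 / 27)) * (1703 / 1000 * a i + 102 / 100 * a i ^ 2) + (17 / 27) * (-106 / 3125)) := by
      intro r hr har
      have hN0 := rest_nu D T (by linarith) hr
      have hN : s r ^ 2 ≤ (26463 / 250000) := by nlinarith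
      have h2 : s r ^ 2 ≤ (27 / 50) * a r + (-106 / 3125) := by
        rcases le_total (a r) (168 / 625) with u | u
        · rcases le_total (a r) (341 / 2000) with w0 | w0
          · exact seg_lc (D.lc r) har w0 (by norm_num) (by norm_num)
          rcases le_total (a r) (2587 / 10000) with w1 | w1
          · exact seg_line (D.s_nonneg r) (l1 r) w0 w1 (by norm_num) (by norm_num)
          exact seg_line (D.s_nonneg r) (l2 r) w1 u (by norm_num) (by norm_num)
        · exact seg_const hN u (by norm_num) (by norm_num)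
      exact mix hN0 h2 (by norm_num) (by norm_num) (by norm_num)
    have key := cert D T hx (17 / 50) (1761 / 100000) _ hbig hnu (by linarith)
    rw [hq, hcard] at key
    push_cast at key
    nlinarith [mul_nonneg (sub_nonneg.2 hx0) (sub_nonneg.2 y0)]
  have hbig : ∀ l, 11 / 100 ≤ a l → s l ^ 2 ≤ (11 / 25) * a l + (-229 / 20000) := fun l hl =>
    k6_env _ _ (D.s_nonneg l) (D.lc l) (D.c0 l) (l1 l) (l2 l) (l3 l) hl (by norm_num)
      (by norm_num) (by norm_num) (by norm_num) (by norm_num) (by norm_num) (by norm_num) (by norm_num) (by norm_num) (by norm_num)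
  have key := cert D T hx (11 / 25) (-229 / 20000) (-229 / 20000) hbig (fun r _ h => hbig r h) (by linarith)
  rw [hq, hcard] at key
  push_cast at key
  nlinarith [mul_nonneg (sub_nonneg.2 y0) (sub_nonneg.2 hx)]

theorem k6_q2 (D : NData 5 a s) (T : Top a s i j1 j2 R) (hx : a i ≤ 11 / 100)
    (l1 : ∀ l, s l ≤ (17873 / 20000) * a l + (2219 / 25000)) (l2 : ∀ l, s l ≤ (26597 / 50000) * a l + (3647 / 20000)) (l3 : ∀ l, s l ≤ (3 / 10) * a l + (13339 / 50000))
    (hq : (R.filter (fun r => 11 / 100 ≤ a r)).card = 2) : False := by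
  have hx0 := D.a_nonneg i
  have hcard : (R.card : ℝ) = 3 := by rw [T.card]; norm_num
  rcases le_total (a i) (467 / 10000) with y0 | y0
  · have hbig : ∀ l, 11 / 100 ≤ a l → s l ^ 2 ≤ (39 / 100) * a l + (149 / 100000) := fun l hl =>
      k6_env _ _ (D.s_nonneg l) (D.lc l) (D.c0 l) (l1 l) (l2 l) (l3 l) hl (by norm_num)
        (by norm_num) (by norm_num) (by norm_num) (by norm_num) (by norm_num) (by norm_num) (by norm_num) (by norm_num) (by norm_num)
    have hnu : ∀ r ∈ R, 11 / 100 ≤ a r → s r ^ 2 ≤ (39 / 100) * a r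
        + ((1 - (39 / 47)) * (1703 / 1000 * a i + 102 / 100 * a i ^ 2) + (39 / 47) * (-137 / 6250)) := by
      intro r hr har
      have hN0 := rest_nu D T (by linarith) hr
      have hN : s r ^ 2 ≤ (408773039 / 5000000000) := by nlinarith
      have h2 : s r ^ 2 ≤ (47 / 100) * a r + (-137 / 6250) := by
        rcases le_total (a r) (1103 / 5000) with u | u
        · rcases le_total (a r) (341 / 2000) with w0 | w0
          · exact seg_lc (D.lc r) har w0 (by norm_num) (by norm_num)
          exact seg_line (D.s_nonneg r) (l1 r) w0 u (by norm_num) (by norm_num)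
        · exact seg_const hN u (by norm_num) (by norm_num)
      exact mix hN0 h2 (by norm_num) (by norm_num) (by norm_num)
    have key := cert D T hx (39 / 100) (149 / 100000) _ hbig hnu (by linarith)
    rw [hq, hcard] at key
    push_cast at key
    nlinarith [mul_nonneg (sub_nonneg.2 hx0) (sub_nonneg.2 y0)]
  have hbig : ∀ l, 11 / 100 ≤ a l → s l ^ 2 ≤ (1 / 2) * a l + (-2697 / 100000) := fun l hl =>
    k6_env _ _ (D.s_nonneg l) (D.lc l) (D.c0 l) (l1 l) (l2 l) (l3 l) hl (by norm_num)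
      (by norm_num) (by norm_num) (by norm_num) (by norm_num) (by norm_num) (by norm_num) (by norm_num) (by norm_num) (by norm_num)
  have key := cert D T hx (1 / 2) (-2697 / 100000) (-2697 / 100000) hbig (fun r _ h => hbig r h) (by linarith)
  rw [hq, hcard] at key
  push_cast at key
  nlinarith [mul_nonneg (sub_nonneg.2 y0) (sub_nonneg.2 hx)]

theorem k6_q3 (D : NData 5 a s) (T : Top a s i j1 j2 R) (hx : a i ≤ 11 / 100)
    (l1 : ∀ l, s l ≤ (17873 / 20000) * a l + (2219 / 25000)) (l2 : ∀ l, s l ≤ (26597 / 50000) * a l + (3647 / 20000)) (l3 : ∀ l, s l ≤ (3 / 10) * a l + (13339 / 50000))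
    (hq : (R.filter (fun r => 11 / 100 ≤ a r)).card = 3) : False := by
  have hx0 := D.a_nonneg i
  have hcard : (R.card : ℝ) = 3 := by rw [T.card]; norm_num
  rcases le_total (a i) (3 / 50) with y0 | y0
  · have hbig : ∀ l, 11 / 100 ≤ a l → s l ^ 2 ≤ (1 / 2) * a l + (-2697 / 100000) := fun l hl =>
      k6_env _ _ (D.s_nonneg l) (D.lc l) (D.c0 l) (l1 l) (l2 l) (l3 l) hl (by norm_num)
        (by norm_num) (by norm_num) (by norm_num) (by norm_num) (by norm_num) (by norm_num) (by norm_num) (by norm_num) (by norm_num)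
    have hnu : ∀ r ∈ R, 11 / 100 ≤ a r → s r ^ 2 ≤ (1 / 2) * a r
        + ((1 - (25 / 27)) * (1703 / 1000 * a i + 102 / 100 * a i ^ 2) + (25 / 27) * (-106 / 3125)) := by
      intro r hr har
      have hN0 := rest_nu D T (by linarith) hr
      have hN : s r ^ 2 ≤ (26463 / 250000) := by nlinarith
      have h2 : s r ^ 2 ≤ (27 / 50) * a r + (-106 / 3125) := by
        rcases le_total (a r) (168 / 625) with u | u
        · rcases le_total (a r) (341 / 2000) with w0 | w0
          · exact seg_lc (D.lc r) har w0 (by norm_num) (by norm_num)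
          rcases le_total (a r) (2587 / 10000) with w1 | w1
          · exact seg_line (D.s_nonneg r) (l1 r) w0 w1 (by norm_num) (by norm_num)
          exact seg_line (D.s_nonneg r) (l2 r) w1 u (by norm_num) (by norm_num)
        · exact seg_const hN u (by norm_num) (by norm_num)
      exact mix hN0 h2 (by norm_num) (by norm_num) (by norm_num)
    have key := cert D T hx (1 / 2) (-2697 / 100000) _ hbig hnu (by linarith)
    rw [hq, hcard] at key
    push_cast at key
    nlinarith [mul_nonneg (sub_nonneg.2 hx0) (sub_nonneg.2 y0)]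
  have hbig : ∀ l, 11 / 100 ≤ a l → s l ^ 2 ≤ (1 / 2) * a l + (-2697 / 100000) := fun l hl =>
    k6_env _ _ (D.s_nonneg l) (D.lc l) (D.c0 l) (l1 l) (l2 l) (l3 l) hl (by norm_num)
      (by norm_num) (by norm_num) (by norm_num) (by norm_num) (by norm_num) (by norm_num) (by norm_num) (by norm_num) (by norm_num)
  have key := cert D T hx (1 / 2) (-2697 / 100000) (-2697 / 100000) hbig (fun r _ h => hbig r h) (by linarith)
  rw [hq, hcard] at key
  push_cast at key
  nlinarith [mul_nonneg (sub_nonneg.2 y0) (sub_nonneg.2 hx)]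

theorem num_six (D : NData 5 a s)
    (l1 : ∀ l, s l ≤ (17873 / 20000) * a l + (2219 / 25000)) (l2 : ∀ l, s l ≤ (26597 / 50000) * a l + (3647 / 20000)) (l3 : ∀ l, s l ≤ (3 / 10) * a l + (13339 / 50000)) : False := by
  obtain ⟨i, j1, j2, R, T⟩ := exists_Top (by norm_num) a s
  rcases le_total (a i) (11 / 100) with hx | hx
  · have hq : (R.filter (fun r => 11 / 100 ≤ a r)).card ≤ 3 :=
      (Finset.card_filter_le _ _).trans T.card.le
    interval_cases hq' : (R.filter (fun r => 11 / 100 ≤ a r)).card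
    · exact k6_q0 D T hx l1 l2 l3 hq'
    · exact k6_q1 D T hx l1 l2 l3 hq'
    · exact k6_q2 D T hx l1 l2 l3 hq'
    · exact k6_q3 D T hx l1 l2 l3 hq'
  · have hbig : ∀ l, 11 / 100 ≤ a l → s l ^ 2 ≤ (1 / 2) * a l + (-2697 / 100000) := fun l hl =>
      k6_env _ _ (D.s_nonneg l) (D.lc l) (D.c0 l) (l1 l) (l2 l) (l3 l) hl (by norm_num)
        (by norm_num) (by norm_num) (by norm_num) (by norm_num) (by norm_num) (by norm_num) (by norm_num) (by norm_num) (by norm_num)
    have key := cert_all D T hx (1 / 2) (-2697 / 100000) hbig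
    norm_num at key

end Vale.Agent.Lib.P226
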