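import Vale.Agent.Lib.P226.NumData
import Vale.Agent.Lib.P226.NumFive
import Vale.Agent.Lib.P226.NumSix
import Vale.Agent.Lib.P226.NumLarge

/-!
# P226: the numerical constraints are contradictory for five and more cells
-/

namespace Vale.Agent.Lib.P226

theorem C0_gt : 35809 / 100000 < C0 := by
  unfold C0
  rw [lt_div_iff₀ (by positivity)]
  have := Real.pi_lt_d6
  linarith

theorem NumData.toNData {n : ℕ} {a v s : Fin (n + 1) → ℝ} (D : NumData n a v s) :
    NData n a s where
  a_nonneg := D.a_nonneg
  sum_a := D.sum_one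
  s_nonneg := D.s_nonneg
  lc := fun i => by
    have := D.lt i
    rw [D.v_eq] at this
    exact this.le
  c0 := fun i => (D.hs i).1
  sel := by
    intro i j1 j2 j3 h1 h2 h3 h12 h13 h23 τ t0 t1 t2 t3
    have := D.select i j1 j2 j3 h1 h2 h3 h12 h13 h23 τ t0
      (by rw [D.v_eq]; exact t1) (by rw [D.v_eq]; exact t2) (by rw [D.v_eq]; exact t3)
    rw [D.v_eq] at this
    exact this.le
  gt := by
    refine C0_gt.trans (D.big.trans_le (le_of_eq ?_))
    exact Finset.sum_congr rfl fun i _ => D.v_eq i

theorem numdata_five {a v s : Fin 5 → ℝ} (D : NumData 4 a v s)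
    (hc : ∀ i, s i ≤ (93543 / 100000) * a i + 7627 / 100000 ∧
      s i ≤ (76796 / 100000) * a i + 11343 / 100000 ∧
      s i ≤ (64606 / 100000) * a i + 14591 / 100000 ∧
      s i ≤ (44834 / 100000) * a i + 20867 / 100000) : False :=
  num_five D.toNData (fun i => by linarith [(hc i).1]) (fun i => by linarith [(hc i).2.1])
    (fun i => by linarith [(hc i).2.2.1]) (fun i => by linarith [(hc i).2.2.2])

theorem numdata_six {a v s : Fin 6 → ℝ} (D : NumData 5 a v s)
    (hc : ∀ i, s i ≤ (53194 / 100000) * a i + 18235 / 100000 ∧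
      s i ≤ (89365 / 100000) * a i + 8876 / 100000) : False :=
  num_six D.toNData (fun i => by linarith [(hc i).2]) (fun i => by linarith [(hc i).1])
    (fun i => by linarith [(D.hs i).2.1])

theorem numdata_large {n : ℕ} (hn : 6 ≤ n) {a v s : Fin (n + 1) → ℝ} (D : NumData n a v s) :
    False :=
  num_large hn D.toNData (fun i => by linarith [(D.hs i).2.2.2.2])
    (fun i => by linarith [(D.hs i).2.2.2.1]) (fun i => by linarith [(D.hs i).2.2.1])
    (fun i => by linarith [(D.hs i).2.1])

end Vale.Agent.Lib.P226
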