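import Vale.Agent.Lib.P226.Extract
import Vale.Agent.Lib.P226.Base
import Vale.Agent.Lib.P226.Crit
import Vale.Agent.Lib.P226.NumStep
import Vale.Agent.Lib.P226.NoCritThree

/-!
# P226: the induction
-/

namespace Vale.Agent.Lib.P226

open MeasureTheory ProbabilityTheory

theorem no_crit_four (h1 : Bound 4) (z : Fin 5 → E 4) : ¬ Crit 4 z := fun hz =>
  numdata_five (numData_of_crit (by norm_num) h1 hz) (caps_four hz)

theorem no_crit_five (h1 : Bound 5) (z : Fin 6 → E 5) : ¬ Crit 5 z := fun hz =>
  numdata_six (numData_of_crit (by norm_num) h1 hz) (caps_five hz)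

theorem no_crit_large {n : ℕ} (hn : 6 ≤ n) (h1 : Bound n) (z : Fin (n + 1) → E n) :
    ¬ Crit n z := fun hz =>
  numdata_large hn (numData_of_crit (by omega) h1 hz)

theorem no_crit {n : ℕ} (hn : 3 ≤ n) (h1 : Bound n) (z : Fin (n + 1) → E n) : ¬ Crit n z := by
  rcases (by omega : n = 3 ∨ n = 4 ∨ n = 5 ∨ 6 ≤ n) with h | h | h | h
  · subst h
    exact no_crit_three h1 z
  · subst h
    exact no_crit_four h1 z
  · subst h
    exact no_crit_five h1 z
  · exact no_crit_large h h1 z

theorem bound_all (k : ℕ) (hk : 3 ≤ k) : Bound k := by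
  induction k, hk using Nat.le_induction with
  | base => exact bound_three
  | succ n hn ih =>
    by_contra h
    obtain ⟨z, hz⟩ := exists_crit (by omega) ih h
    exact no_crit hn ih z hz

end Vale.Agent.Lib.P226
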