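import Vale.Agent.Lib.P226.Defs

/-!
# Basic facts on the Gaussian measure: density, marginals
-/

namespace Vale.Agent.Lib.P226

open MeasureTheory ProbabilityTheory
open scoped ENNReal

/-- marginals of the Gaussian measure along an orthonormal family -/
theorem G_map_orthonormal {m n : ℕ} (f : Fin m → E n) (hf : Orthonormal ℝ f) :
    (G n).map (fun x => (WithLp.toLp 2 (fun i => inner ℝ (f i) x) : E m)) = G m := by
  have hmeas : Measurable (fun x : E n => (WithLp.toLp 2 (fun i => inner ℝ (f i) x) : E m)) := by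
    fun_prop
  have hfin : IsProbabilityMeasure
      ((G n).map (fun x => (WithLp.toLp 2 (fun i => inner ℝ (f i) x) : E m))) :=
    Measure.isProbabilityMeasure_map hmeas.aemeasurable
  apply Measure.ext_of_charFun (E := E m)
  ext t
  rw [charFun_stdGaussian, charFun_apply, integral_map hmeas.aemeasurable
    (Measurable.aestronglyMeasurable (by fun_prop))]
  have h1 : ∀ x : E n, inner ℝ (WithLp.toLp 2 (fun i => inner ℝ (f i) x) : E m) t =
      inner ℝ x (∑ i, t i • f i) := by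
    intro x
    rw [PiLp.inner_apply, inner_sum]
    apply Finset.sum_congr rfl
    intro i _
    rw [real_inner_smul_right, ← real_inner_comm x (f i)]
    simp
  simp_rw [h1]
  rw [← charFun_apply, charFun_stdGaussian]
  have h2 : ‖∑ i, t i • f i‖ ^ 2 = ‖t‖ ^ 2 := by
    rw [← real_inner_self_eq_norm_sq, hf.inner_sum, EuclideanSpace.real_norm_sq_eq]
    apply Finset.sum_congr rfl
    intro i _
    simp [sq]
  rw [← Complex.ofReal_pow, h2, Complex.ofReal_pow]

theorem integral_gauss_exp (n : ℕ) (t : E n) :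
    ∫ x : E n, Complex.exp (-(1 / 2 : ℂ) * ‖x‖ ^ 2 + Complex.I * inner ℝ t x) =
      (2 * Real.pi : ℂ) ^ ((n : ℂ) / 2) * Complex.exp (- ‖t‖ ^ 2 / 2) := by
  have h := GaussianFourier.integral_cexp_neg_mul_sq_norm_add (V := E n) (b := (1 / 2 : ℂ))
    (by norm_num) Complex.I t
  rw [h]
  congr 1
  · congr 1
    · field_simp
    · simp
  · congr 1
    rw [Complex.I_sq]
    ring

/-- density of the Gaussian measure -/
theorem G_eq_withDensity (n : ℕ) :
    G n = (volume : Measure (E n)).withDensity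
      (fun x => ENNReal.ofReal ((2 * Real.pi) ^ (-(n : ℝ) / 2) * Real.exp (-‖x‖ ^ 2 / 2))) := by
  obtain ⟨c, hc⟩ : ∃ c : ℝ, c = (2 * Real.pi) ^ (-(n : ℝ) / 2) := ⟨_, rfl⟩
  have hpi : 0 < 2 * Real.pi := by positivity
  have hc0 : 0 < c := by rw [hc]; positivity
  rw [← hc]
  obtain ⟨ρ, hρ⟩ : ∃ ρ : E n → ℝ, ρ = fun x => c * Real.exp (-‖x‖ ^ 2 / 2) := ⟨_, rfl⟩
  have hρ0 : ∀ x, 0 ≤ ρ x := fun x => by rw [hρ]; positivity
  have hρm : Measurable ρ := by rw [hρ]; fun_prop
  have hρi : Integrable ρ volume := by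
    rw [hρ]
    have := GaussianFourier.integrable_cexp_neg_mul_sq_norm_add (V := E n) (b := (1 / 2 : ℂ))
      (by norm_num) 0 0
    have h2 := this.norm
    refine (h2.const_mul c).congr (Filter.Eventually.of_forall fun x => ?_)
    simp only [Complex.norm_exp]
    have e2 : (-(1 / 2 : ℂ) * (‖x‖ : ℂ) ^ 2 + 0 * ((inner ℝ (0 : E n) x : ℝ) : ℂ)).re =
        -‖x‖ ^ 2 / 2 := by
      rw [zero_mul, add_zero, show (-(1 / 2 : ℂ) * (‖x‖ : ℂ) ^ 2) =
        ((-‖x‖ ^ 2 / 2 : ℝ) : ℂ) by push_cast; ring, Complex.ofReal_re]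
    rw [e2]
  show G n = volume.withDensity (fun x => ENNReal.ofReal (c * Real.exp (-‖x‖ ^ 2 / 2)))
  have e1 : (fun x : E n => ENNReal.ofReal (c * Real.exp (-‖x‖ ^ 2 / 2))) =
      fun x => ENNReal.ofReal (ρ x) := by rw [hρ]
  rw [e1]
  have hfin : IsFiniteMeasure (volume.withDensity (fun x : E n => ENNReal.ofReal (ρ x))) :=
    isFiniteMeasure_withDensity_ofReal hρi.2
  apply Measure.ext_of_charFun (E := E n)
  ext t
  rw [charFun_stdGaussian, charFun_apply, integral_withDensity_eq_integral_toReal_smul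
    (hρm.ennreal_ofReal) (Filter.Eventually.of_forall fun x => ENNReal.ofReal_lt_top)]
  have h1 : ∀ x : E n, (ENNReal.ofReal (ρ x)).toReal • Complex.exp (inner ℝ x t * Complex.I) =
      (c : ℂ) * Complex.exp (-(1 / 2 : ℂ) * ‖x‖ ^ 2 + Complex.I * inner ℝ t x) := by
    intro x
    rw [ENNReal.toReal_ofReal (hρ0 x), Complex.exp_add, hρ, Complex.real_smul]
    push_cast
    rw [real_inner_comm x t, mul_assoc]
    congr 2
    · congr 1
      ring
    · rw [mul_comm]
  simp_rw [h1]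
  rw [integral_const_mul, integral_gauss_exp, ← mul_assoc]
  have h2 : (c : ℂ) * (2 * Real.pi : ℂ) ^ ((n : ℂ) / 2) = 1 := by
    have h3 : (2 * Real.pi : ℂ) ^ ((n : ℂ) / 2) = (((2 * Real.pi) ^ ((n : ℝ) / 2) : ℝ) : ℂ) := by
      rw [Complex.ofReal_cpow hpi.le]
      push_cast
      rfl
    rw [h3, hc, ← Complex.ofReal_mul, ← Real.rpow_add hpi]
    simp [neg_div]
  rw [h2, one_mul]

end Vale.Agent.Lib.P226
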