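import Vale.Agent.Lib.P226.Cap

/-!
# P226: module CAPNUM (numeric values of the cap bounds)
-/

namespace Vale.Agent.Lib.P226

namespace CapNum

/-- Taylor polynomial of the cosine -/
noncomputable def P (x : ℝ) : ℝ :=
  1 - x ^ 2 / 2 + x ^ 4 / 24 - x ^ 6 / 720 + x ^ 8 / 40320 - x ^ 10 / 3628800
    + x ^ 12 / 479001600

/-- Taylor polynomial of the sine -/
noncomputable def Q (x : ℝ) : ℝ :=
  x - x ^ 3 / 6 + x ^ 5 / 120 - x ^ 7 / 5040 + x ^ 9 / 362880 - x ^ 11 / 39916800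
    + x ^ 13 / 6227020800

theorem taylor_sum (x : ℝ) :
    ∑ m ∈ Finset.range 14, ((x : ℂ) * Complex.I) ^ m / (m.factorial : ℂ) =
      (P x : ℂ) + (Q x : ℂ) * Complex.I := by
  have h2 : Complex.I ^ 2 = -1 := Complex.I_sq
  have h3 : Complex.I ^ 3 = -Complex.I := by rw [pow_succ, h2]; ring
  have h4 : Complex.I ^ 4 = 1 := Complex.I_pow_four
  have h5 : Complex.I ^ 5 = Complex.I := by rw [pow_succ, h4]; ring
  have h6 : Complex.I ^ 6 = -1 := by rw [pow_succ, h5]; rw [← h2]; ring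
  have h7 : Complex.I ^ 7 = -Complex.I := by rw [pow_succ, h6]; ring
  have h8 : Complex.I ^ 8 = 1 := by
    rw [show (8 : ℕ) = 4 * 2 by norm_num, pow_mul, h4]; ring
  have h9 : Complex.I ^ 9 = Complex.I := by rw [pow_succ, h8]; ring
  have h10 : Complex.I ^ 10 = -1 := by rw [pow_succ, h9]; rw [← h2]; ring
  have h11 : Complex.I ^ 11 = -Complex.I := by rw [pow_succ, h10]; ring
  have h12 : Complex.I ^ 12 = 1 := by
    rw [show (12 : ℕ) = 4 * 3 by norm_num, pow_mul, h4]; ring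
  have h13 : Complex.I ^ 13 = Complex.I := by rw [pow_succ, h12]; ring
  simp only [Finset.sum_range_succ, Finset.sum_range_zero, mul_pow, h2, h3, h4, h5, h6, h7, h8,
    h9, h10, h11, h12, h13, pow_zero, pow_one, P, Q]
  norm_num [Nat.factorial]
  ring

theorem abs_re_im (a b : ℝ) : |a| ≤ ‖(a : ℂ) + (b : ℂ) * Complex.I‖ ∧
    |b| ≤ ‖(a : ℂ) + (b : ℂ) * Complex.I‖ := by
  constructor
  · have := Complex.abs_re_le_norm ((a : ℂ) + (b : ℂ) * Complex.I)
    simpa using this
  · have := Complex.abs_im_le_norm ((a : ℂ) + (b : ℂ) * Complex.I)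
    simpa using this

theorem taylor_bound {x : ℝ} (h0 : 0 ≤ x) (h1 : x ≤ 7) :
    |Real.cos x - P x| ≤ x ^ 14 / 87178291200 * 2 ∧
    |Real.sin x - Q x| ≤ x ^ 14 / 87178291200 * 2 := by
  have h := Complex.exp_bound' (x := (x : ℂ) * Complex.I) (n := 14) (by
    rw [norm_mul, Complex.norm_I, Complex.norm_real, Real.norm_of_nonneg h0]
    push_cast
    linarith)
  rw [taylor_sum, norm_mul, Complex.norm_I, Complex.norm_real, Real.norm_of_nonneg h0, mul_one]
    at h
  have hf : ((14 : ℕ).factorial : ℝ) = 87178291200 := by norm_num [Nat.factorial]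
  rw [hf] at h
  have hd : Complex.exp ((x : ℂ) * Complex.I) - ((P x : ℂ) + (Q x : ℂ) * Complex.I) =
      ((Real.cos x - P x : ℝ) : ℂ) + ((Real.sin x - Q x : ℝ) : ℂ) * Complex.I := by
    rw [Complex.exp_mul_I]
    push_cast
    ring
  rw [hd] at h
  exact ⟨(abs_re_im _ _).1.trans h, (abs_re_im _ _).2.trans h⟩

theorem sqrt_two_pi : (2506628 / 1000000 : ℝ) ≤ Real.sqrt (2 * Real.pi) ∧
    Real.sqrt (2 * Real.pi) ≤ 25066285 / 10000000 := by
  constructor
  · apply Real.le_sqrt_of_sq_le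
    have := Real.pi_gt_d6
    norm_num at this ⊢
    linarith
  · apply Real.sqrt_le_iff.2
    have := Real.pi_lt_d6
    constructor
    · norm_num
    · norm_num at this ⊢
      linarith

/-- one line of the cap bound in dimension four -/
theorem line_four {N a : ℝ} (ha : 0 ≤ a)
    (h : ∀ θ : ℝ, 0 ≤ θ → θ ≤ Real.pi / 2 → N ≤ ((3 * Real.pi / 2) * Real.cos θ * a
      + Real.sin θ ^ 3 - (3 / 2) * Real.cos θ * (θ - Real.sin θ * Real.cos θ))
        / Real.sqrt (2 * Real.pi))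
    {θ lo hi sh p q : ℝ} (h0 : 0 ≤ θ) (h1 : θ ≤ 3 / 2) (hlo : 0 ≤ lo)
    (hc1 : lo + θ ^ 14 / 87178291200 * 2 ≤ P θ) (hc2 : P θ + θ ^ 14 / 87178291200 * 2 ≤ hi)
    (hs : Q θ + θ ^ 14 / 87178291200 * 2 ≤ sh)
    (hp : 3 / 4 * hi * (25066285 / 10000000) ≤ p)
    (hq : sh ^ 3 - 3 / 2 * θ * lo + 3 / 2 * sh * hi ^ 2 ≤ q * (2506628 / 1000000))
    (hq0 : 0 ≤ q) :
    N ≤ p * a + q := by
  obtain ⟨t1, t2⟩ := taylor_bound h0 (by linarith)
  rw [abs_le] at t1 t2
  have hpi := Real.pi_gt_three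
  have hθ : θ ≤ Real.pi / 2 := by linarith
  have hN := h θ h0 hθ
  have hcos1 : lo ≤ Real.cos θ := by linarith
  have hcos2 : Real.cos θ ≤ hi := by linarith
  have hsin0 : 0 ≤ Real.sin θ := Real.sin_nonneg_of_nonneg_of_le_pi h0 (by linarith)
  have hsin1 : Real.sin θ ≤ sh := by linarith
  obtain ⟨r1, r2⟩ := sqrt_two_pi
  set r := Real.sqrt (2 * Real.pi) with hr
  have hr0 : 0 < r := by linarith
  have hrsq : r ^ 2 = 2 * Real.pi := Real.sq_sqrt (by positivity)
  refine hN.trans ?_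
  rw [div_le_iff₀ hr0]
  have e1 : 3 * Real.pi / 2 * Real.cos θ * a ≤ p * a * r := by
    have : Real.pi = r ^ 2 / 2 := by linarith
    have e2 : 3 / 4 * Real.cos θ * r ≤ p := by
      refine le_trans ?_ hp
      have : 3 / 4 * Real.cos θ ≤ 3 / 4 * hi := by linarith
      exact mul_le_mul this r2 hr0.le (by linarith)
    calc 3 * Real.pi / 2 * Real.cos θ * a = (3 / 4 * Real.cos θ * r) * (a * r) := by
          rw [this]; ring
      _ ≤ p * (a * r) := mul_le_mul_of_nonneg_right e2 (by positivity)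
      _ = p * a * r := by ring
  have e3 : Real.sin θ ^ 3 - 3 / 2 * Real.cos θ * (θ - Real.sin θ * Real.cos θ) ≤ q * r := by
    have f1 : Real.sin θ ^ 3 ≤ sh ^ 3 := pow_le_pow_left₀ hsin0 hsin1 3
    have f2 : Real.cos θ ^ 2 ≤ hi ^ 2 := pow_le_pow_left₀ (hlo.trans hcos1) hcos2 2
    have f3 : Real.sin θ * Real.cos θ ^ 2 ≤ sh * hi ^ 2 :=
      mul_le_mul hsin1 f2 (sq_nonneg _) (hsin0.trans hsin1)
    have f4 : θ * lo ≤ θ * Real.cos θ := mul_le_mul_of_nonneg_left hcos1 h0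
    have f5 : q * (2506628 / 1000000) ≤ q * r := mul_le_mul_of_nonneg_left r1 hq0
    nlinarith
  linarith [mul_add r (p * a) q]

/-- the four lines in dimension four -/
theorem lines_four {N a : ℝ} (ha : 0 ≤ a)
    (h : ∀ θ : ℝ, 0 ≤ θ → θ ≤ Real.pi / 2 → N ≤ ((3 * Real.pi / 2) * Real.cos θ * a
      + Real.sin θ ^ 3 - (3 / 2) * Real.cos θ * (θ - Real.sin θ * Real.cos θ))
        / Real.sqrt (2 * Real.pi)) :
    N ≤ (93543 / 100000) * a + 7627 / 100000 ∧
    N ≤ (76796 / 100000) * a + 11343 / 100000 ∧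
    N ≤ (64606 / 100000) * a + 14591 / 100000 ∧
    N ≤ (44834 / 100000) * a + 20867 / 100000 := by
  refine ⟨?_, ?_, ?_, ?_⟩
  · exact line_four ha h (θ := 105 / 100) (lo := 497571 / 1000000) (hi := 4975711 / 10000000)
      (sh := 8674233 / 10000000) (by norm_num) (by norm_num) (by norm_num)
      (by norm_num [P]) (by norm_num [P]) (by norm_num [Q]) (by norm_num) (by norm_num)
      (by norm_num)
  · exact line_four ha h (θ := 115 / 100) (lo := 4084874 / 10000000) (hi := 4084875 / 10000000)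
      (sh := 9127640 / 10000000) (by norm_num) (by norm_num) (by norm_num)
      (by norm_num [P]) (by norm_num [P]) (by norm_num [Q]) (by norm_num) (by norm_num)
      (by norm_num)
  · exact line_four ha h (θ := 122 / 100) (lo := 3436457 / 10000000) (hi := 3436458 / 10000000)
      (sh := 9390994 / 10000000) (by norm_num) (by norm_num) (by norm_num)
      (by norm_num [P]) (by norm_num [P]) (by norm_num [Q]) (by norm_num) (by norm_num)
      (by norm_num)
  · exact line_four ha h (θ := 133 / 100) (lo := 2384760 / 10000000) (hi := 2384761 / 10000000)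
      (sh := 9711484 / 10000000) (by norm_num) (by norm_num) (by norm_num)
      (by norm_num [P]) (by norm_num [P]) (by norm_num [Q]) (by norm_num) (by norm_num)
      (by norm_num)

/-- the two lines in dimension five -/
theorem lines_five {N a : ℝ} (ha : 0 ≤ a)
    (h : ∀ c : ℝ, 0 ≤ c → c ≤ 1 → N ≤ ((16 / 3) * c * a + (1 - c) ^ 3 * (3 + c) / 3)
        / Real.sqrt (2 * Real.pi)) :
    N ≤ (53194 / 100000) * a + 18235 / 100000 ∧
    N ≤ (89365 / 100000) * a + 8876 / 100000 := by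
  obtain ⟨r1, r2⟩ := sqrt_two_pi
  have hr0 : 0 < Real.sqrt (2 * Real.pi) := by linarith
  constructor
  · refine (h (25 / 100) (by norm_num) (by norm_num)).trans ?_
    rw [div_le_iff₀ hr0]
    have e1 : (53194 / 100000) * (2506628 / 1000000) * a ≤
      (53194 / 100000) * Real.sqrt (2 * Real.pi) * a := by gcongr
    nlinarith
  · refine (h (42 / 100) (by norm_num) (by norm_num)).trans ?_
    rw [div_le_iff₀ hr0]
    have e1 : (89365 / 100000) * (2506628 / 1000000) * a ≤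
      (89365 / 100000) * Real.sqrt (2 * Real.pi) * a := by gcongr
    nlinarith

end CapNum

open MeasureTheory

/-- numeric cap bounds in dimension four -/
theorem cap_lines_four (A : Set (E 4)) (hA : MeasurableSet A)
    (hc : ∀ x ∈ A, ∀ t : ℝ, 0 < t → t • x ∈ A) :
    ‖∫ x in A, x ∂(G 4)‖ ≤ (93543 / 100000) * (G 4).real A + 7627 / 100000 ∧
    ‖∫ x in A, x ∂(G 4)‖ ≤ (76796 / 100000) * (G 4).real A + 11343 / 100000 ∧
    ‖∫ x in A, x ∂(G 4)‖ ≤ (64606 / 100000) * (G 4).real A + 14591 / 100000 ∧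
    ‖∫ x in A, x ∂(G 4)‖ ≤ (44834 / 100000) * (G 4).real A + 20867 / 100000 :=
  CapNum.lines_four measureReal_nonneg fun θ h0 h1 => cap_bound_four A hA hc θ h0 h1

/-- numeric cap bounds in dimension five -/
theorem cap_lines_five (A : Set (E 5)) (hA : MeasurableSet A)
    (hc : ∀ x ∈ A, ∀ t : ℝ, 0 < t → t • x ∈ A) :
    ‖∫ x in A, x ∂(G 5)‖ ≤ (53194 / 100000) * (G 5).real A + 18235 / 100000 ∧
    ‖∫ x in A, x ∂(G 5)‖ ≤ (89365 / 100000) * (G 5).real A + 8876 / 100000 :=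
  CapNum.lines_five measureReal_nonneg fun c h0 h1 => cap_bound_five A hA hc c h0 h1

end Vale.Agent.Lib.P226
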