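import Vale.Agent.Lib.P226.Basic1

/-!
# Polar coordinates for cones and Gaussian radial moments
-/

namespace Vale.Agent.Lib.P226

open MeasureTheory ProbabilityTheory Set Metric
open scoped ENNReal

namespace Cap

theorem lintegral_cone {n : ℕ} (hn : 0 < n) {A : Set (E n)} (hA : MeasurableSet A)
    (hc : ∀ x ∈ A, ∀ t : ℝ, 0 < t → t • x ∈ A) {f : ℝ → ℝ≥0∞} (hf : Measurable f) :
    ∫⁻ x in A, f ‖x‖ = (volume : Measure (E n)).toSphere ((↑) ⁻¹' A) *
      ∫⁻ r in Ioi (0 : ℝ), ENNReal.ofReal (r ^ (n - 1)) * f r := by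
  have : Nontrivial (E n) := by
    have : Nonempty (Fin n) := ⟨⟨0, hn⟩⟩
    infer_instance
  have hmp := (volume : Measure (E n)).measurePreserving_homeomorphUnitSphereProd
  have hdim : Module.finrank ℝ (E n) = n := by simp
  rw [hdim] at hmp
  let B : Set (sphere (0 : E n) 1) := (↑) ⁻¹' A
  have hB : MeasurableSet B := measurable_subtype_coe hA
  let g : sphere (0 : E n) 1 × Ioi (0 : ℝ) → ℝ≥0∞ := fun p => B.indicator 1 p.1 * f p.2
  have h1 : ∫⁻ x in A, f ‖x‖ = ∫⁻ x : ({(0 : E n)}ᶜ : Set (E n)),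
      g (homeomorphUnitSphereProd (E n) x) ∂((volume : Measure (E n)).comap (↑)) := by
    rw [← lintegral_indicator hA, ← setLIntegral_univ (μ := (volume : Measure (E n)))]
    have h2 : (volume : Measure (E n)).restrict univ =
        (volume : Measure (E n)).restrict ({(0 : E n)}ᶜ) := by
      rw [restrict_compl_singleton, Measure.restrict_univ]
    rw [h2, ← lintegral_subtype_comap (measurableSet_singleton _).compl]
    refine lintegral_congr fun x => ?_
    have hx : (x : E n) ≠ 0 := x.2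
    have hnx : 0 < ‖(x : E n)‖ := norm_pos_iff.2 hx
    simp only [g, B]
    have h3 : ((homeomorphUnitSphereProd (E n) x).2 : ℝ) = ‖(x : E n)‖ := by simp
    have h4 : ((homeomorphUnitSphereProd (E n) x).1 : E n) = ‖(x : E n)‖⁻¹ • (x : E n) := by simp
    rw [h3]
    by_cases hxA : (x : E n) ∈ A
    · have h5 : (homeomorphUnitSphereProd (E n) x).1 ∈ ((↑) ⁻¹' A : Set (sphere (0 : E n) 1)) := by
        rw [mem_preimage, h4]
        exact hc _ hxA _ (inv_pos.2 hnx)
      rw [indicator_of_mem hxA, indicator_of_mem h5, Pi.one_apply, one_mul]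
    · have h5 : (homeomorphUnitSphereProd (E n) x).1 ∉ ((↑) ⁻¹' A : Set (sphere (0 : E n) 1)) := by
        rw [mem_preimage, h4]
        intro h
        apply hxA
        have := hc _ h _ hnx
        rwa [smul_smul, mul_inv_cancel₀ hnx.ne', one_smul] at this
      rw [indicator_of_notMem hxA, indicator_of_notMem h5, zero_mul]
  rw [h1, hmp.lintegral_comp_emb (Homeomorph.measurableEmbedding _) g]
  simp only [g]
  have hf' : Measurable fun r : Ioi (0 : ℝ) => f r := hf.comp measurable_subtype_coe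
  rw [lintegral_prod_mul (f := B.indicator 1) (g := fun r : Ioi (0 : ℝ) => f r)
    (measurable_one.indicator hB).aemeasurable hf'.aemeasurable, lintegral_indicator_one hB]
  congr 1
  rw [Measure.volumeIoiPow, lintegral_withDensity_eq_lintegral_mul _ (by fun_prop) hf']
  simp only [Pi.mul_apply]
  exact lintegral_subtype_comap measurableSet_Ioi
    (fun r : ℝ => ENNReal.ofReal (r ^ (n - 1)) * f r)

/-- The normalising constant. -/
noncomputable def KK (n : ℕ) : ℝ := (2 * Real.pi) ^ (-(n : ℝ) / 2)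

theorem KK_pos (n : ℕ) : 0 < KK n := by unfold KK; positivity

theorem lintegral_cone_gauss {n : ℕ} (hn : 0 < n) {A : Set (E n)} (hA : MeasurableSet A)
    (hc : ∀ x ∈ A, ∀ t : ℝ, 0 < t → t • x ∈ A) {f : ℝ → ℝ≥0∞} (hf : Measurable f) :
    ∫⁻ x in A, f ‖x‖ ∂(G n) = (volume : Measure (E n)).toSphere ((↑) ⁻¹' A) *
      (ENNReal.ofReal (KK n) *
        ∫⁻ r in Ioi (0 : ℝ), ENNReal.ofReal (r ^ (n - 1) * Real.exp (-r ^ 2 / 2)) * f r) := by
  have hm : Measurable fun r : ℝ => ENNReal.ofReal (KK n * Real.exp (-r ^ 2 / 2)) * f r := by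
    fun_prop
  have h1 := lintegral_cone hn hA hc hm
  rw [G_eq_withDensity, restrict_withDensity hA, lintegral_withDensity_eq_lintegral_mul _
    (by fun_prop) (by fun_prop)]
  simp only [Pi.mul_apply]
  unfold KK at *
  rw [h1]
  congr 1
  rw [← lintegral_const_mul' _ _ ENNReal.ofReal_ne_top]
  refine setLIntegral_congr_fun measurableSet_Ioi fun r hr => ?_
  have hr0 : (0 : ℝ) < r := hr
  rw [ENNReal.ofReal_mul (by positivity), ENNReal.ofReal_mul (by positivity)]
  ring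

/-- Gaussian radial moments. -/
noncomputable def Mo (j : ℕ) : ℝ := ∫ r in Ioi (0 : ℝ), r ^ j * Real.exp (-r ^ 2 / 2)

theorem integrableOn_Mo (j : ℕ) :
    IntegrableOn (fun r : ℝ => r ^ j * Real.exp (-r ^ 2 / 2)) (Ioi 0) := by
  have h := integrableOn_rpow_mul_exp_neg_mul_rpow (p := 2) (s := (j : ℝ)) (b := 1 / 2)
    (by have : (0 : ℝ) ≤ (j : ℝ) := Nat.cast_nonneg j; linarith) (by norm_num) (by norm_num)
  refine h.congr_fun (fun r hr => ?_) measurableSet_Ioi
  simp only [Real.rpow_natCast, Real.rpow_two]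
  congr 2
  ring

theorem Mo_eq (j : ℕ) : Mo j = (1 / 2 : ℝ) ^ (-((j : ℝ) + 1) / 2) * (1 / 2) *
    Real.Gamma (((j : ℝ) + 1) / 2) := by
  rw [← integral_rpow_mul_exp_neg_mul_rpow (by norm_num) (by
    have : (0 : ℝ) ≤ (j : ℝ) := Nat.cast_nonneg j; linarith) (by norm_num)]
  unfold Mo
  refine setIntegral_congr_fun measurableSet_Ioi fun r hr => ?_
  simp only [Real.rpow_natCast, Real.rpow_two]
  congr 2
  ring

theorem Mo_pos (j : ℕ) : 0 < Mo j := by
  rw [Mo_eq]
  have : 0 < Real.Gamma (((j : ℝ) + 1) / 2) := Real.Gamma_pos_of_pos (by positivity)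
  positivity

theorem Mo_succ (j : ℕ) : Mo (j + 2) = ((j : ℝ) + 1) * Mo j := by
  rw [Mo_eq, Mo_eq]
  have h1 : (((j + 2 : ℕ) : ℝ) + 1) / 2 = ((j : ℝ) + 1) / 2 + 1 := by push_cast; ring
  have h2 : -(((j + 2 : ℕ) : ℝ) + 1) / 2 = -((j : ℝ) + 1) / 2 + (-1) := by push_cast; ring
  rw [h1, h2, Real.Gamma_add_one (by positivity), Real.rpow_add (by norm_num)]
  rw [show ((1 / 2 : ℝ)) ^ (-1 : ℝ) = 2 by
    rw [Real.rpow_neg_one]; norm_num]
  ring

theorem Mo_one : Mo 1 = 1 := by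
  rw [Mo_eq]
  norm_num [Real.rpow_neg_one]

theorem Mo_zero : Mo 0 = √(2 * Real.pi) / 2 := by
  rw [Mo_eq]
  rw [show ((((0 : ℕ) : ℝ) + 1) / 2) = 1 / 2 by norm_num, Real.Gamma_one_half_eq,
    show (-(((0 : ℕ) : ℝ) + 1) / 2) = -(1 / 2 : ℝ) by norm_num, Real.rpow_neg (by norm_num),
    ← Real.sqrt_eq_rpow, ← Real.sqrt_inv, Real.sqrt_mul (by norm_num)]
  norm_num
  ring

theorem lintegral_Mo (j : ℕ) :
    ∫⁻ r in Ioi (0 : ℝ), ENNReal.ofReal (r ^ j * Real.exp (-r ^ 2 / 2)) =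
      ENNReal.ofReal (Mo j) := by
  unfold Mo
  rw [ofReal_integral_eq_lintegral_ofReal (integrableOn_Mo j)]
  filter_upwards [ae_restrict_mem measurableSet_Ioi] with r hr
  have : (0 : ℝ) < r := hr
  simp only [Pi.zero_apply]
  positivity

theorem sphere_univ {n : ℕ} (hn : 0 < n) :
    (volume : Measure (E n)).toSphere univ * ENNReal.ofReal (KK n) =
      ENNReal.ofReal (Mo (n - 1))⁻¹ := by
  have h := lintegral_cone_gauss hn MeasurableSet.univ (fun x _ t _ => mem_univ _)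
    (measurable_const (a := (1 : ℝ≥0∞)))
  simp only [Measure.restrict_univ, lintegral_one, measure_univ, preimage_univ, mul_one] at h
  rw [lintegral_Mo, ← mul_assoc] at h
  rw [ENNReal.ofReal_inv_of_pos (Mo_pos _)]
  exact ENNReal.eq_inv_of_mul_eq_one_left h.symm

/-- The law of the norm. -/
theorem lintegral_norm_gauss {n : ℕ} (hn : 0 < n) {f : ℝ → ℝ≥0∞} (hf : Measurable f) :
    ∫⁻ x, f ‖x‖ ∂(G n) = ENNReal.ofReal (Mo (n - 1))⁻¹ *
      ∫⁻ r in Ioi (0 : ℝ), ENNReal.ofReal (r ^ (n - 1) * Real.exp (-r ^ 2 / 2)) * f r := by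
  have h := lintegral_cone_gauss hn MeasurableSet.univ (fun x _ t _ => mem_univ _) hf
  rw [Measure.restrict_univ, preimage_univ, ← mul_assoc, sphere_univ hn] at h
  exact h

/-- The mean norm over a cone. -/
theorem lintegral_norm_cone {n : ℕ} (hn : 0 < n) {A : Set (E n)} (hA : MeasurableSet A)
    (hc : ∀ x ∈ A, ∀ t : ℝ, 0 < t → t • x ∈ A) :
    ∫⁻ x in A, ENNReal.ofReal ‖x‖ ∂(G n) = ENNReal.ofReal (Mo n / Mo (n - 1)) * G n A := by
  have h1 := lintegral_cone_gauss hn hA hc (f := fun r => ENNReal.ofReal r) (by fun_prop)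
  have h2 := lintegral_cone_gauss hn hA hc (measurable_const (a := (1 : ℝ≥0∞)))
  simp only [setLIntegral_one, mul_one] at h2
  rw [lintegral_Mo] at h2
  have h3 : ∫⁻ r in Ioi (0 : ℝ), ENNReal.ofReal (r ^ (n - 1) * Real.exp (-r ^ 2 / 2)) *
      ENNReal.ofReal r = ENNReal.ofReal (Mo n) := by
    rw [← lintegral_Mo]
    refine setLIntegral_congr_fun measurableSet_Ioi fun r hr => ?_
    have hr0 : (0 : ℝ) < r := hr
    rw [← ENNReal.ofReal_mul (by positivity)]
    congr 1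
    have : r ^ n = r ^ (n - 1) * r := by
      rw [← pow_succ, Nat.sub_add_cancel hn]
    rw [this]; ring
  rw [h3] at h1
  rw [h1, h2, ENNReal.ofReal_div_of_pos (Mo_pos _), ENNReal.div_eq_inv_mul]
  have h4 : ENNReal.ofReal (Mo (n - 1)) ≠ 0 := by
    rw [Ne, ENNReal.ofReal_eq_zero, not_le]; exact Mo_pos _
  calc _ = (volume : Measure (E n)).toSphere ((↑) ⁻¹' A) * ENNReal.ofReal (KK n) *
      ENNReal.ofReal (Mo n) * ((ENNReal.ofReal (Mo (n - 1)))⁻¹ * ENNReal.ofReal (Mo (n - 1))) := by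
        rw [ENNReal.inv_mul_cancel h4 ENNReal.ofReal_ne_top]; ring
    _ = _ := by ring

end Cap

end Vale.Agent.Lib.P226
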