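import Mathlib

/-!
# P226 (Gaussian propeller conjecture): internal definitions

`E n` is `R^n` with the Euclidean norm, `G n` its standard Gaussian measure, `C0 = 9/(8 pi)`.
-/

namespace Vale.Agent.Lib.P226

open MeasureTheory ProbabilityTheory

/-- Euclidean space of dimension `n`. -/
abbrev E (n : ℕ) : Type := EuclideanSpace ℝ (Fin n)

/-- Standard Gaussian probability measure on `E n`. -/
noncomputable abbrev G (n : ℕ) : Measure (E n) := stdGaussian (E n)

/-- The propeller constant. -/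
noncomputable def C0 : ℝ := 9 / (8 * Real.pi)

/-- Expected maximum of the linear functionals `⟪v i, x⟫`. -/
noncomputable def hmax {k n : ℕ} (v : Fin k → E n) : ℝ :=
  ∫ x, (⨆ i, inner ℝ (v i) x) ∂(G n)

/-- The propeller inequality for `k` vectors, in every dimension. -/
def Bound (k : ℕ) : Prop :=
  ∀ (n : ℕ) (v : Fin k → E n), hmax v ^ 2 ≤ C0 * ∑ i, ‖v i‖ ^ 2

/-- The open cell of index `i`: `⟪z i, x⟫` is the strict maximum. -/
def cell {k n : ℕ} (z : Fin k → E n) (i : Fin k) : Set (E n) :=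
  {x | ∀ j, j ≠ i → inner ℝ (z j) x < inner ℝ (z i) x}

/-- mass of a cell -/
noncomputable def mass {k n : ℕ} (z : Fin k → E n) (i : Fin k) : ℝ := (G n).real (cell z i)

/-- A critical counterexample configuration with `n + 1` vectors in `R^n`. -/
structure Crit (n : ℕ) (z : Fin (n + 1) → E n) : Prop where
  gt : C0 < ∑ i, ‖z i‖ ^ 2
  sum_zero : ∑ i, z i = 0
  neg : ∀ i j, i ≠ j → inner ℝ (z i) (z j) < 0
  moment : ∀ i, ∫ x in cell z i, x ∂(G n) = z i
  mass_sum : ∑ i, mass z i = 1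

/-- `Del z i = E (⟪z i, X⟫ - max_{j ≠ i} ⟪z j, X⟫)^+`. -/
noncomputable def Del {n : ℕ} (z : Fin (n + 1) → E n) (i : Fin (n + 1)) : ℝ :=
  ∫ x, max 0 (⨅ j : Fin n, inner ℝ (z i - z (i.succAbove j)) x) ∂(G n)

/-- `c z i j = - ⟪z i, z j⟫ / |z i|^2`. -/
noncomputable def cc {k n : ℕ} (z : Fin k → E n) (i j : Fin k) : ℝ :=
  - inner ℝ (z i) (z j) / ‖z i‖ ^ 2

/-- Component of `z j` orthogonal to `z i`. -/
noncomputable def ee {k n : ℕ} (z : Fin k → E n) (i j : Fin k) : E n :=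
  z j + cc z i j • z i

/-- Gram determinant of two vectors. -/
noncomputable def gram2 {n : ℕ} (u v : E n) : ℝ :=
  ‖u‖ ^ 2 * ‖v‖ ^ 2 - (inner ℝ u v) ^ 2

end Vale.Agent.Lib.P226
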