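import Vale.Agent.Lib.P226.Basic2
import Vale.Agent.Lib.P226.Crit

/-!
# P226: the deletion inequality
-/

namespace Vale.Agent.Lib.P226

open MeasureTheory ProbabilityTheory Set

namespace DeleteAux

variable {n : ℕ} {z : Fin (n + 1) → E n}

theorem ne_of_crit (hz : Crit n z) (i j : Fin (n + 1)) (hij : i ≠ j) : z i ≠ z j := by
  intro h
  have h1 := hz.neg i j hij
  rw [h, real_inner_self_eq_norm_sq] at h1
  have := sq_nonneg ‖z j‖
  linarith

theorem hmax_crit (hz : Crit n z) : hmax z = ∑ i, ‖z i‖ ^ 2 := by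
  rw [CritAux.hmax_eq_sum (Nat.succ_pos n) z]
  refine Finset.sum_congr rfl fun i _ => ?_
  have h1 := CritAux.cell_ae_eq z (ne_of_crit hz) i
  rw [← setIntegral_congr_set h1, hz.moment i, real_inner_self_eq_norm_sq]

/-- The vectors without the `i`-th one. -/
def rest (z : Fin (n + 1) → E n) (i : Fin (n + 1)) : Fin n → E n := fun j => z (i.succAbove j)

theorem iSup_succAbove (hn : 0 < n) (a : Fin (n + 1) → ℝ) (i : Fin (n + 1)) :
    max 0 (⨅ j : Fin n, (a i - a (i.succAbove j))) =
      (⨆ l, a l) - ⨆ j : Fin n, a (i.succAbove j) := by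
  have : Nonempty (Fin n) := ⟨⟨0, hn⟩⟩
  set b := ⨆ j : Fin n, a (i.succAbove j) with hb
  have h1 : (⨅ j : Fin n, (a i - a (i.succAbove j))) = a i - b := by
    apply le_antisymm
    · obtain ⟨j, hj⟩ := exists_eq_ciSup_of_finite (f := fun j : Fin n => a (i.succAbove j))
      rw [hb, ← hj]
      exact ciInf_le (Set.finite_range _).bddBelow j
    · apply le_ciInf
      intro j
      have := le_ciSup (f := fun j : Fin n => a (i.succAbove j)) (Set.finite_range _).bddAbove j
      linarith
  have h2 : (⨆ l, a l) = max (a i) b := by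
    apply le_antisymm
    · apply ciSup_le
      intro l
      rcases Fin.eq_self_or_eq_succAbove i l with rfl | ⟨j, rfl⟩
      · exact le_max_left _ _
      · exact (le_ciSup (f := fun j : Fin n => a (i.succAbove j))
          (Set.finite_range _).bddAbove j).trans (le_max_right _ _)
    · apply max_le
      · exact le_ciSup (Set.finite_range a).bddAbove i
      · apply ciSup_le
        intro j
        exact le_ciSup (Set.finite_range a).bddAbove (i.succAbove j)
  rw [h1, h2]
  rcases le_total (a i) b with h | h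
  · rw [max_eq_left (by linarith), max_eq_right h, sub_self]
  · rw [max_eq_right (by linarith), max_eq_left h]

theorem Del_eq (hn : 0 < n) (z : Fin (n + 1) → E n) (i : Fin (n + 1)) :
    Del z i = hmax z - hmax (rest z i) := by
  unfold Del hmax
  rw [← integral_sub (integrable_iSup_inner z) (integrable_iSup_inner (rest z i))]
  congr 1
  funext x
  have h := iSup_succAbove hn (fun l => inner ℝ (z l) x) i
  simp only [inner_sub_left]
  exact h

theorem sum_rest (z : Fin (n + 1) → E n) (i : Fin (n + 1)) (hz : ∑ l, z l = 0) :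
    ∑ j, rest z i j = - z i := by
  rw [Fin.sum_univ_succAbove _ i] at hz
  unfold rest
  exact eq_neg_of_add_eq_zero_right hz

theorem sum_norm_sub (hn : 0 < n) (z : Fin (n + 1) → E n) (i : Fin (n + 1))
    (hz : ∑ l, z l = 0) :
    ∑ j, ‖rest z i j - (-(n : ℝ)⁻¹) • z i‖ ^ 2 =
      (∑ l, ‖z l‖ ^ 2) - ((n : ℝ) + 1) / n * ‖z i‖ ^ 2 := by
  have hn' : (n : ℝ) ≠ 0 := Nat.cast_ne_zero.2 hn.ne'
  have h1 : ∀ j, ‖rest z i j - (-(n : ℝ)⁻¹) • z i‖ ^ 2 =
      ‖rest z i j‖ ^ 2 + 2 * (n : ℝ)⁻¹ * inner ℝ (rest z i j) (z i) +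
        ((n : ℝ)⁻¹) ^ 2 * ‖z i‖ ^ 2 := by
    intro j
    rw [norm_sub_sq_real, inner_smul_right, norm_smul, mul_pow, Real.norm_eq_abs, sq_abs]
    ring
  simp only [h1]
  rw [Finset.sum_add_distrib, Finset.sum_add_distrib, ← Finset.mul_sum, ← sum_inner,
    sum_rest z i hz, inner_neg_left, real_inner_self_eq_norm_sq, Finset.sum_const,
    Finset.card_univ, Fintype.card_fin, nsmul_eq_mul, Fin.sum_univ_succAbove _ i]
  unfold rest
  field_simp
  ring

end DeleteAux

open DeleteAux in
/-- the deletion inequality -/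
theorem deletion {n : ℕ} (hn : 2 ≤ n) (h1 : Bound n) {z : Fin (n + 1) → E n} (hz : Crit n z)
    (i : Fin (n + 1)) : ((n : ℝ) + 1) / n * ‖z i‖ ^ 2 < 2 * Del z i := by
  have hn0 : 0 < n := by omega
  have h2 := h1 n (fun j => rest z i j - (-(n : ℝ)⁻¹) • z i)
  rw [hmax_sub hn0, sum_norm_sub hn0 z i hz.sum_zero] at h2
  have hD := Del_eq hn0 z i
  rw [hmax_crit hz] at hD
  set F := ∑ l, ‖z l‖ ^ 2 with hF
  have hR : hmax (rest z i) = F - Del z i := by linarith
  rw [hR] at h2
  have hgt : C0 < F := hz.gt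
  have hC : 0 < C0 := by
    unfold C0
    have := Real.pi_pos
    positivity
  have hS : 0 ≤ F - ((n : ℝ) + 1) / n * ‖z i‖ ^ 2 := by
    rw [hF, ← sum_norm_sub hn0 z i hz.sum_zero]
    exact Finset.sum_nonneg fun j _ => sq_nonneg _
  set S := F - ((n : ℝ) + 1) / n * ‖z i‖ ^ 2 with hSdef
  by_contra hcon
  push Not at hcon
  have h3 : 2 * Del z i ≤ F - S := by
    rw [hSdef]
    linarith
  set D := Del z i with hDdef
  have h4 : F * (2 * D) ≤ F * (F - S) := mul_le_mul_of_nonneg_left h3 (by linarith)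
  have h5 : (F - C0) * S + D ^ 2 ≤ 0 := by nlinarith
  have h6 : 0 ≤ (F - C0) * S := mul_nonneg (by linarith) hS
  have h7 : D ^ 2 = 0 := le_antisymm (by linarith) (sq_nonneg _)
  have h8 : D = 0 := by simpa using h7
  have h9 : (F - C0) * S = 0 := le_antisymm (by nlinarith) h6
  rcases mul_eq_zero.1 h9 with h10 | h10
  · linarith
  · rw [h8, h10] at h2
    have : 0 < F := by linarith
    nlinarith

end Vale.Agent.Lib.P226
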