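import Vale.Agent.Lib.P226.Pair

/-!
# P226: modules HS and HSNUM (half-space bound and its numeric values)
-/

namespace Vale.Agent.Lib.P226

open MeasureTheory ProbabilityTheory Set
open scoped ENNReal

/-- the marginal along a unit vector is standard Gaussian -/
theorem G_map_unit {n : ℕ} (u : E n) (hu : ‖u‖ = 1) :
    (G n).map (fun x => inner ℝ u x) = gaussianReal 0 1 := by
  have hmeas : Measurable (fun x : E n => (inner ℝ u x : ℝ)) := by fun_prop
  have hfin : IsProbabilityMeasure ((G n).map (fun x => (inner ℝ u x : ℝ))) :=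
    Measure.isProbabilityMeasure_map hmeas.aemeasurable
  apply Measure.ext_of_charFun (E := ℝ)
  ext t
  rw [charFun_gaussianReal, charFun_apply, integral_map hmeas.aemeasurable
    (Measurable.aestronglyMeasurable (by fun_prop))]
  have h1 : ∀ x : E n, (inner ℝ (inner ℝ u x : ℝ) t : ℝ) = inner ℝ x (t • u) := by
    intro x
    rw [real_inner_smul_right, ← real_inner_comm x u]
    simp
  simp_rw [h1]
  rw [← charFun_apply, charFun_stdGaussian, norm_smul, hu, mul_one, Real.norm_eq_abs,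
    ← Complex.ofReal_pow, sq_abs]
  congr 1
  push_cast
  simp
  ring

/-- Module HS -/
theorem halfspace_bound {n : ℕ} (A : Set (E n)) (_hA : MeasurableSet A) (s : ℝ) (hs : 0 ≤ s) :
    ‖∫ x in A, x ∂(G n)‖ ≤ s * (G n).real A + ∫ t, max (t - s) 0 ∂(gaussianReal 0 1) := by
  obtain ⟨M, hM⟩ : ∃ M : E n, M = ∫ x in A, x ∂(G n) := ⟨_, rfl⟩
  rw [← hM]
  have hnn : 0 ≤ ∫ t, max (t - s) 0 ∂(gaussianReal 0 1) :=
    integral_nonneg fun t => le_max_right _ _
  by_cases h0 : M = 0
  · rw [h0, norm_zero]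
    exact add_nonneg (mul_nonneg hs measureReal_nonneg) hnn
  have hn0 : ‖M‖ ≠ 0 := norm_ne_zero_iff.2 h0
  obtain ⟨u, hu⟩ : ∃ u : E n, u = ‖M‖⁻¹ • M := ⟨_, rfl⟩
  have hu1 : ‖u‖ = 1 := by
    rw [hu, norm_smul, norm_inv, norm_norm, inv_mul_cancel₀ hn0]
  have e1 : ‖M‖ = ∫ x in A, inner ℝ u x ∂(G n) := by
    rw [integral_inner ((integrable_id_G n).integrableOn) u, ← hM, hu, real_inner_smul_left,
      real_inner_self_eq_norm_sq]
    field_simp
  have hint : Integrable (fun x : E n => max (inner ℝ u x - s) 0) (G n) :=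
    ((integrable_inner_G u).sub (integrable_const s)).pos_part
  have e2 : ∫ x, max (inner ℝ u x - s) 0 ∂(G n) = ∫ t, max (t - s) 0 ∂(gaussianReal 0 1) := by
    rw [← G_map_unit u hu1, integral_map (Measurable.aemeasurable (by fun_prop))
      (Measurable.aestronglyMeasurable (by fun_prop))]
  calc ‖M‖ = ∫ x in A, inner ℝ u x ∂(G n) := e1
    _ ≤ ∫ x in A, (s + max (inner ℝ u x - s) 0) ∂(G n) := by
        apply integral_mono (integrable_inner_G u).integrableOn
          ((integrable_const s).add hint).integrableOn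
        intro x
        show inner ℝ u x ≤ s + max (inner ℝ u x - s) 0
        have := le_max_left (inner ℝ u x - s) 0
        linarith
    _ = s * (G n).real A + ∫ x in A, max (inner ℝ u x - s) 0 ∂(G n) := by
        rw [integral_add (integrable_const s).integrableOn hint.integrableOn]
        simp [mul_comm]
    _ ≤ s * (G n).real A + ∫ x, max (inner ℝ u x - s) 0 ∂(G n) := by
        have := setIntegral_le_integral (s := A) hint
          (Filter.Eventually.of_forall fun x => le_max_right (inner ℝ u x - s) 0)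
        linarith
    _ = _ := by rw [e2]

/-- the exponential is below its fourth Taylor polynomial on the negative axis -/
theorem exp_neg_le_four {x : ℝ} (hx : 0 ≤ x) (hx1 : x ≤ 1) :
    Real.exp (-x) ≤ 1 - x + x ^ 2 / 2 - x ^ 3 / 6 + x ^ 4 / 24 := by
  have h := Real.exp_bound (x := -x) (by rw [abs_neg, abs_of_nonneg hx]; exact hx1)
    (n := 6) (by norm_num)
  rw [abs_neg, abs_of_nonneg hx] at h
  have h2 := (abs_le.1 h).2
  simp only [Finset.sum_range_succ, Finset.sum_range_zero] at h2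
  norm_num [Nat.factorial] at h2
  have h5 : 0 ≤ x ^ 5 := by positivity
  have h6 : x ^ 6 ≤ x ^ 5 := by
    calc x ^ 6 = x ^ 5 * x := by ring
      _ ≤ x ^ 5 * 1 := mul_le_mul_of_nonneg_left hx1 h5
      _ = x ^ 5 := mul_one _
  nlinarith

/-- truncated integral -/
theorem trunc_integral_le {s : ℝ} (hs : 0 ≤ s) (hs1 : s ≤ 1) :
    ∫ t in Ioi (0 : ℝ), max (s - t) 0 * Real.exp (-(1 / 2) * t ^ 2) ≤
      s ^ 2 / 2 - s ^ 4 / 24 + s ^ 6 / 240 - s ^ 8 / 2688 + s ^ 10 / 34560 := by
  have e1 : ∫ t in Ioi (0 : ℝ), max (s - t) 0 * Real.exp (-(1 / 2) * t ^ 2) =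
      ∫ t in Ioc (0 : ℝ) s, (s - t) * Real.exp (-(1 / 2) * t ^ 2) := by
    rw [← integral_indicator measurableSet_Ioi, ← integral_indicator measurableSet_Ioc]
    congr 1
    ext t
    simp only [indicator, mem_Ioi, mem_Ioc]
    by_cases h1 : 0 < t
    · by_cases h2 : t ≤ s
      · simp [h1, h2]
      · rw [if_pos h1, if_neg (fun h => h2 h.2), max_eq_right (by linarith), zero_mul]
    · simp [h1]
  rw [e1, ← intervalIntegral.integral_of_le hs]
  have e2 : ∫ t in (0 : ℝ)..s, (s - t) * (1 - t ^ 2 / 2 + t ^ 4 / 8 - t ^ 6 / 48 + t ^ 8 / 384) =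
      s ^ 2 / 2 - s ^ 4 / 24 + s ^ 6 / 240 - s ^ 8 / 2688 + s ^ 10 / 34560 := by
    have hF : ∀ t ∈ uIcc (0 : ℝ) s, HasDerivAt (fun t : ℝ =>
        s * (t - t ^ 3 / 6 + t ^ 5 / 40 - t ^ 7 / 336 + t ^ 9 / 3456)
          - (t ^ 2 / 2 - t ^ 4 / 8 + t ^ 6 / 48 - t ^ 8 / 384 + t ^ 10 / 3840))
        ((s - t) * (1 - t ^ 2 / 2 + t ^ 4 / 8 - t ^ 6 / 48 + t ^ 8 / 384)) t := by
      intro t _
      have k2 := hasDerivAt_pow 2 t
      have k3 := hasDerivAt_pow 3 t
      have k4 := hasDerivAt_pow 4 t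
      have k5 := hasDerivAt_pow 5 t
      have k6 := hasDerivAt_pow 6 t
      have k7 := hasDerivAt_pow 7 t
      have k8 := hasDerivAt_pow 8 t
      have k9 := hasDerivAt_pow 9 t
      have k10 := hasDerivAt_pow 10 t
      have := ((((((hasDerivAt_id t).sub (k3.div_const 6)).add (k5.div_const 40)).sub
        (k7.div_const 336)).add (k9.div_const 3456)).const_mul s).sub
        (((((k2.div_const 2).sub (k4.div_const 8)).add (k6.div_const 48)).sub
          (k8.div_const 384)).add (k10.div_const 3840))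
      refine HasDerivAt.congr_deriv this ?_
      push_cast
      ring
    rw [intervalIntegral.integral_eq_sub_of_hasDerivAt hF
      (Continuous.intervalIntegrable (by fun_prop) _ _)]
    ring
  rw [← e2]
  apply intervalIntegral.integral_mono_on hs
    (Continuous.intervalIntegrable (by fun_prop) _ _)
    (Continuous.intervalIntegrable (by fun_prop) _ _)
  intro t ht
  have ht0 : 0 ≤ t ^ 2 / 2 := by positivity
  have ht1 : t ^ 2 / 2 ≤ 1 := by nlinarith [ht.1, ht.2]
  have := exp_neg_le_four ht0 ht1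
  apply mul_le_mul_of_nonneg_left _ (by linarith [ht.2])
  calc Real.exp (-(1 / 2) * t ^ 2) = Real.exp (-(t ^ 2 / 2)) := by congr 1; ring
    _ ≤ _ := this
    _ = _ := by ring

/-- upper bound of the half-space profile -/
theorem psi_le {s : ℝ} (hs : 0 ≤ s) (hs1 : s ≤ 1) :
    ∫ t, max (t - s) 0 ∂(gaussianReal 0 1) ≤
      phi0 * (1 + s ^ 2 / 2 - s ^ 4 / 24 + s ^ 6 / 240 - s ^ 8 / 2688 + s ^ 10 / 34560)
        - s / 2 := by
  have h2pi : (0 : ℝ) < 2 * Real.pi := by positivity
  have i0 : IntegrableOn (fun t : ℝ => Real.exp (-(1 / 2) * t ^ 2)) (Ioi 0) := by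
    have := integrable_moment 0
    simpa using this
  have i1 : IntegrableOn (fun t : ℝ => t * Real.exp (-(1 / 2) * t ^ 2)) (Ioi 0) := by
    have := integrable_moment 1
    simpa using this
  have i2 : IntegrableOn (fun t : ℝ => max (s - t) 0 * Real.exp (-(1 / 2) * t ^ 2)) (Ioi 0) := by
    apply Integrable.mono' (i0.const_mul s) (Measurable.aestronglyMeasurable (by fun_prop))
    apply (ae_restrict_mem measurableSet_Ioi).mono
    intro t ht
    rw [Real.norm_eq_abs, abs_mul, abs_of_nonneg (Real.exp_pos _).le,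
      abs_of_nonneg (le_max_right _ _)]
    apply mul_le_mul_of_nonneg_right _ (Real.exp_pos _).le
    exact max_le (by have := mem_Ioi.1 ht; linarith) hs
  rw [integral_gaussianReal_eq_integral_smul (by norm_num)]
  have e1 : ∀ t : ℝ, gaussianPDFReal 0 1 t • max (t - s) 0 =
      phi0 * (max (t - s) 0 * Real.exp (-(1 / 2) * t ^ 2)) := by
    intro t
    simp only [gaussianPDFReal, phi0, smul_eq_mul, NNReal.coe_one, mul_one, sub_zero]
    rw [show (-t ^ 2 / 2 : ℝ) = -(1 / 2) * t ^ 2 by ring]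
    ring
  simp_rw [e1]
  rw [integral_const_mul]
  have e2 : ∫ t : ℝ, max (t - s) 0 * Real.exp (-(1 / 2) * t ^ 2) =
      ∫ t in Ioi (0 : ℝ), max (t - s) 0 * Real.exp (-(1 / 2) * t ^ 2) := by
    rw [← integral_indicator measurableSet_Ioi]
    congr 1
    ext t
    simp only [indicator, mem_Ioi]
    by_cases h1 : 0 < t
    · simp [h1]
    · rw [if_neg h1, max_eq_right (by linarith), zero_mul]
  have e3 : ∀ t : ℝ, max (t - s) 0 * Real.exp (-(1 / 2) * t ^ 2) =
      (t * Real.exp (-(1 / 2) * t ^ 2) - s * Real.exp (-(1 / 2) * t ^ 2)) +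
        max (s - t) 0 * Real.exp (-(1 / 2) * t ^ 2) := by
    intro t
    have : max (t - s) 0 = t - s + max (s - t) 0 := by
      rcases le_total t s with h | h
      · rw [max_eq_right (by linarith), max_eq_left (by linarith)]; ring
      · rw [max_eq_left (by linarith), max_eq_right (by linarith)]; ring
    rw [this]
    ring
  rw [e2]
  simp_rw [e3]
  have i3 : IntegrableOn (fun t : ℝ => t * Real.exp (-(1 / 2) * t ^ 2)
      - s * Real.exp (-(1 / 2) * t ^ 2)) (Ioi 0) := i1.sub (i0.const_mul s)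
  rw [integral_add i3 i2, integral_sub i1 (i0.const_mul s),
    integral_const_mul, moment_one, moment_zero]
  have h3 := mul_le_mul_of_nonneg_left (trunc_integral_le hs hs1) phi0_pos.le
  have h4 : phi0 * √(2 * Real.pi) = 1 := by
    unfold phi0
    rw [inv_mul_cancel₀ (Real.sqrt_pos.2 h2pi).ne']
  have h5 : phi0 * (1 - s * (√(2 * Real.pi) / 2)) = phi0 - s / 2 := by
    rw [mul_sub, mul_one, show phi0 * (s * (√(2 * Real.pi) / 2)) =
      (phi0 * √(2 * Real.pi)) * s / 2 by ring, h4]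
    ring
  rw [mul_add, h5]
  linarith

theorem phi0_le_sharp : phi0 ≤ 0.398943 := by
  have h := phi0_pos
  have h1 : phi0 ^ 2 ≤ 0.398943 ^ 2 := by
    unfold phi0
    rw [inv_pow, Real.sq_sqrt (by positivity)]
    have := Real.pi_gt_d6
    rw [inv_le_comm₀ (by positivity) (by norm_num)]
    norm_num at this ⊢
    linarith
  nlinarith

/-- Module HSNUM -/
theorem hs_lines {n : ℕ} (A : Set (E n)) (hA : MeasurableSet A) :
    ‖∫ x in A, x ∂(G n)‖ ≤ 39895 / 100000 ∧
    ‖∫ x in A, x ∂(G n)‖ ≤ (3 / 10) * (G n).real A + 26678 / 100000 ∧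
    ‖∫ x in A, x ∂(G n)‖ ≤ (55 / 100) * (G n).real A + 18282 / 100000 ∧
    ‖∫ x in A, x ∂(G n)‖ ≤ (7 / 10) * (G n).real A + 14289 / 100000 ∧
    ‖∫ x in A, x ∂(G n)‖ ≤ (85 / 100) * (G n).real A + 10999 / 100000 := by
  have hp := phi0_le_sharp
  have key : ∀ s : ℝ, 0 ≤ s → s ≤ 1 → ‖∫ x in A, x ∂(G n)‖ ≤ s * (G n).real A + (phi0 *
      (1 + s ^ 2 / 2 - s ^ 4 / 24 + s ^ 6 / 240 - s ^ 8 / 2688 + s ^ 10 / 34560) - s / 2) :=
    fun s h0 h1 => (halfspace_bound A hA s h0).trans (add_le_add_right (psi_le h0 h1) _)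
  have k0 := key 0 (by norm_num) (by norm_num)
  have k1 := key (3 / 10) (by norm_num) (by norm_num)
  have k2 := key (55 / 100) (by norm_num) (by norm_num)
  have k3 := key (7 / 10) (by norm_num) (by norm_num)
  have k4 := key (85 / 100) (by norm_num) (by norm_num)
  norm_num at k0 k1 k2 k3 k4 hp ⊢
  refine ⟨?_, ?_, ?_, ?_, ?_⟩ <;> linarith

end Vale.Agent.Lib.P226
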