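import Vale.Agent.Lib.P226.Defs
import Vale.Agent.Lib.P226.Basic1
import Vale.Agent.Lib.P074.PrekopaLeindler

/-!
# P226, module LC: the log-concavity bound `Del ≤ (k/n) mass^2`
-/

namespace Vale.Agent.Lib.P226

open MeasureTheory ProbabilityTheory Filter Topology
open scoped ENNReal

namespace LC

variable {n : ℕ}

/-- the shrinking cone -/
def S (w : Fin n → E n) (s : ℝ) : Set (E n) := {x | ∀ j, s < inner ℝ (w j) x}

theorem measurableSet_S (w : Fin n → E n) (s : ℝ) : MeasurableSet (S w s) := by
  have : S w s = ⋂ j, {x | s < inner ℝ (w j) x} := by ext x; simp [S]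
  rw [this]
  exact MeasurableSet.iInter fun j => measurableSet_lt measurable_const (by fun_prop)

/-- the Gaussian density -/
noncomputable def dens (n : ℕ) (x : E n) : ℝ≥0∞ :=
  ENNReal.ofReal ((2 * Real.pi) ^ (-(n : ℝ) / 2) * Real.exp (-‖x‖ ^ 2 / 2))

theorem measurable_dens (n : ℕ) : Measurable (dens n) := by
  unfold dens; fun_prop

theorem G_apply (A : Set (E n)) (hA : MeasurableSet A) :
    G n A = ∫⁻ x, A.indicator (dens n) x := by
  rw [G_eq_withDensity, withDensity_apply _ hA, lintegral_indicator hA]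
  rfl

theorem dens_mul_le (x y : E n) :
    dens n x * dens n y ≤ dens n ((1 / 2 : ℝ) • (x + y)) ^ 2 := by
  unfold dens
  have hpi : 0 < 2 * Real.pi := by positivity
  rw [← ENNReal.ofReal_mul (by positivity), ← ENNReal.ofReal_pow (by positivity)]
  apply ENNReal.ofReal_le_ofReal
  rw [mul_pow, ← Real.exp_nat_mul]
  have e1 : (2 * Real.pi) ^ (-(n : ℝ) / 2) * Real.exp (-‖x‖ ^ 2 / 2)
      * ((2 * Real.pi) ^ (-(n : ℝ) / 2) * Real.exp (-‖y‖ ^ 2 / 2))
      = ((2 * Real.pi) ^ (-(n : ℝ) / 2)) ^ 2 * Real.exp (-‖x‖ ^ 2 / 2 + -‖y‖ ^ 2 / 2) := by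
    rw [Real.exp_add]; ring
  rw [e1]
  apply mul_le_mul_of_nonneg_left _ (by positivity)
  apply Real.exp_le_exp.mpr
  have h2 : ‖(1 / 2 : ℝ) • (x + y)‖ ^ 2 = (1 / 4) * ‖x + y‖ ^ 2 := by
    rw [norm_smul, mul_pow]; norm_num
  have h3 : ‖x + y‖ ^ 2 + ‖x - y‖ ^ 2 = 2 * (‖x‖ ^ 2 + ‖y‖ ^ 2) := by
    have := parallelogram_law_with_norm ℝ x y
    nlinarith [this]
  rw [h2]
  push_cast
  nlinarith [sq_nonneg ‖x - y‖, h3]

theorem PL_S (w : Fin n → E n) (a b : ℝ) :
    G n (S w a) * G n (S w b) ≤ G n (S w ((a + b) / 2)) ^ 2 := by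
  rw [G_apply _ (measurableSet_S w a), G_apply _ (measurableSet_S w b),
    G_apply _ (measurableSet_S w _)]
  apply Vale.Agent.P074.prekopa_leindler_half_aux
  · exact (measurable_dens n).indicator (measurableSet_S w a)
  · exact (measurable_dens n).indicator (measurableSet_S w b)
  · exact (measurable_dens n).indicator (measurableSet_S w _)
  · intro x y
    by_cases hx : x ∈ S w a
    · by_cases hy : y ∈ S w b
      · have hz : (1 / 2 : ℝ) • (x + y) ∈ S w ((a + b) / 2) := by
          intro j
          rw [inner_smul_right, inner_add_right]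
          have h1 : a < inner ℝ (w j) x := hx j
          have h2 : b < inner ℝ (w j) y := hy j
          linarith
        rw [Set.indicator_of_mem hx, Set.indicator_of_mem hy, Set.indicator_of_mem hz]
        exact dens_mul_le x y
      · rw [Set.indicator_of_notMem hy]; simp
    · rw [Set.indicator_of_notMem hx]; simp

theorem integrable_exp_inner (y : E n) (t : ℝ) :
    Integrable (fun x => Real.exp (t * -inner ℝ y x)) (G n) := by
  have hm : (G n).map (innerSL ℝ y) = gaussianReal ((G n)[innerSL ℝ y])
      (Var[innerSL ℝ y; G n]).toNNReal := IsGaussian.map_eq_gaussianReal _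
  have h := integrable_exp_mul_gaussianReal (μ := (G n)[innerSL ℝ y])
    (v := (Var[innerSL ℝ y; G n]).toNNReal) (-t)
  rw [← hm] at h
  have h2 := h.comp_measurable (by fun_prop : Measurable (innerSL ℝ y))
  refine h2.congr (Filter.Eventually.of_forall fun x => ?_)
  simp

/-- the exponential moment on the cone -/
noncomputable def M (w : Fin n → E n) (y : E n) (s : ℝ) : ℝ :=
  mgf (fun x => -inner ℝ y x) ((G n).restrict (S w 0)) s

theorem real_S_le (w : Fin n → E n) (y : E n) (hy : ∀ j, inner ℝ (w j) y = 1) (s : ℝ) :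
    (G n).real (S w s) ≤ M w y s := by
  have hint : Integrable (fun x => Real.exp (s * -inner ℝ y x)) ((G n).restrict (S w 0)) :=
    (integrable_exp_inner y s).restrict
  have h1 : G n (S w s) ≤ ENNReal.ofReal (M w y s) := by
    unfold M mgf
    rw [ofReal_integral_eq_lintegral_ofReal hint
      (Filter.Eventually.of_forall fun x => (Real.exp_pos _).le)]
    rw [G_apply _ (measurableSet_S w s)]
    rw [← lintegral_add_right_eq_self (fun x => (S w s).indicator (dens n) x) (s • y)]
    rw [← lintegral_indicator (measurableSet_S w 0), G_eq_withDensity,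
      lintegral_withDensity_eq_lintegral_mul _ (by fun_prop)
        (Measurable.indicator (by fun_prop) (measurableSet_S w 0))]
    apply lintegral_mono
    intro x
    simp only [Pi.mul_apply]
    by_cases hx : x ∈ S w 0
    · have hx' : x + s • y ∈ S w s := by
        intro j
        rw [inner_add_right, inner_smul_right, hy j]
        have := hx j
        linarith
      rw [Set.indicator_of_mem hx', Set.indicator_of_mem hx]
      unfold dens
      rw [← ENNReal.ofReal_mul (by positivity)]
      apply ENNReal.ofReal_le_ofReal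
      rw [mul_assoc, ← Real.exp_add]
      apply mul_le_mul_of_nonneg_left _ (by positivity)
      apply Real.exp_le_exp.mpr
      have h2 : ‖x + s • y‖ ^ 2 = ‖x‖ ^ 2 + 2 * (s * inner ℝ y x) + s ^ 2 * ‖y‖ ^ 2 := by
        rw [norm_add_sq_real, inner_smul_right, norm_smul, mul_pow, real_inner_comm]
        simp
      rw [h2]
      nlinarith [sq_nonneg (s * ‖y‖)]
    · have hx' : x + s • y ∉ S w s := by
        intro h
        apply hx
        intro j
        have := h j
        rw [inner_add_right, inner_smul_right, hy j] at this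
        linarith
      rw [Set.indicator_of_notMem hx']
      exact zero_le
  have h0 : 0 ≤ M w y s := integral_nonneg fun x => (Real.exp_pos _).le
  unfold Measure.real
  exact ENNReal.toReal_le_of_le_ofReal h0 h1

theorem M_zero (w : Fin n → E n) (y : E n) : M w y 0 = (G n).real (S w 0) := by
  unfold M
  rw [mgf_zero']
  simp [Measure.real]

theorem hasDerivAt_M (w : Fin n → E n) (y : E n) :
    HasDerivAt (M w y) (-∫ x in S w 0, inner ℝ y x ∂(G n)) 0 := by
  have huniv : integrableExpSet (fun x => -inner ℝ y x) ((G n).restrict (S w 0)) = Set.univ := by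
    rw [Set.eq_univ_iff_forall]
    intro t
    exact (integrable_exp_inner y t).restrict
  have h := hasDerivAt_mgf (X := fun x => -inner ℝ y x) (μ := (G n).restrict (S w 0)) (t := 0)
    (by rw [huniv]; simp)
  have e : ((G n).restrict (S w 0))[fun ω => -inner ℝ y ω * Real.exp (0 * -inner ℝ y ω)]
      = -∫ x in S w 0, inner ℝ y x ∂(G n) := by
    simp only [zero_mul, Real.exp_zero, mul_one]
    rw [integral_neg]
  rw [e] at h
  exact h

/-- the exponential decay -/
theorem real_S_exp (w : Fin n → E n) (y : E n) (hy : ∀ j, inner ℝ (w j) y = 1)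
    (h0 : 0 < (G n).real (S w 0)) (s : ℝ) :
    (G n).real (S w s) ≤ (G n).real (S w 0)
      * Real.exp (-(∫ x in S w 0, inner ℝ y x ∂(G n)) / (G n).real (S w 0) * s) := by
  set κ : ℝ := ∫ x in S w 0, inner ℝ y x ∂(G n) with hκ
  set p : ℝ → ℝ := fun s => (G n).real (S w s) with hp
  have hmid : ∀ s, p 0 * p s ≤ p (s / 2) ^ 2 := by
    intro s
    have h := PL_S w 0 s
    rw [zero_add] at h
    have h2 := ENNReal.toReal_mono (by finiteness) h
    rw [ENNReal.toReal_mul, ENNReal.toReal_pow] at h2
    exact h2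
  have hp0 : ∀ s, 0 ≤ p s := fun s => measureReal_nonneg
  have hiter : ∀ (m : ℕ), p s / p 0 ≤ (p (s / 2 ^ m) / p 0) ^ (2 ^ m) := by
    intro m
    induction m with
    | zero => simp
    | succ m ih =>
      refine ih.trans ?_
      have e2 : (p (s / 2 ^ (m + 1)) / p 0) ^ 2 ^ (m + 1)
          = ((p (s / (2 ^ m * 2)) / p 0) ^ 2) ^ 2 ^ m := by
        rw [← pow_mul, pow_succ (2:ℝ) m, pow_succ 2 m]
        congr 1
        exact Nat.mul_comm _ _
      rw [e2]
      apply pow_le_pow_left₀ (div_nonneg (hp0 _) h0.le)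
      rw [div_pow, div_le_div_iff₀ h0 (by positivity)]
      have := hmid (s / 2 ^ m)
      rw [div_div] at this
      have h3 : p (s / 2 ^ m) * p 0 ^ 2 = (p 0 * p (s / 2 ^ m)) * p 0 := by ring
      rw [h3]
      exact mul_le_mul_of_nonneg_right this h0.le
  have hexp : ∀ m : ℕ, p s / p 0 ≤ Real.exp (2 ^ m * (M w y (s / 2 ^ m) - M w y 0) / p 0) := by
    intro m
    refine (hiter m).trans ?_
    have h1 : p (s / 2 ^ m) / p 0 ≤ Real.exp ((M w y (s / 2 ^ m) - M w y 0) / p 0) := by
      have h2 := Real.add_one_le_exp ((M w y (s / 2 ^ m) - M w y 0) / p 0)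
      refine le_trans ?_ h2
      rw [M_zero, div_add_one h0.ne', div_le_div_iff_of_pos_right h0]
      have := real_S_le w y hy (s / 2 ^ m)
      simp only [hp]
      linarith
    refine (pow_le_pow_left₀ (div_nonneg (hp0 _) h0.le) h1 _).trans (le_of_eq ?_)
    rw [← Real.exp_nat_mul]
    congr 1
    push_cast
    ring
  have hlim : Tendsto (fun m : ℕ => Real.exp (2 ^ m * (M w y (s / 2 ^ m) - M w y 0) / p 0)) atTop
      (𝓝 (Real.exp (-κ / p 0 * s))) := by
    apply (Real.continuous_exp.tendsto _).comp
    have hd := hasDerivAt_M w y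
    rw [← hκ] at hd
    have hc : HasDerivAt (fun t : ℝ => M w y (s * t)) (-κ * s) 0 := by
      have h1 : HasDerivAt (fun t : ℝ => s * t) s 0 := by
        simpa using (hasDerivAt_id (0:ℝ)).const_mul s
      have h2 : HasDerivAt (M w y) (-κ) (s * 0) := by simpa using hd
      exact h2.comp 0 h1
    have hs := hc.tendsto_slope_zero_right
    have hseq : Tendsto (fun m : ℕ => ((2:ℝ) ^ m)⁻¹) atTop (𝓝[>] 0) := by
      rw [tendsto_nhdsWithin_iff]
      refine ⟨?_, Filter.Eventually.of_forall fun m => by simp⟩
      have := tendsto_pow_atTop_nhds_zero_of_lt_one (r := (1/2:ℝ)) (by norm_num) (by norm_num)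
      refine this.congr fun m => ?_
      rw [one_div, inv_pow]
    have h3 := hs.comp hseq
    have h4 := h3.div_const (p 0)
    have e1 : -κ * s / p 0 = -κ / p 0 * s := by ring
    rw [← e1]
    refine h4.congr fun m => ?_
    simp only [Function.comp_apply, smul_eq_mul, inv_inv, zero_add, mul_zero]
    rw [← div_eq_mul_inv]
  have hfin : p s / p 0 ≤ Real.exp (-κ / p 0 * s) :=
    ge_of_tendsto' hlim hexp
  rw [div_le_iff₀ h0] at hfin
  linarith

theorem lt_iInf_iff (hn : 1 ≤ n) (w : Fin n → E n) (x : E n) (t : ℝ) :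
    (t < ⨅ j, inner ℝ (w j) x) ↔ x ∈ S w t := by
  have : Nonempty (Fin n) := ⟨⟨0, hn⟩⟩
  constructor
  · intro h j
    exact h.trans_le (ciInf_le (Set.finite_range _).bddBelow j)
  · intro h
    obtain ⟨j, hj⟩ := exists_eq_ciInf_of_finite (f := fun j => (inner ℝ (w j) x : ℝ))
    rw [← hj]
    exact h j

theorem integrable_max_iInf (w : Fin n → E n) :
    Integrable (fun x => max 0 (⨅ j, inner ℝ (w j) x)) (G n) := by
  have hid : Integrable (fun x : E n => x) (G n) := IsGaussian.integrable_id
  refine Integrable.mono' (hid.norm.const_mul (∑ j, ‖w j‖))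
    (Measurable.aestronglyMeasurable ?_) (Filter.Eventually.of_forall fun x => ?_)
  · exact measurable_const.max (Measurable.iInf fun j => by fun_prop)
  · rw [Real.norm_eq_abs, abs_of_nonneg (le_max_left _ _)]
    apply max_le (by positivity)
    rcases Nat.eq_zero_or_pos n with h | h
    · subst h
      simp [Real.iInf_of_isEmpty]
    · have : Nonempty (Fin n) := ⟨⟨0, h⟩⟩
      refine (ciInf_le (Set.finite_range _).bddBelow (⟨0, h⟩ : Fin n)).trans ?_
      refine (real_inner_le_norm _ _).trans ?_
      apply mul_le_mul_of_nonneg_right _ (norm_nonneg _)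
      exact Finset.single_le_sum (f := fun i => ‖w i‖) (fun _ _ => norm_nonneg _)
        (Finset.mem_univ _)

/-- general form of the log-concavity bound -/
theorem main (hn : 1 ≤ n) (w : Fin n → E n) (y : E n) (hy : ∀ j, inner ℝ (w j) y = 1) :
    (∫ x, max 0 (⨅ j, inner ℝ (w j) x) ∂(G n)) * (∫ x in S w 0, inner ℝ y x ∂(G n))
      ≤ (G n).real (S w 0) ^ 2 := by
  set κ : ℝ := ∫ x in S w 0, inner ℝ y x ∂(G n) with hκ
  have hD : 0 ≤ ∫ x, max 0 (⨅ j, inner ℝ (w j) x) ∂(G n) :=
    integral_nonneg fun x => le_max_left _ _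
  rcases le_or_gt κ 0 with hk | hk
  · exact (mul_nonpos_of_nonneg_of_nonpos hD hk).trans (sq_nonneg _)
  have h0 : 0 < (G n).real (S w 0) := by
    rcases (measureReal_nonneg (μ := G n) (s := S w 0)).eq_or_lt with h | h
    · exfalso
      have hz : G n (S w 0) = 0 := by
        have := h.symm
        rwa [measureReal_eq_zero_iff] at this
      have : κ = 0 := by
        rw [hκ, Measure.restrict_eq_zero.mpr hz]; simp
      linarith
    · exact h
  set p0 : ℝ := (G n).real (S w 0) with hp0
  have hlayer := (integrable_max_iInf w).integral_eq_integral_meas_lt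
    (Filter.Eventually.of_forall fun x => le_max_left _ _)
  rw [hlayer]
  have hle : ∫ t in Set.Ioi (0:ℝ), (G n).real {a | t < max 0 (⨅ j, inner ℝ (w j) a)}
      ≤ ∫ t in Set.Ioi (0:ℝ), p0 * Real.exp (-κ / p0 * t) := by
    apply integral_mono_of_nonneg
    · exact Filter.Eventually.of_forall fun t => measureReal_nonneg
    · exact (integrableOn_exp_mul_Ioi (a := -κ / p0)
        (by rw [neg_div]; exact neg_neg_of_pos (by positivity)) 0).const_mul p0
    · filter_upwards [ae_restrict_mem measurableSet_Ioi] with t ht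
      have hset : {a : E n | t < max 0 (⨅ j, inner ℝ (w j) a)} = S w t := by
        ext x
        rw [Set.mem_ofPred_eq, lt_max_iff, lt_iInf_iff hn]
        constructor
        · rintro (h | h)
          · exact absurd ht (by simpa using h.le)
          · exact h
        · exact fun h => Or.inr h
      rw [hset]
      exact real_S_exp w y hy h0 t
  have hval : ∫ t in Set.Ioi (0:ℝ), p0 * Real.exp (-κ / p0 * t) = p0 ^ 2 / κ := by
    rw [integral_const_mul, integral_exp_mul_Ioi
      (by rw [neg_div]; exact neg_neg_of_pos (by positivity))]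
    simp only [mul_zero, Real.exp_zero]
    field_simp
  rw [hval] at hle
  refine (mul_le_mul_of_nonneg_right hle hk.le).trans (le_of_eq ?_)
  field_simp

/-- the differences `z i - z j` (`j ≠ i`) of a critical configuration are linearly independent -/
theorem linearIndependent_diff {z : Fin (n + 1) → E n} (hz : Crit n z) (i : Fin (n + 1)) :
    LinearIndependent ℝ (fun j : Fin n => z i - z (i.succAbove j)) := by
  rw [Fintype.linearIndependent_iff]
  intro μ hμ
  -- coefficients on all `z l`
  obtain ⟨c, hc⟩ : ∃ c : Fin (n + 1) → ℝ,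
      c = Fin.insertNth i (∑ j, μ j) (fun j => -μ j) := ⟨_, rfl⟩
  have hci : c i = ∑ j, μ j := by rw [hc]; simp
  have hcj : ∀ j : Fin n, c (i.succAbove j) = -μ j := by intro j; rw [hc]; simp
  have hsum0 : ∑ l, c l • z l = 0 := by
    rw [Fin.sum_univ_succAbove _ i, hci, ← hμ]
    simp only [hcj, neg_smul, smul_sub, Finset.sum_sub_distrib, Finset.sum_smul,
      Finset.sum_neg_distrib]
    abel
  have hcsum : ∑ l, c l = 0 := by
    rw [Fin.sum_univ_succAbove _ i, hci]
    simp [hcj]
  obtain ⟨l0, _, hl0⟩ := Finset.exists_min_image (Finset.univ : Finset (Fin (n + 1))) c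
    ⟨0, Finset.mem_univ _⟩
  have hge : ∀ l, 0 ≤ c l - c l0 := fun l => by
    have := hl0 l (Finset.mem_univ _); linarith
  have hsum1 : ∑ l, (c l - c l0) • z l = 0 := by
    simp only [sub_smul, Finset.sum_sub_distrib, hsum0, ← Finset.smul_sum, hz.sum_zero]
    simp
  have hin : ∑ l, (c l - c l0) * inner ℝ (z l) (z l0) = 0 := by
    have := congrArg (fun v => inner ℝ v (z l0)) hsum1
    simpa [sum_inner, inner_smul_left] using this
  have hterm : ∀ l, (c l - c l0) * inner ℝ (z l) (z l0) ≤ 0 := by
    intro l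
    by_cases h : l = l0
    · subst h; simp
    · exact mul_nonpos_of_nonneg_of_nonpos (hge l) (hz.neg l l0 h).le
  have hzero : ∀ l, c l = c l0 := by
    intro l
    by_cases h : l = l0
    · rw [h]
    · have h1 := (Finset.sum_eq_zero_iff_of_nonpos (fun l _ => hterm l)).mp hin l
        (Finset.mem_univ _)
      rcases mul_eq_zero.mp h1 with h2 | h2
      · linarith
      · exact absurd h2 (hz.neg l l0 h).ne
  have hc0 : c l0 = 0 := by
    have : ∑ l : Fin (n + 1), c l0 = 0 := by
      rw [← hcsum]; exact Finset.sum_congr rfl fun l _ => (hzero l).symm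
    rw [Finset.sum_const, Finset.card_univ, Fintype.card_fin, nsmul_eq_mul] at this
    rcases mul_eq_zero.mp this with h | h
    · exfalso
      have : ((n + 1 : ℕ) : ℝ) ≠ 0 := by positivity
      exact this h
    · exact h
  intro j
  have := hzero (i.succAbove j)
  rw [hcj, hc0] at this
  linarith

/-- the dual vector -/
theorem exists_dual {w : Fin n → E n} (hw : LinearIndependent ℝ w) :
    ∃ y : E n, ∀ j, inner ℝ (w j) y = 1 := by
  have hcard : Fintype.card (Fin n) = Module.finrank ℝ (E n) := by simp
  let b : Module.Basis (Fin n) ℝ (E n) := basisOfLinearIndependentOfCardEqFinrank' w hw hcard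
  have hb : ∀ j, b j = w j := fun j => by
    simp [b]
  let L : E n →ₗ[ℝ] ℝ := b.constr ℝ (fun _ => (1:ℝ))
  let L' : StrongDual ℝ (E n) := LinearMap.toContinuousLinearMap L
  refine ⟨(InnerProductSpace.toDual ℝ (E n)).symm L', fun j => ?_⟩
  rw [real_inner_comm, InnerProductSpace.toDual_symm_apply]
  show L (w j) = 1
  rw [← hb j]
  simp [L]

end LC

/-- **Module LC**: log-concavity bound. -/
theorem del_le_mass_sq {n : ℕ} (hn : 1 ≤ n) {z : Fin (n + 1) → E n} (hz : Crit n z)
    (i : Fin (n + 1)) : Del z i ≤ ((n : ℝ) + 1) / n * mass z i ^ 2 := by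
  obtain ⟨y, hy⟩ := LC.exists_dual (LC.linearIndependent_diff hz i)
  have hmain := LC.main hn (fun j : Fin n => z i - z (i.succAbove j)) y hy
  have hcell : LC.S (fun j : Fin n => z i - z (i.succAbove j)) 0 = cell z i := by
    ext x
    constructor
    · intro h j hj
      obtain ⟨k, hk⟩ := Fin.exists_succAbove_eq hj
      have h1 : 0 < inner ℝ (z i - z (i.succAbove k)) x := h k
      rw [hk, inner_sub_left] at h1
      linarith
    · intro h k
      have h1 := h (i.succAbove k) (Fin.succAbove_ne i k)
      show 0 < inner ℝ (z i - z (i.succAbove k)) x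
      rw [inner_sub_left]
      linarith
  rw [hcell] at hmain
  have hid : Integrable (fun x : E n => x) (G n) := IsGaussian.integrable_id
  have hmom : ∫ x in cell z i, inner ℝ y x ∂(G n) = inner ℝ y (z i) := by
    rw [integral_inner hid.integrableOn y, hz.moment i]
  have hnpos : (0:ℝ) < n := by exact_mod_cast hn
  have hyz : inner ℝ y (z i) = (n:ℝ) / (n + 1) := by
    have h1 : ∑ j : Fin n, inner ℝ (z i - z (i.succAbove j)) y = (n:ℝ) := by
      simp [hy]
    have h2 : ∑ l, inner ℝ (z l) y = 0 := by
      rw [← sum_inner, hz.sum_zero, inner_zero_left]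
    rw [Fin.sum_univ_succAbove _ i] at h2
    simp only [inner_sub_left, Finset.sum_sub_distrib, Finset.sum_const, Finset.card_univ,
      Fintype.card_fin, nsmul_eq_mul] at h1
    rw [real_inner_comm, eq_div_iff (by positivity)]
    linarith
  rw [hmom, hyz] at hmain
  unfold Del mass
  rw [div_mul_eq_mul_div, le_div_iff₀ hnpos]
  rw [mul_div_assoc', div_le_iff₀ (by positivity)] at hmain
  linarith

end Vale.Agent.Lib.P226
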