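import Vale.Agent.Lib.P226.Defs

/-!
# P226: numerical data of a configuration (interface for the numerical part)
-/

namespace Vale.Agent.Lib.P226

/-- The numerical constraints on the masses `a i`, the squared norms `v i` and the norms `s i`
of a critical configuration. -/
structure NumData (n : ℕ) (a v s : Fin (n + 1) → ℝ) : Prop where
  sum_one : ∑ i, a i = 1
  a_nonneg : ∀ i, 0 ≤ a i
  s_nonneg : ∀ i, 0 ≤ s i
  v_eq : ∀ i, v i = s i ^ 2
  big : C0 < ∑ i, v i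
  lt : ∀ i, v i < 2 * a i ^ 2
  hs : ∀ i, s i ≤ 39895 / 100000 ∧
    s i ≤ (3 / 10) * a i + 26678 / 100000 ∧
    s i ≤ (55 / 100) * a i + 18282 / 100000 ∧
    s i ≤ (7 / 10) * a i + 14289 / 100000 ∧
    s i ≤ (85 / 100) * a i + 10999 / 100000
  select : ∀ i j1 j2 j3 : Fin (n + 1), j1 ≠ i → j2 ≠ i → j3 ≠ i → j1 ≠ j2 → j1 ≠ j3 → j2 ≠ j3 →
    ∀ τ : ℝ, 0 ≤ τ → τ ≤ v j1 → τ ≤ v j2 → τ ≤ v j3 → τ * (τ - v i) < (29 / 20) * v i

/-- Selection of the smallest cell and of the two largest squared norms among the others. -/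
theorem top_two {n : ℕ} (hn : 2 ≤ n) (a v : Fin (n + 1) → ℝ) :
    ∃ i j1 j2 : Fin (n + 1), j1 ≠ i ∧ j2 ≠ i ∧ j1 ≠ j2 ∧ (∀ l, a i ≤ a l) ∧
      (∀ l, l ≠ i → v l ≤ v j1) ∧ (∀ l, l ≠ i → l ≠ j1 → v l ≤ v j2) := by
  obtain ⟨i, hi⟩ := Finite.exists_min a
  have hc : 3 ≤ (Finset.univ : Finset (Fin (n + 1))).card := by
    rw [Finset.card_univ, Fintype.card_fin]
    omega
  have h1 : (Finset.univ.erase i).Nonempty := by
    rw [← Finset.card_pos, Finset.card_erase_of_mem (Finset.mem_univ i)]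
    omega
  obtain ⟨j1, hj1, hm1⟩ := Finset.exists_max_image (Finset.univ.erase i) v h1
  have h2 : ((Finset.univ.erase i).erase j1).Nonempty := by
    rw [← Finset.card_pos, Finset.card_erase_of_mem hj1,
      Finset.card_erase_of_mem (Finset.mem_univ i)]
    omega
  obtain ⟨j2, hj2, hm2⟩ := Finset.exists_max_image ((Finset.univ.erase i).erase j1) v h2
  rw [Finset.mem_erase] at hj1 hj2
  refine ⟨i, j1, j2, hj1.1, (Finset.mem_erase.1 hj2.2).1, fun h => hj2.1 h.symm, hi, ?_, ?_⟩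
  · intro l hl
    exact hm1 l (Finset.mem_erase.2 ⟨hl, Finset.mem_univ l⟩)
  · intro l hl hl1
    exact hm2 l (Finset.mem_erase.2 ⟨hl1, Finset.mem_erase.2 ⟨hl, Finset.mem_univ l⟩⟩)

end Vale.Agent.Lib.P226
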