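import Vale.Agent.Lib.P226.Select
import Vale.Agent.Lib.P226.Delete
import Vale.Agent.Lib.P226.CapNum
import Vale.Agent.Lib.P226.HS
import Vale.Agent.Lib.P226.NumData
import Vale.Agent.Lib.P226.LC

/-!
# P226: numerical data of a critical configuration
-/

namespace Vale.Agent.Lib.P226

open MeasureTheory ProbabilityTheory

theorem measurableSet_cell_std {k n : ℕ} (z : Fin k → E n) (i : Fin k) : MeasurableSet (cell z i) := by
  have e : cell z i = ⋂ j, ⋂ (_ : j ≠ i), {x | inner ℝ (z j) x < inner ℝ (z i) x} := by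
    ext x
    simp [cell]
  rw [e]
  refine MeasurableSet.iInter fun j => MeasurableSet.iInter fun _ => ?_
  exact measurableSet_lt (by fun_prop) (by fun_prop)

theorem cell_cone {k n : ℕ} (z : Fin k → E n) (i : Fin k) :
    ∀ x ∈ cell z i, ∀ t : ℝ, 0 < t → t • x ∈ cell z i := by
  intro x hx t ht j hj
  rw [inner_smul_right, inner_smul_right]
  exact mul_lt_mul_of_pos_left (hx j hj) ht

theorem norm_sq_lt {n : ℕ} (hn : 2 ≤ n) (h1 : Bound n) {z : Fin (n + 1) → E n} (hz : Crit n z)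
    (i : Fin (n + 1)) : ‖z i‖ ^ 2 < 2 * mass z i ^ 2 := by
  have h2 := deletion hn h1 hz i
  have h3 := del_le_mass_sq (by omega) hz i
  have hpos : 0 < ((n : ℝ) + 1) / n := by
    have : (0 : ℝ) < n := by
      have : 0 < n := by omega
      exact_mod_cast this
    positivity
  have h4 : ((n : ℝ) + 1) / n * ‖z i‖ ^ 2 < ((n : ℝ) + 1) / n * (2 * mass z i ^ 2) := by
    calc ((n : ℝ) + 1) / n * ‖z i‖ ^ 2 < 2 * Del z i := h2
      _ ≤ 2 * (((n : ℝ) + 1) / n * mass z i ^ 2) := by linarith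
      _ = _ := by ring
  exact lt_of_mul_lt_mul_left h4 hpos.le

theorem numData_of_crit {n : ℕ} (hn : 2 ≤ n) (h1 : Bound n) {z : Fin (n + 1) → E n}
    (hz : Crit n z) : NumData n (fun i => mass z i) (fun i => ‖z i‖ ^ 2) (fun i => ‖z i‖) where
  sum_one := hz.mass_sum
  a_nonneg := fun i => measureReal_nonneg
  s_nonneg := fun i => norm_nonneg _
  v_eq := fun i => rfl
  big := hz.gt
  lt := norm_sq_lt hn h1 hz
  hs := fun i => by
    have h := hs_lines (cell z i) (measurableSet_cell_std z i)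
    rw [hz.moment i] at h
    exact h
  select := fun i j1 j2 j3 h1i h2i h3i h12 h13 h23 τ t0 t1 t2 t3 =>
    select_lemma h1 hz i j1 j2 j3 h1i h2i h3i h12 h13 h23 τ t0 t1 t2 t3

theorem caps_four {z : Fin 5 → E 4} (hz : Crit 4 z) (i : Fin 5) :
    ‖z i‖ ≤ (93543 / 100000) * mass z i + 7627 / 100000 ∧
    ‖z i‖ ≤ (76796 / 100000) * mass z i + 11343 / 100000 ∧
    ‖z i‖ ≤ (64606 / 100000) * mass z i + 14591 / 100000 ∧
    ‖z i‖ ≤ (44834 / 100000) * mass z i + 20867 / 100000 := by
  have h := cap_lines_four (cell z i) (measurableSet_cell_std z i) (cell_cone z i)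
  rw [hz.moment i] at h
  exact h

theorem caps_five {z : Fin 6 → E 5} (hz : Crit 5 z) (i : Fin 6) :
    ‖z i‖ ≤ (53194 / 100000) * mass z i + 18235 / 100000 ∧
    ‖z i‖ ≤ (89365 / 100000) * mass z i + 8876 / 100000 := by
  have h := cap_lines_five (cell z i) (measurableSet_cell_std z i) (cell_cone z i)
  rw [hz.moment i] at h
  exact h

end Vale.Agent.Lib.P226
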