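import Vale.Agent.Lib.P226.Basic2

/-!
# P226, module FINAL: from the bound for expected maxima to partitions
-/

namespace Vale.Agent.Lib.P226

open MeasureTheory ProbabilityTheory
open scoped ENNReal

theorem le_iSup_inner {k n : ℕ} (v : Fin k → E n) (i : Fin k) (x : E n) :
    inner ℝ (v i) x ≤ ⨆ j, inner ℝ (v j) x :=
  le_ciSup (f := fun j => inner ℝ (v j) x) (Set.finite_range _).bddAbove i

/-- For a partition the pairing of vectors with the cell moments is at most the expected
maximum. -/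
theorem sum_inner_le_hmax {d k : ℕ} (v : Fin k → E d) (A : Fin k → Set (E d))
    (hA : ∀ i, MeasurableSet (A i)) (hd : Pairwise (Function.onFun Disjoint A))
    (hu : ⋃ i, A i = Set.univ) :
    ∑ i, inner ℝ (v i) (∫ x in A i, x ∂(G d)) ≤ hmax v := by
  have hint : Integrable (fun x : E d => x) (G d) := IsGaussian.integrable_id
  unfold hmax
  have h2 : ∫ x, (⨆ i, inner ℝ (v i) x) ∂(G d) =
      ∑ i, ∫ x in A i, (⨆ i, inner ℝ (v i) x) ∂(G d) := by
    rw [← setIntegral_univ, ← hu,
      integral_iUnion_fintype hA hd fun i => (integrable_iSup_inner v).integrableOn]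
  rw [h2]
  refine Finset.sum_le_sum fun i _ => ?_
  rw [← integral_inner hint.integrableOn]
  exact setIntegral_mono (integrable_inner_std (v i)).integrableOn
    (integrable_iSup_inner v).integrableOn fun x => le_iSup_inner v i x

theorem partition_of_bound {d k : ℕ} (_hk : 0 < k) (hB : Bound k) (A : Fin k → Set (E d))
    (hA : ∀ i, MeasurableSet (A i)) (hd : Pairwise (Function.onFun Disjoint A))
    (hu : ⋃ i, A i = Set.univ) :
    ∑ i, ‖∫ x in A i, x ∂(G d)‖ ^ 2 ≤ C0 := by
  set z : Fin k → E d := fun i => ∫ x in A i, x ∂(G d) with hz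
  have h1 : ∑ i, ‖z i‖ ^ 2 ≤ hmax z := by
    have h2 := sum_inner_le_hmax z A hA hd hu
    refine le_trans (le_of_eq ?_) h2
    exact Finset.sum_congr rfl fun i _ => (real_inner_self_eq_norm_sq (z i)).symm
  have h3 := hB d z
  have h0 : 0 ≤ ∑ i, ‖z i‖ ^ 2 := Finset.sum_nonneg fun i _ => sq_nonneg _
  rcases h0.eq_or_lt with h4 | h4
  · change ∑ i, ‖z i‖ ^ 2 ≤ C0
    rw [← h4]
    unfold C0
    positivity
  · have h5 : (∑ i, ‖z i‖ ^ 2) * (∑ i, ‖z i‖ ^ 2) ≤ C0 * ∑ i, ‖z i‖ ^ 2 := by
      refine le_trans ?_ h3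
      rw [sq]
      exact mul_le_mul h1 h1 h0 (h0.trans h1)
    exact le_of_mul_le_mul_right h5 h4

end Vale.Agent.Lib.P226
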