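import Vale.Agent.Lib.P226.NumCore

/-!
# P226, numeric certificates: general part
-/

namespace Vale.Agent.Lib.P226

/-- smallest mass `i`, the two largest norms `j1`, `j2` among the others, and the rest `R` -/
structure Top {n : ℕ} (a s : Fin (n + 1) → ℝ) (i j1 j2 : Fin (n + 1))
    (R : Finset (Fin (n + 1))) : Prop where
  h1 : j1 ≠ i
  h2 : j2 ≠ i
  h12 : j1 ≠ j2
  card : R.card = n - 2
  mem : ∀ r ∈ R, r ≠ i ∧ r ≠ j1 ∧ r ≠ j2
  min : ∀ l, a i ≤ a l
  s21 : s j2 ≤ s j1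
  rest : ∀ r ∈ R, s r ≤ s j2
  sum : ∀ f : Fin (n + 1) → ℝ, ∑ l, f l = f i + f j1 + f j2 + ∑ r ∈ R, f r

theorem exists_Top {n : ℕ} (hn : 2 ≤ n) (a s : Fin (n + 1) → ℝ) :
    ∃ i j1 j2 R, Top a s i j1 j2 R := by
  obtain ⟨i, j1, j2, R, h1, h2, h3, h4, h5, h6, h7, h8, h9⟩ := exists_top hn a s
  exact ⟨i, j1, j2, R, ⟨h1, h2, h3, h4, h5, h6, h7, h8, h9⟩⟩

variable {n : ℕ} {a s : Fin (n + 1) → ℝ} {i j1 j2 : Fin (n + 1)} {R : Finset (Fin (n + 1))}

theorem rest_nu (D : NData n a s) (T : Top a s i j1 j2 R) (hx : a i ≤ 6 / 100)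
    {r : Fin (n + 1)} (hr : r ∈ R) :
    s r ^ 2 ≤ 1703 / 1000 * a i + 102 / 100 * a i ^ 2 := by
  have h0 := D.s_nonneg r
  have h2 : s r ^ 2 ≤ s j2 ^ 2 := pow_le_pow_left₀ h0 (T.rest r hr) 2
  have h1 : s r ^ 2 ≤ s j1 ^ 2 := pow_le_pow_left₀ h0 ((T.rest r hr).trans T.s21) 2
  obtain ⟨m1, m2, m3⟩ := T.mem r hr
  have h3 := D.sel i j1 j2 r T.h1 T.h2 m1 T.h12 (Ne.symm m2) (Ne.symm m3) (s r ^ 2)
    (sq_nonneg _) h1 h2 le_rfl
  exact nu_bound (sq_nonneg _) (D.lc i) (D.a_nonneg i) hx h3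

/-- if all cells except `j1` have small norm: contradiction -/
theorem no_small (D : NData n a s) (T : Top a s i j1 j2 R)
    (h : ∀ l, l ≠ j1 → s l ^ 2 ≤ 22 / 100 * a l) : False := by
  have hg := D.gt
  rw [T.sum] at hg
  have hsum := D.sum_a
  rw [T.sum] at hsum
  have e1 := h i (Ne.symm T.h1)
  have e2 := h j2 (Ne.symm T.h12)
  have e3 : ∑ r ∈ R, s r ^ 2 ≤ 22 / 100 * ∑ r ∈ R, a r := by
    rw [Finset.mul_sum]
    exact Finset.sum_le_sum fun r hr => h r (T.mem r hr).2.1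
  have hj := D.lc j1
  have hj0 := D.s_nonneg j1
  have hja := D.a_nonneg j1
  have hjc := D.c0 j1
  have e4 : s j1 ^ 2 ≤ 22 / 100 * a j1 + 10 / 100 := by
    rcases le_total (a j1) (28 / 100) with h' | h'
    · have := seg_lc (α := 22 / 100) (β := 10 / 100) hj hja h' (by norm_num) (by norm_num)
      exact this
    · have h3 : s j1 ^ 2 ≤ (39895 / 100000) ^ 2 := pow_le_pow_left₀ hj0 hjc 2
      exact seg_const h3 h' (by norm_num) (by norm_num)
  have : s i ^ 2 + s j1 ^ 2 + s j2 ^ 2 + ∑ r ∈ R, s r ^ 2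
      ≤ 22 / 100 * (a i + a j1 + a j2 + ∑ r ∈ R, a r) + 10 / 100 := by linarith
  rw [hsum] at this
  linarith

/-- the two top cells have mass at least `.11` -/
theorem top_big (D : NData n a s) (T : Top a s i j1 j2 R) :
    11 / 100 ≤ a j1 ∧ 11 / 100 ≤ a j2 := by
  by_contra hc
  rw [not_and_or] at hc
  have hlow : s j2 ^ 2 ≤ 242 / 10000 := by
    rcases hc with hc | hc
    · have h1 := D.lc j1
      have h2 : s j2 ^ 2 ≤ s j1 ^ 2 := pow_le_pow_left₀ (D.s_nonneg j2) T.s21 2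
      have h3 := D.a_nonneg j1
      nlinarith
    · have h1 := D.lc j2
      have h3 := D.a_nonneg j2
      nlinarith
  refine no_small D T fun l hl => ?_
  rcases le_total (a l) (11 / 100) with h | h
  · have h1 := D.lc l
    have h2 := D.a_nonneg l
    nlinarith
  · have hlow' : s l ^ 2 ≤ 242 / 10000 ∨ l = i := by
      by_cases e : l = i
      · exact Or.inr e
      left
      by_cases e2 : l = j2
      · rw [e2]; exact hlow
      have hmem : l ∈ R := by
        by_contra hR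
        have hs := T.sum (fun m => if m = l then (1 : ℝ) else 0)
        rw [Finset.sum_ite_eq' Finset.univ l] at hs
        have hz : ∑ r ∈ R, (if r = l then (1 : ℝ) else 0) = 0 := by
          refine Finset.sum_eq_zero fun r hr => ?_
          rw [if_neg]
          rintro rfl
          exact hR hr
        rw [hz, if_neg (Ne.symm e), if_neg (Ne.symm hl), if_neg (Ne.symm e2)] at hs
        simp at hs
      exact (pow_le_pow_left₀ (D.s_nonneg l) (T.rest l hmem) 2).trans hlow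
    rcases hlow' with hh | hh
    · linarith
    · -- `l = i`, so every mass is at least `.11`
      subst hh
      have h1 := T.min j1
      have h2 := T.min j2
      rcases hc with hc | hc
      · exact absurd (h.trans h1) hc
      · exact absurd (h.trans h2) hc

theorem mix {v ν a α α2 β2 lam : ℝ} (h1 : v ≤ ν) (h2 : v ≤ α2 * a + β2) (hl0 : 0 ≤ lam)
    (hl1 : lam ≤ 1) (hl : lam * α2 = α) :
    v ≤ α * a + ((1 - lam) * ν + lam * β2) := by
  subst hl
  nlinarith [mul_le_mul_of_nonneg_left h1 (sub_nonneg.2 hl1), mul_le_mul_of_nonneg_left h2 hl0]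

/-- the certificate inequality -/
theorem cert (D : NData n a s) (T : Top a s i j1 j2 R) (hx : a i ≤ 11 / 100) (α β mb : ℝ)
    (hbig : ∀ l, 11 / 100 ≤ a l → s l ^ 2 ≤ α * a l + β)
    (hbigR : ∀ r ∈ R, 11 / 100 ≤ a r → s r ^ 2 ≤ α * a r + mb)
    (hα : 2 * (a i + 11 / 100) ≤ α) :
    35809 / 100000 < 2 * a i ^ 2 + α * (1 - a i) + 2 * β
      + ((R.filter (fun r => 11 / 100 ≤ a r)).card : ℝ) * mb
      + ((R.card : ℝ) - ((R.filter (fun r => 11 / 100 ≤ a r)).card : ℝ))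
        * (2 * a i ^ 2 - α * a i) := by
  obtain ⟨b1, b2⟩ := top_big D T
  have hg := D.gt
  rw [T.sum] at hg
  have hsum := D.sum_a
  rw [T.sum] at hsum
  have e1 := hbig j1 b1
  have e2 := hbig j2 b2
  have e0 := D.lc i
  have hsm : ∀ r ∈ R, a r < 11 / 100 → s r ^ 2 ≤ α * a r + (2 * a i ^ 2 - α * a i) := by
    intro r _ h
    have h1 := D.lc r
    have h2 := T.min r
    have h3 : 0 ≤ (α - 2 * (a r + a i)) * (a r - a i) :=
      mul_nonneg (by linarith) (by linarith)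
    nlinarith
  have e3 := rest_sum R a (fun r => s r ^ 2) α mb (2 * a i ^ 2 - α * a i) hbigR hsm
  have e4 : a i + a j1 + a j2 = 1 - ∑ r ∈ R, a r := by linarith
  nlinarith

/-- if all cells are big -/
theorem cert_all (D : NData n a s) (T : Top a s i j1 j2 R) (hx : 11 / 100 ≤ a i) (α β : ℝ)
    (hbig : ∀ l, 11 / 100 ≤ a l → s l ^ 2 ≤ α * a l + β) :
    35809 / 100000 < α + ((n : ℝ) + 1) * β := by
  refine D.gt.trans_le ?_
  have h1 : ∑ l, s l ^ 2 ≤ ∑ l, (α * a l + β) :=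
    Finset.sum_le_sum fun l _ => hbig l (hx.trans (T.min l))
  rw [Finset.sum_add_distrib, ← Finset.mul_sum, D.sum_a, Finset.sum_const, Finset.card_univ,
    Fintype.card_fin, nsmul_eq_mul] at h1
  push_cast at h1
  linarith

end Vale.Agent.Lib.P226
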