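import Vale.Agent.Lib.P226.Defs

/-!
# P226, numeric core: combinatorial and elementary lemmas for the induction step

All statements are about families `a s : Fin (n+1) → ℝ` (masses and norms of the moments).
-/

namespace Vale.Agent.Lib.P226

/-- chord bound on a segment where `s` lies below a line -/
theorem seg_line {s a p c lo hi α β : ℝ} (hs : 0 ≤ s) (h : s ≤ p * a + c) (hlo : lo ≤ a)
    (hhi : a ≤ hi) (h1 : (p * lo + c) ^ 2 ≤ α * lo + β) (h2 : (p * hi + c) ^ 2 ≤ α * hi + β) :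
    s ^ 2 ≤ α * a + β := by
  have h3 : s ^ 2 ≤ (p * a + c) ^ 2 := pow_le_pow_left₀ hs h 2
  refine h3.trans ?_
  rcases (hlo.trans hhi).eq_or_lt with e | e
  · have : a = lo := le_antisymm (by linarith) hlo
    subst this
    exact h1
  · have e' : 0 < hi - lo := sub_pos.2 e
    have key : (hi - lo) * (p * a + c) ^ 2 ≤ (hi - lo) * (α * a + β) := by
      have k1 := mul_le_mul_of_nonneg_left h1 (sub_nonneg.2 hhi)
      have k2 := mul_le_mul_of_nonneg_left h2 (sub_nonneg.2 hlo)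
      have k3 : 0 ≤ p ^ 2 * ((a - lo) * (hi - a) * (hi - lo)) :=
        mul_nonneg (sq_nonneg _)
          (mul_nonneg (mul_nonneg (sub_nonneg.2 hlo) (sub_nonneg.2 hhi)) e'.le)
      nlinarith [k1, k2, k3]
    exact le_of_mul_le_mul_left key e'

/-- chord bound on a segment where `s ^ 2 ≤ 2 a ^ 2` -/
theorem seg_lc {v a lo hi α β : ℝ} (h : v ≤ 2 * a ^ 2) (hlo : lo ≤ a)
    (hhi : a ≤ hi) (h1 : 2 * lo ^ 2 ≤ α * lo + β) (h2 : 2 * hi ^ 2 ≤ α * hi + β) :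
    v ≤ α * a + β := by
  refine h.trans ?_
  rcases (hlo.trans hhi).eq_or_lt with e | e
  · have : a = lo := le_antisymm (by linarith) hlo
    subst this
    exact h1
  · have e' : 0 < hi - lo := sub_pos.2 e
    have key : (hi - lo) * (2 * a ^ 2) ≤ (hi - lo) * (α * a + β) := by
      have k1 := mul_le_mul_of_nonneg_left h1 (sub_nonneg.2 hhi)
      have k2 := mul_le_mul_of_nonneg_left h2 (sub_nonneg.2 hlo)
      have k3 : 0 ≤ 2 * ((a - lo) * (hi - a) * (hi - lo)) :=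
        mul_nonneg (by norm_num)
          (mul_nonneg (mul_nonneg (sub_nonneg.2 hlo) (sub_nonneg.2 hhi)) e'.le)
      nlinarith [k1, k2, k3]
    exact le_of_mul_le_mul_left key e'

/-- constant bound -/
theorem seg_const {v a lo α β N : ℝ} (h : v ≤ N) (hlo : lo ≤ a) (hα : 0 ≤ α)
    (h1 : N ≤ α * lo + β) : v ≤ α * a + β := by
  have := mul_le_mul_of_nonneg_left hlo hα
  linarith

/-- the numerical data extracted from a critical configuration -/
structure NData (n : ℕ) (a s : Fin (n + 1) → ℝ) : Prop where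
  a_nonneg : ∀ i, 0 ≤ a i
  sum_a : ∑ i, a i = 1
  s_nonneg : ∀ i, 0 ≤ s i
  lc : ∀ i, s i ^ 2 ≤ 2 * a i ^ 2
  c0 : ∀ i, s i ≤ 39895 / 100000
  sel : ∀ i j1 j2 j3, j1 ≠ i → j2 ≠ i → j3 ≠ i → j1 ≠ j2 → j1 ≠ j3 → j2 ≠ j3 →
    ∀ τ : ℝ, 0 ≤ τ → τ ≤ s j1 ^ 2 → τ ≤ s j2 ^ 2 → τ ≤ s j3 ^ 2 →
      τ * (τ - s i ^ 2) ≤ (29 / 20) * s i ^ 2
  gt : 35809 / 100000 < ∑ i, s i ^ 2

/-- smallest mass and two largest norms among the others -/
theorem exists_top {n : ℕ} (hn : 2 ≤ n) (a s : Fin (n + 1) → ℝ) :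
    ∃ i j1 j2 : Fin (n + 1), ∃ R : Finset (Fin (n + 1)),
      j1 ≠ i ∧ j2 ≠ i ∧ j1 ≠ j2 ∧ R.card = n - 2 ∧ (∀ r ∈ R, r ≠ i ∧ r ≠ j1 ∧ r ≠ j2) ∧
      (∀ l, a i ≤ a l) ∧ s j2 ≤ s j1 ∧ (∀ r ∈ R, s r ≤ s j2) ∧
      (∀ f : Fin (n + 1) → ℝ, ∑ l, f l = f i + f j1 + f j2 + ∑ r ∈ R, f r) := by
  classical
  obtain ⟨i, -, hi⟩ := Finset.exists_min_image (Finset.univ : Finset (Fin (n + 1))) a
    ⟨0, Finset.mem_univ _⟩
  have hc1 : (Finset.univ.erase i : Finset (Fin (n + 1))).card = n := by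
    rw [Finset.card_erase_of_mem (Finset.mem_univ _), Finset.card_univ, Fintype.card_fin]
    rfl
  obtain ⟨j1, hj1, hm1⟩ := Finset.exists_max_image (Finset.univ.erase i) s
    (Finset.card_pos.1 (by omega))
  have hc2 : ((Finset.univ.erase i).erase j1 : Finset (Fin (n + 1))).card = n - 1 := by
    rw [Finset.card_erase_of_mem hj1, hc1]
  obtain ⟨j2, hj2, hm2⟩ := Finset.exists_max_image ((Finset.univ.erase i).erase j1) s
    (Finset.card_pos.1 (by omega))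
  refine ⟨i, j1, j2, ((Finset.univ.erase i).erase j1).erase j2, ?_, ?_, ?_, ?_, ?_, ?_, ?_, ?_, ?_⟩
  · exact (Finset.mem_erase.1 hj1).1
  · exact (Finset.mem_erase.1 (Finset.mem_erase.1 hj2).2).1
  · exact fun h => (Finset.mem_erase.1 hj2).1 h.symm
  · rw [Finset.card_erase_of_mem hj2, hc2]
    omega
  · intro r hr
    have h1 := Finset.mem_erase.1 hr
    have h2 := Finset.mem_erase.1 h1.2
    have h3 := Finset.mem_erase.1 h2.2
    exact ⟨h3.1, h2.1, h1.1⟩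
  · exact fun l => hi l (Finset.mem_univ _)
  · exact hm1 j2 (Finset.mem_erase.1 hj2).2
  · intro r hr
    exact hm2 r (Finset.mem_erase.1 hr).2
  · intro f
    rw [← Finset.add_sum_erase _ f (Finset.mem_univ i), ← Finset.add_sum_erase _ f hj1,
      ← Finset.add_sum_erase _ f hj2]
    ring

/-- the bound `ν(x)` -/
theorem nu_bound {τ w x : ℝ} (hτ : 0 ≤ τ) (hw : w ≤ 2 * x ^ 2) (hx : 0 ≤ x)
    (hx1 : x ≤ 6 / 100) (h : τ * (τ - w) ≤ (29 / 20) * w) :
    τ ≤ 1703 / 1000 * x + 102 / 100 * x ^ 2 := by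
  have h1 : τ ^ 2 ≤ 2 * x ^ 2 * (29 / 20 + τ) := by nlinarith
  by_contra hc
  push Not at hc
  set B : ℝ := 1703 / 1000 * x + 102 / 100 * x ^ 2 with hB
  have hB0 : x ^ 2 ≤ B := by nlinarith
  have h2 : B ^ 2 - 2 * x ^ 2 * B - 29 / 10 * x ^ 2 ≥ 0 := by
    have : B ^ 2 - 2 * x ^ 2 * B - 29 / 10 * x ^ 2
        = x ^ 2 * ((1703 / 1000 + 102 / 100 * x) ^ 2
          - 2 * x * (1703 / 1000 + 102 / 100 * x) - 29 / 10) := by
      rw [hB]; ring
    rw [this]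
    refine mul_nonneg (sq_nonneg _) ?_
    nlinarith
  nlinarith [mul_pos (sub_pos.2 hc) (sub_pos.2 hc)]

open Finset in
/-- sum over the remaining cells -/
theorem rest_sum {ι : Type*} [DecidableEq ι] (R : Finset ι) (a v : ι → ℝ) (α mb ms : ℝ)
    (hb : ∀ r ∈ R, 11 / 100 ≤ a r → v r ≤ α * a r + mb)
    (hs : ∀ r ∈ R, a r < 11 / 100 → v r ≤ α * a r + ms) :
    ∑ r ∈ R, v r ≤ α * ∑ r ∈ R, a r + ((R.filter (fun r => 11 / 100 ≤ a r)).card : ℝ) * mb
      + ((R.card : ℝ) - ((R.filter (fun r => 11 / 100 ≤ a r)).card : ℝ)) * ms := by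
  classical
  have h1 : ∑ r ∈ R, v r ≤ ∑ r ∈ R, (α * a r + if 11 / 100 ≤ a r then mb else ms) := by
    refine Finset.sum_le_sum fun r hr => ?_
    split_ifs with h
    · exact hb r hr h
    · exact hs r hr (not_le.1 h)
  refine h1.trans (le_of_eq ?_)
  rw [Finset.sum_add_distrib, ← Finset.mul_sum, Finset.sum_ite, Finset.sum_const,
    Finset.sum_const, nsmul_eq_mul, nsmul_eq_mul]
  have h2 : ((R.filter (fun r => 11 / 100 ≤ a r)).card : ℝ)
      + ((R.filter (fun r => ¬ 11 / 100 ≤ a r)).card : ℝ) = R.card := by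
    rw [← Nat.cast_add, Finset.card_filter_add_card_filter_not]
  rw [← h2]
  ring

end Vale.Agent.Lib.P226
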