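import Mathlib

/-!
# Prékopa–Leindler inequality with parameter `1/2` on `Fin n → ℝ`

For measurable `f g h : (Fin n → ℝ) → ℝ≥0∞` with `f x * g y ≤ h ((x + y) / 2) ^ 2` we prove
`(∫⁻ f) * (∫⁻ g) ≤ (∫⁻ h) ^ 2`.
-/

open MeasureTheory Set
open scoped ENNReal

namespace Vale.P226.PL

/-- One-dimensional Brunn–Minkowski for nonempty compact sets. -/
theorem bm_compact {K L C : Set ℝ} (hK : IsCompact K) (hL : IsCompact L)
    (hKn : K.Nonempty) (hLn : L.Nonempty)
    (hC : ∀ x ∈ K, ∀ y ∈ L, x + y ∈ C) : volume K + volume L ≤ volume C := by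
  obtain ⟨a, haK, ha⟩ := hK.exists_isGreatest hKn
  obtain ⟨b, hbL, hb⟩ := hL.exists_isLeast hLn
  have h1 : volume K = volume ((fun x : ℝ => x + b) '' K) := by
    rw [image_add_right, measure_preimage_add_right]
  have h2 : volume L = volume ((fun x : ℝ => a + x) '' L) := by
    rw [image_add_left, measure_preimage_add]
  rw [h1, h2]
  have hd : AEDisjoint volume ((fun x : ℝ => x + b) '' K) ((fun x : ℝ => a + x) '' L) := by
    refine measure_mono_null (t := {a + b}) ?_ (by simp)
    rintro z ⟨⟨x, hx, rfl⟩, ⟨y, hy, hxy⟩⟩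
    simp only [mem_singleton_iff] at *
    have e1 := ha hx
    have e2 := hb hy
    linarith
  have hm : NullMeasurableSet ((fun x : ℝ => a + x) '' L) volume :=
    ((hL.image (continuous_const.add continuous_id)).measurableSet).nullMeasurableSet
  rw [← measure_union₀ hm hd]
  refine measure_mono ?_
  rintro z (⟨x, hx, rfl⟩ | ⟨y, hy, rfl⟩)
  · exact hC x hx b hbL
  · exact hC a haK y hy

/-- One-dimensional Brunn–Minkowski. -/
theorem bm1 {A B C : Set ℝ} (hA : MeasurableSet A) (hB : MeasurableSet B)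
    (hAn : A.Nonempty) (hBn : B.Nonempty)
    (hC : ∀ x ∈ A, ∀ y ∈ B, x + y ∈ C) : volume A + volume B ≤ volume C := by
  obtain ⟨a0, ha0⟩ := hAn
  obtain ⟨b0, hb0⟩ := hBn
  rw [hA.measure_eq_iSup_isCompact volume, hB.measure_eq_iSup_isCompact volume]
  simp only [iSup_and']
  refine ENNReal.biSup_add_biSup_le' (p := fun K : Set ℝ => K ⊆ A ∧ IsCompact K)
    (q := fun K : Set ℝ => K ⊆ B ∧ IsCompact K)
    ⟨∅, empty_subset _, isCompact_empty⟩ ⟨∅, empty_subset _, isCompact_empty⟩ ?_
  rintro K ⟨hKA, hK⟩ L ⟨hLB, hL⟩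
  calc volume K + volume L ≤ volume (insert a0 K) + volume (insert b0 L) :=
        add_le_add (measure_mono (subset_insert _ _)) (measure_mono (subset_insert _ _))
    _ ≤ volume C := by
        refine bm_compact (hK.insert a0) (hL.insert b0) (insert_nonempty _ _)
          (insert_nonempty _ _) ?_
        intro x hx y hy
        exact hC x (insert_subset ha0 hKA hx) y (insert_subset hb0 hLB hy)

/-- Normalised one-dimensional statement (arithmetic mean form). -/
theorem pl_unit {F G H : ℝ → ℝ} (hF : Measurable F) (hG : Measurable G) (hH : Measurable H)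
    (hF0 : ∀ x, 0 ≤ F x) (hG0 : ∀ x, 0 ≤ G x) (hH0 : ∀ x, 0 ≤ H x)
    (hF1 : ∀ x, F x ≤ 1) (hG1 : ∀ x, G x ≤ 1)
    (hFs : ∀ t < 1, ∃ x, t < F x) (hGs : ∀ t < 1, ∃ x, t < G x)
    (h : ∀ x y, F x * G y ≤ H ((x + y) / 2) ^ 2) :
    (∫⁻ x, ENNReal.ofReal (F x)) + ∫⁻ x, ENNReal.ofReal (G x)
      ≤ 2 * ∫⁻ x, ENNReal.ofReal (H x) := by
  rw [lintegral_eq_lintegral_meas_lt volume (Filter.Eventually.of_forall hF0) hF.aemeasurable,
    lintegral_eq_lintegral_meas_lt volume (Filter.Eventually.of_forall hG0) hG.aemeasurable,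
    lintegral_eq_lintegral_meas_lt volume (Filter.Eventually.of_forall hH0) hH.aemeasurable]
  have mF : Measurable (fun t : ℝ => volume {a : ℝ | t < F a}) := by
    refine Antitone.measurable ?_
    intro s t hst
    exact measure_mono fun x (hx : t < F x) => lt_of_le_of_lt hst hx
  have mH : Measurable (fun t : ℝ => volume {a : ℝ | t < H a}) := by
    refine Antitone.measurable ?_
    intro s t hst
    exact measure_mono fun x (hx : t < H x) => lt_of_le_of_lt hst hx
  rw [← lintegral_add_left mF, ← lintegral_const_mul _ mH]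
  refine setLIntegral_mono' measurableSet_Ioi ?_
  intro t ht
  rw [mem_Ioi] at ht
  rcases lt_or_ge t 1 with h1 | h1
  · have e : (2 : ℝ≥0∞) * volume {a : ℝ | t < H a}
        = volume ((fun x : ℝ => x * (1 / 2)) ⁻¹' {a : ℝ | t < H a}) := by
      rw [Real.volume_preimage_mul_right (by norm_num)]
      congr 1
      rw [show |((1 : ℝ) / 2)⁻¹| = 2 by norm_num]
      simp
    rw [e]
    refine bm1 (measurableSet_lt measurable_const hF) (measurableSet_lt measurable_const hG)
      (hFs t h1) (hGs t h1) ?_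
    intro x hx y hy
    simp only [mem_ofPred_eq, mem_preimage] at hx hy ⊢
    have e1 : (x + y) * (1 / 2) = (x + y) / 2 := by ring
    rw [e1]
    by_contra hcon
    rw [not_lt] at hcon
    have e2 := h x y
    have e3 : t * t < F x * G y := mul_lt_mul'' hx hy ht.le ht.le
    have e4 : H ((x + y) / 2) ^ 2 ≤ t * t := by
      rw [sq]
      exact mul_le_mul hcon hcon (hH0 _) ht.le
    linarith
  · have e1 : {a : ℝ | t < F a} = ∅ := by
      ext x; simp only [mem_ofPred_eq, mem_empty_iff_false, iff_false, not_lt]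
      exact (hF1 x).trans h1
    have e2 : {a : ℝ | t < G a} = ∅ := by
      ext x; simp only [mem_ofPred_eq, mem_empty_iff_false, iff_false, not_lt]
      exact (hG1 x).trans h1
    rw [e1, e2]; simp

/-- AM-GM in `ℝ≥0∞`. -/
theorem ennreal_am_gm {a b c : ℝ≥0∞} (h : a + b ≤ 2 * c) : a * b ≤ c ^ 2 := by
  by_cases hc : c = ∞
  · subst hc; simp
  have h2 : (2 : ℝ≥0∞) * c ≠ ∞ := ENNReal.mul_ne_top (by norm_num) hc
  have hab : a + b ≠ ∞ := ne_top_of_le_ne_top h2 h
  have ha : a ≠ ∞ := ne_top_of_le_ne_top hab le_self_add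
  have hb : b ≠ ∞ := ne_top_of_le_ne_top hab le_add_self
  lift a to NNReal using ha
  lift b to NNReal using hb
  lift c to NNReal using hc
  have h' : a + b ≤ 2 * c := by exact_mod_cast h
  have : a * b ≤ c ^ 2 := by
    have h'' : (a : ℝ) + b ≤ 2 * c := by exact_mod_cast h'
    have : (a : ℝ) * b ≤ (c : ℝ) ^ 2 := by
      have := a.coe_nonneg
      have := b.coe_nonneg
      have := c.coe_nonneg
      nlinarith [sq_nonneg ((a : ℝ) - b), mul_self_le_mul_self (by positivity) h'']
    exact_mod_cast this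
  exact_mod_cast this

/-- One-dimensional Prékopa–Leindler for bounded functions. -/
theorem pl1_bdd {f g h : ℝ → ℝ≥0∞} (hf : Measurable f) (hg : Measurable g) (hh : Measurable h)
    (M : ℝ≥0∞) (hM : M ≠ ∞) (hfM : ∀ x, f x ≤ M) (hgM : ∀ x, g x ≤ M)
    (hfg : ∀ x y, f x * g y ≤ h ((x + y) / 2) ^ 2) :
    (∫⁻ x, f x) * (∫⁻ x, g x) ≤ (∫⁻ x, h x) ^ 2 := by
  set a := ⨆ x, f x with ha
  set b := ⨆ x, g x with hb
  have haM : a ≠ ∞ := ne_top_of_le_ne_top hM (iSup_le hfM)
  have hbM : b ≠ ∞ := ne_top_of_le_ne_top hM (iSup_le hgM)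
  have hfa : ∀ x, f x ≤ a := fun x => le_iSup f x
  have hgb : ∀ x, g x ≤ b := fun x => le_iSup g x
  by_cases ha0 : a = 0
  · have : ∀ x, f x = 0 := fun x => le_antisymm ((hfa x).trans_eq ha0) (zero_le)
    simp [this]
  by_cases hb0 : b = 0
  · have : ∀ x, g x = 0 := fun x => le_antisymm ((hgb x).trans_eq hb0) (zero_le)
    simp [this]
  set α := a.toReal with hα
  set β := b.toReal with hβ
  have hα0 : 0 < α := ENNReal.toReal_pos ha0 haM
  have hβ0 : 0 < β := ENNReal.toReal_pos hb0 hbM
  have haα : a = ENNReal.ofReal α := (ENNReal.ofReal_toReal haM).symm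
  have hbβ : b = ENNReal.ofReal β := (ENNReal.ofReal_toReal hbM).symm
  set c := Real.sqrt (α * β) with hc
  have hc0 : 0 < c := Real.sqrt_pos.mpr (mul_pos hα0 hβ0)
  have hcc : c ^ 2 = α * β := Real.sq_sqrt (mul_pos hα0 hβ0).le
  have hft : ∀ x, f x ≠ ∞ := fun x => ne_top_of_le_ne_top haM (hfa x)
  have hgt : ∀ x, g x ≠ ∞ := fun x => ne_top_of_le_ne_top hbM (hgb x)
  let F : ℝ → ℝ := fun x => (f x).toReal / α
  let G : ℝ → ℝ := fun x => (g x).toReal / β
  let k : ℝ → ℝ≥0∞ := fun x => min (h x) (ENNReal.ofReal c)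
  let H : ℝ → ℝ := fun x => (k x).toReal / c
  have hkt : ∀ x, k x ≠ ∞ := fun x => ne_top_of_le_ne_top ENNReal.ofReal_ne_top (min_le_right _ _)
  have hF : Measurable F := hf.ennreal_toReal.div_const _
  have hG : Measurable G := hg.ennreal_toReal.div_const _
  have hk : Measurable k := hh.min measurable_const
  have hH : Measurable H := hk.ennreal_toReal.div_const _
  have eF : ∀ x, ENNReal.ofReal α * ENNReal.ofReal (F x) = f x := by
    intro x
    rw [← ENNReal.ofReal_mul hα0.le]
    simp only [F]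
    rw [mul_div_cancel₀ _ hα0.ne', ENNReal.ofReal_toReal (hft x)]
  have eG : ∀ x, ENNReal.ofReal β * ENNReal.ofReal (G x) = g x := by
    intro x
    rw [← ENNReal.ofReal_mul hβ0.le]
    simp only [G]
    rw [mul_div_cancel₀ _ hβ0.ne', ENNReal.ofReal_toReal (hgt x)]
  have eH : ∀ x, ENNReal.ofReal c * ENNReal.ofReal (H x) = k x := by
    intro x
    rw [← ENNReal.ofReal_mul hc0.le]
    simp only [H]
    rw [mul_div_cancel₀ _ hc0.ne', ENNReal.ofReal_toReal (hkt x)]
  have key := pl_unit hF hG hH (fun x => by positivity) (fun x => by positivity)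
    (fun x => by positivity)
    (fun x => by
      simp only [F]
      rw [div_le_one hα0]
      exact ENNReal.toReal_mono haM (hfa x))
    (fun x => by
      simp only [G]
      rw [div_le_one hβ0]
      exact ENNReal.toReal_mono hbM (hgb x))
    (fun t ht => by
      rcases le_or_gt 0 t with h0 | h0
      · have : ENNReal.ofReal (t * α) < a := by
          rw [haα]
          exact (ENNReal.ofReal_lt_ofReal_iff hα0).2 (by nlinarith)
        obtain ⟨x, hx⟩ := lt_iSup_iff.1 this
        refine ⟨x, ?_⟩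
        simp only [F]
        rw [lt_div_iff₀ hα0]
        exact (ENNReal.ofReal_lt_iff_lt_toReal (by positivity) (hft x)).1 hx
      · exact ⟨0, h0.trans_le (by positivity)⟩)
    (fun t ht => by
      rcases le_or_gt 0 t with h0 | h0
      · have : ENNReal.ofReal (t * β) < b := by
          rw [hbβ]
          exact (ENNReal.ofReal_lt_ofReal_iff hβ0).2 (by nlinarith)
        obtain ⟨x, hx⟩ := lt_iSup_iff.1 this
        refine ⟨x, ?_⟩
        simp only [G]
        rw [lt_div_iff₀ hβ0]
        exact (ENNReal.ofReal_lt_iff_lt_toReal (by positivity) (hgt x)).1 hx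
      · exact ⟨0, h0.trans_le (by positivity)⟩)
    (fun x y => by
      have h1 : f x * g y ≤ k ((x + y) / 2) ^ 2 := by
        rcases le_total (h ((x + y) / 2)) (ENNReal.ofReal c) with h2 | h2
        · simp only [k]; rw [min_eq_left h2]; exact hfg x y
        · simp only [k]; rw [min_eq_right h2, ← ENNReal.ofReal_pow hc0.le, hcc,
            ENNReal.ofReal_mul hα0.le, ← haα, ← hbβ]
          exact mul_le_mul' (hfa x) (hgb y)
      have h3 : (f x).toReal * (g y).toReal ≤ (k ((x + y) / 2)).toReal ^ 2 := by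
        rw [← ENNReal.toReal_mul, ← ENNReal.toReal_pow]
        exact ENNReal.toReal_mono (ENNReal.pow_ne_top (hkt _)) h1
      simp only [F, G, H]
      rw [div_mul_div_comm, div_pow, hcc]
      exact div_le_div_of_nonneg_right h3 (mul_pos hα0 hβ0).le)
  have key2 := ennreal_am_gm key
  have iF : ∫⁻ x, f x = ENNReal.ofReal α * ∫⁻ x, ENNReal.ofReal (F x) := by
    rw [← lintegral_const_mul _ hF.ennreal_ofReal]
    exact lintegral_congr fun x => (eF x).symm
  have iG : ∫⁻ x, g x = ENNReal.ofReal β * ∫⁻ x, ENNReal.ofReal (G x) := by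
    rw [← lintegral_const_mul _ hG.ennreal_ofReal]
    exact lintegral_congr fun x => (eG x).symm
  have iH : ∫⁻ x, k x = ENNReal.ofReal c * ∫⁻ x, ENNReal.ofReal (H x) := by
    rw [← lintegral_const_mul _ hH.ennreal_ofReal]
    exact lintegral_congr fun x => (eH x).symm
  calc (∫⁻ x, f x) * (∫⁻ x, g x)
      = (ENNReal.ofReal α * ENNReal.ofReal β) *
        ((∫⁻ x, ENNReal.ofReal (F x)) * ∫⁻ x, ENNReal.ofReal (G x)) := by
        rw [iF, iG]; ring
    _ ≤ (ENNReal.ofReal α * ENNReal.ofReal β) * (∫⁻ x, ENNReal.ofReal (H x)) ^ 2 :=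
        mul_le_mul' le_rfl key2
    _ = (∫⁻ x, k x) ^ 2 := by
        rw [iH, mul_pow, ← ENNReal.ofReal_pow hc0.le, hcc, ENNReal.ofReal_mul hα0.le]
    _ ≤ (∫⁻ x, h x) ^ 2 := by
        gcongr with x
        exact min_le_left _ _

/-- One-dimensional Prékopa–Leindler with parameter `1/2`. -/
theorem pl1 {f g h : ℝ → ℝ≥0∞} (hf : Measurable f) (hg : Measurable g) (hh : Measurable h)
    (hfg : ∀ x y, f x * g y ≤ h ((x + y) / 2) ^ 2) :
    (∫⁻ x, f x) * (∫⁻ x, g x) ≤ (∫⁻ x, h x) ^ 2 := by
  have hsup : ∀ u : ℝ → ℝ≥0∞, Measurable u →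
      ∫⁻ x, u x = ⨆ N : ℕ, ∫⁻ x, min (u x) (N : ℝ≥0∞) := by
    intro u hu
    rw [← lintegral_iSup (fun N => hu.min measurable_const)]
    · refine lintegral_congr fun x => ?_
      change u x = ⨆ N : ℕ, u x ⊓ (N : ℝ≥0∞)
      rw [← inf_iSup_eq, ENNReal.iSup_natCast, inf_top_eq]
    · intro m n hmn x
      exact min_le_min le_rfl (by exact_mod_cast hmn)
  rw [hsup f hf, hsup g hg, ENNReal.iSup_mul]
  refine iSup_le fun m => ?_
  rw [ENNReal.mul_iSup]
  refine iSup_le fun n => ?_
  refine pl1_bdd (hf.min measurable_const) (hg.min measurable_const) hh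
    ((max m n : ℕ) : ℝ≥0∞) (ENNReal.natCast_ne_top _) ?_ ?_ ?_
  · intro x
    exact (min_le_right _ _).trans (by exact_mod_cast le_max_left m n)
  · intro x
    exact (min_le_right _ _).trans (by exact_mod_cast le_max_right m n)
  · intro x y
    exact (mul_le_mul' (min_le_left _ _) (min_le_left _ _)).trans (hfg x y)

/-- Slicing formula for the Lebesgue integral on `Fin (n+1) → ℝ`. -/
theorem lintegral_slice {n : ℕ} {f : (Fin (n + 1) → ℝ) → ℝ≥0∞} (hf : Measurable f) :
    ∫⁻ x, f x = ∫⁻ s : ℝ, ∫⁻ x : Fin n → ℝ, f (Fin.cons s x) := by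
  have mp := (volume_preserving_piFinSuccAbove (fun _ : Fin (n + 1) => ℝ) 0).symm
  rw [← mp.lintegral_comp hf, Measure.volume_eq_prod, lintegral_prod]
  · refine lintegral_congr fun s => lintegral_congr fun x => ?_
    congr 1
    ext i
    refine Fin.cases ?_ (fun j => ?_) i <;> simp [MeasurableEquiv.piFinSuccAbove]
  · exact (hf.comp (MeasurableEquiv.measurable _)).aemeasurable

theorem measurable_cons {n : ℕ} :
    Measurable (fun p : ℝ × (Fin n → ℝ) => (Fin.cons p.1 p.2 : Fin (n + 1) → ℝ)) := by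
  rw [measurable_pi_iff]
  intro i
  refine Fin.cases ?_ (fun j => ?_) i
  · simpa using measurable_fst
  · simp only [Fin.cons_succ]
    exact (measurable_pi_apply j).comp measurable_snd

theorem measurable_slice {n : ℕ} {f : (Fin (n + 1) → ℝ) → ℝ≥0∞} (hf : Measurable f) :
    Measurable (fun s : ℝ => ∫⁻ x : Fin n → ℝ, f (Fin.cons s x)) :=
  Measurable.lintegral_prod_right' (f := fun p : ℝ × (Fin n → ℝ) => f (Fin.cons p.1 p.2))
    (hf.comp measurable_cons)

/-- **Prékopa–Leindler** with parameter `1/2` on `Fin n → ℝ`. -/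
theorem prekopa_leindler (n : ℕ) {f g h : (Fin n → ℝ) → ℝ≥0∞}
    (hf : Measurable f) (hg : Measurable g) (hh : Measurable h)
    (hfg : ∀ x y, f x * g y ≤ (h ((1 / 2 : ℝ) • (x + y))) ^ 2) :
    (∫⁻ x, f x) * (∫⁻ x, g x) ≤ (∫⁻ x, h x) ^ 2 := by
  induction n with
  | zero =>
    have e : ∀ u : (Fin 0 → ℝ) → ℝ≥0∞, ∫⁻ x, u x = u default := by
      intro u
      rw [lintegral_unique, volume_pi, Measure.pi_of_empty]
      simp only [measure_univ, mul_one]
      congr 1
      exact Subsingleton.elim _ _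
    rw [e, e, e]
    have := hfg default default
    rwa [Subsingleton.elim ((1 / 2 : ℝ) • ((default : Fin 0 → ℝ) + default)) default] at this
  | succ n ih =>
    rw [lintegral_slice hf, lintegral_slice hg, lintegral_slice hh]
    refine pl1 (measurable_slice hf) (measurable_slice hg) (measurable_slice hh) ?_
    intro s t
    refine ih (hf.comp (measurable_cons.comp (measurable_const.prodMk measurable_id)))
      (hg.comp (measurable_cons.comp (measurable_const.prodMk measurable_id)))
      (hh.comp (measurable_cons.comp (measurable_const.prodMk measurable_id))) ?_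
    intro x y
    refine (hfg (Fin.cons s x) (Fin.cons t y)).trans_eq ?_
    congr 2
    ext i
    refine Fin.cases ?_ (fun j => ?_) i
    · simp; ring
    · simp; ring

end Vale.P226.PL
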