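import Vale.Agent.Lib.P226.Pair3

/-!
# The pair lemma
-/

namespace Vale.Agent.Lib.P226

open MeasureTheory ProbabilityTheory Set
open scoped ENNReal

theorem phi0_sq_le : phi0 ^ 2 ≤ 0.15916 := by
  unfold phi0
  rw [inv_pow, Real.sq_sqrt (by positivity)]
  rw [inv_le_comm₀ (by positivity) (by norm_num)]
  have := Real.pi_gt_d4
  norm_num at this ⊢
  linarith

theorem phi0_le : phi0 ≤ 0.39895 := by
  have h := phi0_sq_le
  have h0 := phi0_pos
  nlinarith

/-- The numerical inequality. -/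
theorem pair_numeric {η : ℝ} (h0 : 0 ≤ η) (h1 : η ≤ 2.6829) :
    phi0 ^ 2 * 1.8166 * (1 / 2 + 3 * phi0 * η + 3 / 2 * η ^ 2 + 2 * phi0 * η ^ 3) ≤
      6 * 1.13 * 1.13 ^ 2 := by
  have hp := phi0_pos
  have hp1 := phi0_le
  have hp2 := phi0_sq_le
  have e1 : 1 / 2 + 3 * phi0 * η + 3 / 2 * η ^ 2 + 2 * phi0 * η ^ 3 ≤
      1 / 2 + 3 * 0.39895 * 2.6829 + 3 / 2 * 2.6829 ^ 2 + 2 * 0.39895 * 2.6829 ^ 3 := by
    gcongr
  calc phi0 ^ 2 * 1.8166 * (1 / 2 + 3 * phi0 * η + 3 / 2 * η ^ 2 + 2 * phi0 * η ^ 3) ≤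
      0.15916 * 1.8166 *
        (1 / 2 + 3 * 0.39895 * 2.6829 + 3 / 2 * 2.6829 ^ 2 + 2 * 0.39895 * 2.6829 ^ 3) := by
        gcongr
    _ ≤ _ := by norm_num

theorem integrable_id_G (n : ℕ) : Integrable (fun x : E n => x) (G n) :=
  IsGaussian.integrable_id

theorem integrable_inner_G {n : ℕ} (v : E n) : Integrable (fun x : E n => inner ℝ v x) (G n) :=
  (integrable_id_G n).const_inner v

theorem measurableSet_cell {k n : ℕ} (z : Fin k → E n) (i : Fin k) : MeasurableSet (cell z i) := by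
  unfold cell
  simp only [ofPred_forall]
  refine MeasurableSet.iInter fun j => MeasurableSet.iInter fun _ => ?_
  exact measurableSet_lt (by fun_prop) (by fun_prop)

theorem integral_inner_cell {n : ℕ} {z : Fin (n + 1) → E n} (hz : Crit n z) (i : Fin (n + 1))
    (v : E n) : ∫ x in cell z i, inner ℝ v x ∂(G n) = inner ℝ v (z i) := by
  rw [integral_inner (integrable_id_G n).integrableOn, hz.moment i]

/-- On the cell of index `i` the functional `z i` is positive. -/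
theorem inner_pos_of_mem_cell {n : ℕ} {z : Fin (n + 1) → E n} (hz : Crit n z)
    {i j : Fin (n + 1)} (hij : j ≠ i) {x : E n} (hx : x ∈ cell z i) : 0 < inner ℝ (z i) x := by
  have h1 : ∑ l, inner ℝ (z l) x = 0 := by
    rw [← sum_inner, hz.sum_zero, inner_zero_left]
  have h2 : ∑ l, inner ℝ (z l) x < ∑ l : Fin (n + 1), inner ℝ (z i) x := by
    apply Finset.sum_lt_sum
    · intro l _
      by_cases hl : l = i
      · rw [hl]
      · exact (hx l hl).le
    · exact ⟨j, Finset.mem_univ _, hx j hij⟩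
  rw [h1, Finset.sum_const, Finset.card_univ, Fintype.card_fin, nsmul_eq_mul] at h2
  have h3 : (0 : ℝ) < ((n + 1 : ℕ) : ℝ) := by positivity
  exact (mul_pos_iff_of_pos_left h3).1 h2

theorem orthonormal_three {n : ℕ} {u v w : E n} {a b c : ℝ} (ha : 0 < a) (hb : 0 < b)
    (hc : 0 < c) (hu : ‖u‖ = a) (hv : ‖v‖ = b) (hw : ‖w‖ = c) (huv : inner ℝ u v = 0)
    (huw : inner ℝ u w = 0) (hvw : inner ℝ v w = 0) :
    Orthonormal ℝ ![a⁻¹ • u, b⁻¹ • v, c⁻¹ • w] := by
  have hvu : inner ℝ v u = 0 := by rw [real_inner_comm]; exact huv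
  have hwu : inner ℝ w u = 0 := by rw [real_inner_comm]; exact huw
  have hwv : inner ℝ w v = 0 := by rw [real_inner_comm]; exact hvw
  constructor
  · intro i
    fin_cases i
    · simp [norm_smul, hu, abs_of_pos ha, ha.ne']
    · simp [norm_smul, hv, abs_of_pos hb, hb.ne']
    · simp [norm_smul, hw, abs_of_pos hc, hc.ne']
  · intro i j hij
    fin_cases i <;> fin_cases j <;>
      first
        | exact absurd rfl hij
        | simp [real_inner_smul_left, real_inner_smul_right, huv, huw, hvw, hvu, hwu, hwv]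

theorem pair_core {n : ℕ} {A : Set (E n)} (hA : MeasurableSet A) {f : Fin 3 → E n}
    (hf : Orthonormal ℝ f) {δ p p' α β g : ℝ} (hδ : 0 < δ) (hp : 0 < p) (hp' : 0 < p')
    (hα : 0 < α) (hg : 0 < g) (u v w : E n)
    (hu : ∀ x, inner ℝ u x = δ * inner ℝ (f 0) x)
    (hv : ∀ x, inner ℝ v x = p * inner ℝ (f 0) x - α * inner ℝ (f 1) x)
    (hw : ∀ x, inner ℝ w x = p' * inner ℝ (f 0) x -
      (β * inner ℝ (f 1) x + g * inner ℝ (f 2) x))
    (hAu : ∀ x ∈ A, 0 < inner ℝ u x) (hAv : ∀ x ∈ A, 0 < inner ℝ v x)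
    (hAw : ∀ x ∈ A, 0 < inner ℝ w x)
    (hmu : ∫ x in A, inner ℝ u x ∂(G n) = δ ^ 2)
    (hmv : ∫ x in A, inner ℝ v x ∂(G n) = p * δ)
    (hmw : ∫ x in A, inner ℝ w x ∂(G n) = p' * δ)
    (h : p * p' ≤ 1.8166 * (α * g) * δ) {s : ℝ} (hs1 : 0.7071 ≤ s) (hs3 : s ≤ 1) :
    (G n).real A ≤ s * δ := by
  obtain ⟨η, hη⟩ : ∃ η, η = 3.39 - s := ⟨_, rfl⟩
  have hη0 : 0 ≤ η := by rw [hη]; linarith
  have hη1 : η ≤ 2.6829 := by rw [hη]; linarith
  obtain ⟨c, hc⟩ : ∃ c, c = 1.13 / p := ⟨_, rfl⟩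
  obtain ⟨c', hc'⟩ : ∃ c', c' = 1.13 / p' := ⟨_, rfl⟩
  have hc0 : 0 < c := by rw [hc]; positivity
  have hc0' : 0 < c' := by rw [hc']; positivity
  have iu := (integrable_inner_G u).integrableOn (s := A)
  have iv := (integrable_inner_G v).integrableOn (s := A)
  have iw := (integrable_inner_G w).integrableOn (s := A)
  obtain ⟨W, hW⟩ : ∃ W : E n → ℝ, W = fun x => 1 + (η / δ) * inner ℝ u x - c * inner ℝ v x -
    c' * inner ℝ w x := ⟨_, rfl⟩
  have i1 : IntegrableOn (fun x : E n => 1 + (η / δ) * inner ℝ u x) A (G n) :=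
    (integrable_const _).add (iu.const_mul _)
  have i2 : IntegrableOn (fun x : E n => 1 + (η / δ) * inner ℝ u x - c * inner ℝ v x) A (G n) :=
    i1.sub (iv.const_mul _)
  have iW : IntegrableOn W A (G n) := by
    rw [hW]
    exact i2.sub (iw.const_mul _)
  have hint : ∫ x in A, W x ∂(G n) = (G n).real A + (η - 2.26) * δ := by
    rw [hW, integral_sub i2 (iw.const_mul _), integral_sub i1 (iv.const_mul _),
      integral_add (integrable_const _) (iu.const_mul _), integral_const_mul, integral_const_mul,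
      integral_const_mul, hmu, hmv, hmw, hc, hc']
    simp only [integral_const, measureReal_restrict_apply_univ, smul_eq_mul, mul_one]
    field_simp
    ring
  obtain ⟨K, hK⟩ : ∃ K, K = phi0 ^ 2 / (α * g) * (1 / (6 * c * c')) *
      (1 / 2 + 3 * phi0 * η + 3 / 2 * η ^ 2 + 2 * phi0 * η ^ 3) := ⟨_, rfl⟩
  have hφ := phi0_pos
  have hK0 : 0 ≤ K := by rw [hK]; positivity
  have hle : ∫ x in A, W x ∂(G n) ≤ K := by
    rw [integral_eq_lintegral_pos_part_sub_lintegral_neg_part iW]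
    have e1 : ∫⁻ x in A, ENNReal.ofReal (W x) ∂(G n) ≤ ENNReal.ofReal K := by
      rw [hK]
      refine le_trans ?_ (kernel_bound p p' β hη0 hc0 hc0' hα hg)
      rw [← lintegral_three f hf _ (measurable_ker η c c' p p' α β g),
        ← lintegral_indicator hA]
      apply lintegral_mono
      intro x
      by_cases hx : x ∈ A
      · rw [indicator_of_mem hx]
        have hx0 : 0 < inner ℝ (f 0) x := by
          have := hAu x hx
          rw [hu] at this
          exact (mul_pos_iff_of_pos_left hδ).1 this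
        have hx1 := hAv x hx
        have hx2 := hAw x hx
        rw [hv] at hx1
        rw [hw] at hx2
        show _ ≤ ker η c c' p p' α β g (inner ℝ (f 0) x) (inner ℝ (f 1) x) (inner ℝ (f 2) x)
        unfold ker
        rw [if_pos hx0, if_pos hx1, if_pos hx2]
        apply ENNReal.ofReal_le_ofReal
        apply le_of_eq
        rw [hW]
        show 1 + η / δ * inner ℝ u x - c * inner ℝ v x - c' * inner ℝ w x = _
        rw [hu, hv, hw]
        have : η / δ * (δ * inner ℝ (f 0) x) = η * inner ℝ (f 0) x := by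
          field_simp
        rw [this]
      · rw [indicator_of_notMem hx]
        exact zero_le
    have e2 := ENNReal.toReal_mono ENNReal.ofReal_ne_top e1
    rw [ENNReal.toReal_ofReal hK0] at e2
    have e3 : 0 ≤ (∫⁻ x in A, ENNReal.ofReal (-(W x)) ∂(G n)).toReal :=
      ENNReal.toReal_nonneg
    linarith
  rw [hint] at hle
  have hKle : K ≤ 1.13 * δ := by
    have e2 := pair_numeric hη0 hη1
    obtain ⟨J, hJ⟩ : ∃ J, J = 1 / 2 + 3 * phi0 * η + 3 / 2 * η ^ 2 + 2 * phi0 * η ^ 3 := ⟨_, rfl⟩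
    have hJ0 : 0 ≤ J := by rw [hJ]; positivity
    rw [← hJ] at e2
    have e3 : K = phi0 ^ 2 * J * (p * p') / (6 * 1.13 ^ 2 * (α * g)) := by
      rw [hK, ← hJ, hc, hc']
      field_simp
    rw [e3, div_le_iff₀ (by positivity)]
    calc phi0 ^ 2 * J * (p * p') ≤
        phi0 ^ 2 * J * (1.8166 * (α * g) * δ) := by gcongr
      _ = (phi0 ^ 2 * 1.8166 * J) * ((α * g) * δ) := by ring
      _ ≤ (6 * 1.13 * 1.13 ^ 2) * ((α * g) * δ) := by gcongr
      _ = 1.13 * δ * (6 * 1.13 ^ 2 * (α * g)) := by ring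
  have : (G n).real A + (η - 2.26) * δ ≤ 1.13 * δ := hle.trans hKle
  rw [hη] at this
  linarith

/-- An orthonormal frame adapted to three vectors, the first one orthogonal to the others. -/
theorem pair_frame {n : ℕ} {u ej el : E n} (hu : u ≠ 0) (hej0 : inner ℝ u ej = 0)
    (hel0 : inner ℝ u el = 0) (hD0 : 0 < gram2 ej el) :
    ∃ (f : Fin 3 → E n) (α β g : ℝ), Orthonormal ℝ f ∧ 0 < α ∧ 0 < g ∧
      (α * g) ^ 2 = gram2 ej el ∧ (∀ x, inner ℝ u x = ‖u‖ * inner ℝ (f 0) x) ∧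
      (∀ x, inner ℝ ej x = α * inner ℝ (f 1) x) ∧
      (∀ x, inner ℝ el x = β * inner ℝ (f 1) x + g * inner ℝ (f 2) x) := by
  have hu0 : 0 < ‖u‖ := norm_pos_iff.2 hu
  obtain ⟨α, hα⟩ : ∃ α, α = ‖ej‖ := ⟨_, rfl⟩
  have hα0 : 0 < α := by
    rw [hα]
    apply norm_pos_iff.2
    intro h0
    rw [h0] at hD0
    unfold gram2 at hD0
    simp at hD0
  have hα2 : inner ℝ ej ej = α ^ 2 := by rw [hα, real_inner_self_eq_norm_sq]
  obtain ⟨β, hβ⟩ : ∃ β, β = inner ℝ ej el / α := ⟨_, rfl⟩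
  have hβ' : inner ℝ ej el = β * α := by rw [hβ]; field_simp
  obtain ⟨r, hr⟩ : ∃ r, r = el - (β / α) • ej := ⟨_, rfl⟩
  have hrej : inner ℝ ej r = 0 := by
    rw [hr, inner_sub_right, real_inner_smul_right, hα2, hβ']
    field_simp
    ring
  have hrzi : inner ℝ u r = 0 := by
    rw [hr, inner_sub_right, real_inner_smul_right, hej0, hel0]
    ring
  have hr2 : inner ℝ r r * α ^ 2 = gram2 ej el := by
    have e1 : inner ℝ r r = inner ℝ el r := by
      conv_lhs => rw [hr]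
      rw [inner_sub_left, real_inner_smul_left, ← hr, hrej]
      ring
    rw [e1, hr, inner_sub_right, real_inner_smul_right, real_inner_comm, real_inner_comm ej el,
      hβ']
    unfold gram2
    rw [hβ', ← hα, real_inner_self_eq_norm_sq]
    field_simp
  obtain ⟨g, hg⟩ : ∃ g, g = ‖r‖ := ⟨_, rfl⟩
  have hg2 : inner ℝ r r = g ^ 2 := by rw [hg, real_inner_self_eq_norm_sq]
  have hg0 : 0 < g := by
    rw [hg]
    apply norm_pos_iff.2
    intro h0
    rw [h0, inner_zero_left, zero_mul] at hr2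
    linarith
  refine ⟨![‖u‖⁻¹ • u, α⁻¹ • ej, g⁻¹ • r], α, β, g,
    orthonormal_three hu0 hα0 hg0 rfl hα.symm hg.symm hej0 hrzi hrej, hα0, hg0,
    by rw [← hr2, hg2]; ring, ?_, ?_, ?_⟩
  · intro x
    show _ = ‖u‖ * inner ℝ (‖u‖⁻¹ • u) x
    rw [real_inner_smul_left]
    field_simp
  · intro x
    show _ = α * inner ℝ (α⁻¹ • ej) x
    rw [real_inner_smul_left]
    field_simp
  · intro x
    show _ = β * inner ℝ (α⁻¹ • ej) x + g * inner ℝ (g⁻¹ • r) x
    have : el = r + (β / α) • ej := by rw [hr]; abel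
    rw [this, inner_add_left, real_inner_smul_left, real_inner_smul_left, real_inner_smul_left]
    field_simp
    ring

theorem pair_lemma {n : ℕ} {z : Fin (n + 1) → E n} (hz : Crit n z) (i j l : Fin (n + 1))
    (hij : j ≠ i) (hil : l ≠ i) (hjl : j ≠ l)
    (h : ‖z i‖ ^ 2 * (1 + cc z i j) ^ 2 * (1 + cc z i l) ^ 2
      ≤ (33 / 10) * gram2 (ee z i j) (ee z i l)) :
    2 * mass z i ^ 2 ≤ ‖z i‖ ^ 2 := by
  -- the norm of `z i`
  have hzi : z i ≠ 0 := by
    intro h0
    have := hz.neg i j hij.symm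
    rw [h0, inner_zero_left] at this
    exact lt_irrefl _ this
  obtain ⟨δ, hδ⟩ : ∃ δ, δ = ‖z i‖ := ⟨_, rfl⟩
  have hδ0 : 0 < δ := by rw [hδ]; exact norm_pos_iff.2 hzi
  have hδ2 : inner ℝ (z i) (z i) = δ ^ 2 := by rw [hδ, real_inner_self_eq_norm_sq]
  obtain ⟨cj, hcj⟩ : ∃ c, c = cc z i j := ⟨_, rfl⟩
  obtain ⟨cl, hcl⟩ : ∃ c, c = cc z i l := ⟨_, rfl⟩
  have hcj0 : 0 < cj := by
    rw [hcj]; unfold cc
    exact div_pos (neg_pos.2 (hz.neg i j hij.symm)) (by positivity)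
  have hcl0 : 0 < cl := by
    rw [hcl]; unfold cc
    exact div_pos (neg_pos.2 (hz.neg i l hil.symm)) (by positivity)
  have hcj' : inner ℝ (z i) (z j) = -cj * δ ^ 2 := by
    rw [hcj, hδ]; unfold cc
    field_simp
  have hcl' : inner ℝ (z i) (z l) = -cl * δ ^ 2 := by
    rw [hcl, hδ]; unfold cc
    field_simp
  obtain ⟨ej, hej⟩ : ∃ e, e = ee z i j := ⟨_, rfl⟩
  obtain ⟨el, hel⟩ : ∃ e, e = ee z i l := ⟨_, rfl⟩
  have hej1 : z i - z j = (1 + cj) • z i - ej := by
    rw [hej, hcj, add_smul, one_smul]; unfold ee; abel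
  have hel1 : z i - z l = (1 + cl) • z i - el := by
    rw [hel, hcl, add_smul, one_smul]; unfold ee; abel
  have hej0 : inner ℝ (z i) ej = 0 := by
    rw [hej]; unfold ee
    rw [inner_add_right, real_inner_smul_right, hcj', hδ2, ← hcj]
    ring
  have hel0 : inner ℝ (z i) el = 0 := by
    rw [hel]; unfold ee
    rw [inner_add_right, real_inner_smul_right, hcl', hδ2, ← hcl]
    ring
  rw [← hδ, ← hcj, ← hcl, ← hej, ← hel] at h
  have hD0 : 0 < gram2 ej el := by
    have : 0 < δ ^ 2 * (1 + cj) ^ 2 * (1 + cl) ^ 2 := by positivity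
    linarith
  obtain ⟨f, α, β, g, hf, hα0, hg0, hαg, hf0, hf1, hf2⟩ := pair_frame hzi hej0 hel0 hD0
  rw [← hδ] at hf0
  obtain ⟨s, hs⟩ : ∃ s, s = √2 / 2 := ⟨_, rfl⟩
  have hs2 : 2 * s ^ 2 = 1 := by
    rw [hs, div_pow, Real.sq_sqrt (by norm_num)]
    norm_num
  have hs0 : 0 < s := by rw [hs]; positivity
  have hs1 : 0.7071 ≤ s := by nlinarith
  have hs3 : s ≤ 1 := by nlinarith
  have hfin : mass z i ≤ s * δ := by
    refine pair_core (measurableSet_cell z i) hf (p := (1 + cj) * δ) (p' := (1 + cl) * δ)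
      (α := α) (β := β) (g := g) hδ0 (by positivity) (by positivity) hα0 hg0 (z i) (z i - z j)
      (z i - z l) hf0 ?_ ?_ ?_ ?_ ?_ ?_ ?_ ?_ ?_ hs1 hs3
    · intro x
      rw [hej1, inner_sub_left, real_inner_smul_left, hf0, hf1]
      ring
    · intro x
      rw [hel1, inner_sub_left, real_inner_smul_left, hf0, hf2]
      ring
    · intro x hx
      exact inner_pos_of_mem_cell hz hij hx
    · intro x hx
      rw [inner_sub_left]
      linarith [hx j hij]
    · intro x hx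
      rw [inner_sub_left]
      linarith [hx l hil]
    · rw [integral_inner_cell hz i, hδ2]
    · rw [integral_inner_cell hz i, inner_sub_left, hδ2, real_inner_comm, hcj']
      ring
    · rw [integral_inner_cell hz i, inner_sub_left, hδ2, real_inner_comm, hcl']
      ring
    · have e1 : (1 + cj) * (1 + cl) * δ ≤ 1.8166 * (α * g) := by
        have h0 : 0 ≤ 1.8166 * (α * g) := by positivity
        apply le_of_sq_le_sq _ h0
        calc ((1 + cj) * (1 + cl) * δ) ^ 2 = δ ^ 2 * (1 + cj) ^ 2 * (1 + cl) ^ 2 := by ring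
          _ ≤ 33 / 10 * gram2 ej el := h
          _ ≤ 1.8166 ^ 2 * gram2 ej el := by
            apply mul_le_mul_of_nonneg_right _ hD0.le
            norm_num
          _ = (1.8166 * (α * g)) ^ 2 := by rw [mul_pow, hαg]
      calc (1 + cj) * δ * ((1 + cl) * δ) = ((1 + cj) * (1 + cl) * δ) * δ := by ring
        _ ≤ 1.8166 * (α * g) * δ := by gcongr
  have hm0 : 0 ≤ mass z i := measureReal_nonneg
  rw [← hδ]
  calc 2 * mass z i ^ 2 ≤ 2 * (s * δ) ^ 2 := by gcongr
    _ = (2 * s ^ 2) * δ ^ 2 := by ring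
    _ = δ ^ 2 := by rw [hs2, one_mul]

end Vale.Agent.Lib.P226
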