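import Vale.Agent.Lib.P226.Basic1

/-!
# One dimensional integrals for the pair lemma
-/

namespace Vale.Agent.Lib.P226

open MeasureTheory ProbabilityTheory Set
open scoped ENNReal

/-- `1 / sqrt (2 pi)` -/
noncomputable def phi0 : ℝ := (√(2 * Real.pi))⁻¹

theorem phi0_pos : 0 < phi0 := by unfold phi0; positivity

/-- Three orthonormal coordinates of a Gaussian vector are iid standard Gaussian. -/
theorem lintegral_three {n : ℕ} (f : Fin 3 → E n) (hf : Orthonormal ℝ f)
    (F : ℝ → ℝ → ℝ → ℝ≥0∞) (hF : Measurable (fun p : ℝ × ℝ × ℝ => F p.1 p.2.1 p.2.2)) :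
    ∫⁻ x, F (inner ℝ (f 0) x) (inner ℝ (f 1) x) (inner ℝ (f 2) x) ∂(G n) =
      ∫⁻ a, ∫⁻ b, ∫⁻ c, F a b c ∂(gaussianReal 0 1) ∂(gaussianReal 0 1) ∂(gaussianReal 0 1) := by
  have h1 : ∫⁻ x, F (inner ℝ (f 0) x) (inner ℝ (f 1) x) (inner ℝ (f 2) x) ∂(G n) =
      ∫⁻ y : E 3, F (y 0) (y 1) (y 2) ∂(G 3) := by
    rw [← G_map_orthonormal f hf, lintegral_map]
    · exact hF.comp (f := fun y : E 3 => (y 0, y 1, y 2)) (by fun_prop)
    · fun_prop
  have h2 : ∫⁻ y : E 3, F (y 0) (y 1) (y 2) ∂(G 3) =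
      ∫⁻ w : Fin 3 → ℝ, F (w 0) (w 1) (w 2) ∂(Measure.pi (fun _ => gaussianReal 0 1)) := by
    have : (Measure.pi (fun _ : Fin 3 => gaussianReal 0 1)).map (WithLp.toLp 2) = G 3 :=
      map_pi_eq_stdGaussian
    rw [← this, lintegral_map]
    · exact hF.comp (f := fun y : E 3 => (y 0, y 1, y 2)) (by fun_prop)
    · fun_prop
  have h3 : ∫⁻ w : Fin 3 → ℝ, F (w 0) (w 1) (w 2) ∂(Measure.pi (fun _ => gaussianReal 0 1)) =
      ∫⁻ q : ℝ × (Fin 2 → ℝ), F q.1 (q.2 0) (q.2 1)
        ∂((gaussianReal 0 1).prod (Measure.pi (fun _ => gaussianReal 0 1))) := by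
    have := measurePreserving_piFinSuccAbove (fun _ : Fin 3 => gaussianReal 0 1) 0
    rw [← this.lintegral_comp
      (f := fun q : ℝ × (Fin 2 → ℝ) => F q.1 (q.2 0) (q.2 1))]
    · rfl
    · exact hF.comp (f := fun q : ℝ × (Fin 2 → ℝ) => (q.1, q.2 0, q.2 1)) (by fun_prop)
  have h4 : ∀ a : ℝ, ∫⁻ w : Fin 2 → ℝ, F a (w 0) (w 1)
      ∂(Measure.pi (fun _ => gaussianReal 0 1)) =
      ∫⁻ b, ∫⁻ c, F a b c ∂(gaussianReal 0 1) ∂(gaussianReal 0 1) := by
    intro a
    have := measurePreserving_finTwoArrow (gaussianReal 0 1)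
    rw [← lintegral_prod (fun q : ℝ × ℝ => F a q.1 q.2), ← this.lintegral_comp
      (f := fun q : ℝ × ℝ => F a q.1 q.2)]
    · rfl
    · exact hF.comp (f := fun q : ℝ × ℝ => (a, q.1, q.2)) (by fun_prop)
    · exact (hF.comp (f := fun q : ℝ × ℝ => (a, q.1, q.2)) (by fun_prop)).aemeasurable
  rw [h1, h2, h3, lintegral_prod]
  · simp_rw [h4]
  · exact (hF.comp (f := fun q : ℝ × (Fin 2 → ℝ) => (q.1, q.2 0, q.2 1))
      (by fun_prop)).aemeasurable

/-- The Gaussian density is at most `phi0`. -/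
theorem lintegral_gauss_le (h : ℝ → ℝ≥0∞) (hm : Measurable h) :
    ∫⁻ b, h b ∂(gaussianReal 0 1) ≤ ENNReal.ofReal phi0 * ∫⁻ b, h b := by
  rw [gaussianReal_of_var_ne_zero _ one_ne_zero,
    lintegral_withDensity_eq_lintegral_mul _ (measurable_gaussianPDF _ _) hm,
    ← lintegral_const_mul _ hm]
  apply lintegral_mono
  intro b
  apply mul_le_mul_left
  apply ENNReal.ofReal_le_ofReal
  unfold gaussianPDFReal phi0
  simp only [NNReal.coe_one, mul_one, sub_zero]
  have : Real.exp (-b ^ 2 / 2) ≤ 1 := Real.exp_le_one_iff.2 (by nlinarith [sq_nonneg b])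
  have h2 : 0 ≤ (√(2 * Real.pi))⁻¹ := by positivity
  nlinarith

theorem lintegral_affine {g : ℝ} (hg : 0 < g) (β : ℝ) (h : ℝ → ℝ≥0∞) (hm : Measurable h) :
    ∫⁻ c, h (β + g * c) = ENNReal.ofReal g⁻¹ * ∫⁻ q, h q := by
  have h1 : ∫⁻ c, h (β + g * c) = ∫⁻ u, h (β + u) ∂(Measure.map (g * ·) volume) := by
    rw [lintegral_map]
    · exact hm.comp (by fun_prop)
    · fun_prop
  rw [h1, Real.map_volume_mul_left hg.ne', lintegral_smul_measure, abs_of_pos (inv_pos.2 hg),
    lintegral_add_left_eq_self, smul_eq_mul]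

/-- Integral of a power of a truncated affine function. -/
theorem lintegral_trunc {c : ℝ} (hc : 0 < c) (B : ℝ) (k : ℕ) (hk : 0 < k) :
    ∫⁻ t in Ioi (0 : ℝ), ENNReal.ofReal ((max (B - c * t) 0) ^ k) =
      ENNReal.ofReal ((max B 0) ^ (k + 1) / ((k + 1) * c)) := by
  have hk0 : k ≠ 0 := hk.ne'
  rcases le_or_gt B 0 with hB | hB
  · have h1 : ∀ t ∈ Ioi (0 : ℝ), ENNReal.ofReal ((max (B - c * t) 0) ^ k) = 0 := by
      intro t ht
      have : B - c * t ≤ 0 := by nlinarith [mul_pos hc ht]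
      rw [max_eq_right this, zero_pow hk0, ENNReal.ofReal_zero]
    rw [setLIntegral_congr_fun measurableSet_Ioi h1, max_eq_right hB]
    simp
  · have hBc : 0 < B / c := div_pos hB hc
    rw [← Ioc_union_Ioi_eq_Ioi hBc.le, lintegral_union measurableSet_Ioi
      (Set.disjoint_left.2 fun x hx hx' => (not_lt.2 hx.2) hx')]
    have h1 : ∀ t ∈ Ioi (B / c), ENNReal.ofReal ((max (B - c * t) 0) ^ k) = 0 := by
      intro t ht
      have : B - c * t ≤ 0 := by
        have := (div_lt_iff₀ hc).1 ht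
        linarith
      rw [max_eq_right this, zero_pow hk0, ENNReal.ofReal_zero]
    rw [setLIntegral_congr_fun measurableSet_Ioi h1]
    have h2 : ∀ t ∈ Ioc 0 (B / c), ENNReal.ofReal ((max (B - c * t) 0) ^ k) =
        ENNReal.ofReal ((B - c * t) ^ k) := by
      intro t ht
      have : 0 ≤ B - c * t := by
        have := (le_div_iff₀ hc).1 ht.2
        linarith
      rw [max_eq_left this]
    rw [setLIntegral_congr_fun measurableSet_Ioc h2, max_eq_left hB.le]
    simp only [lintegral_const, zero_mul, add_zero]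
    rw [← ofReal_integral_eq_lintegral_ofReal]
    · congr 1
      rw [← intervalIntegral.integral_of_le hBc.le]
      have h3 : ∀ t ∈ uIcc 0 (B / c), HasDerivAt
          (fun t => -(B - c * t) ^ (k + 1) / ((k + 1) * c)) ((B - c * t) ^ k) t := by
        intro t _
        have h4 : HasDerivAt (fun t : ℝ => B - c * t) (-c) t := by
          simpa using ((hasDerivAt_id t).const_mul c).const_sub B
        have h5 := ((h4.pow (k + 1)).neg).div_const ((k + 1) * c)
        have h6 : -(((k + 1 : ℕ) : ℝ) * (B - c * t) ^ (k + 1 - 1) * -c) / (((k : ℝ) + 1) * c) =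
            (B - c * t) ^ k := by
          have h7 : (0 : ℝ) < (k : ℝ) + 1 := by positivity
          rw [Nat.add_sub_cancel]
          push_cast
          rw [div_eq_iff (by positivity)]
          ring
        rw [h6] at h5
        exact h5
      rw [intervalIntegral.integral_eq_sub_of_hasDerivAt h3]
      · have : B - c * (B / c) = 0 := by field_simp; ring
        rw [this]
        simp
        ring
      · apply Continuous.intervalIntegrable
        fun_prop
    · apply (Continuous.integrableOn_Icc (by fun_prop)).mono_set Ioc_subset_Icc_self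
    · filter_upwards [ae_restrict_mem measurableSet_Ioc] with t ht
      have : 0 ≤ B - c * t := by
        have := (le_div_iff₀ hc).1 ht.2
        linarith
      positivity

end Vale.Agent.Lib.P226
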