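import Vale.Agent.Lib.P226.Pair1

/-!
# Half-line moments of the Gaussian
-/

namespace Vale.Agent.Lib.P226

open MeasureTheory ProbabilityTheory Set
open scoped ENNReal

theorem moment_aux (k : ℕ) : ∫ z in Ioi (0 : ℝ), z ^ k * Real.exp (-(1 / 2) * z ^ 2) =
    (1 / 2 : ℝ) ^ (-((k : ℝ) + 1) / 2) * (1 / 2) * Real.Gamma (((k : ℝ) + 1) / 2) := by
  have hk : (-1 : ℝ) < (k : ℝ) := by
    have : (0 : ℝ) ≤ k := Nat.cast_nonneg k
    linarith
  rw [← integral_rpow_mul_exp_neg_mul_rpow (p := 2) (q := k) (b := 1 / 2) (by norm_num) hk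
    (by norm_num)]
  apply setIntegral_congr_fun measurableSet_Ioi
  intro z _
  simp

theorem moment_zero : ∫ z in Ioi (0 : ℝ), Real.exp (-(1 / 2) * z ^ 2) = √(2 * Real.pi) / 2 := by
  rw [integral_gaussian_Ioi]
  congr 2
  ring

theorem moment_one : ∫ z in Ioi (0 : ℝ), z * Real.exp (-(1 / 2) * z ^ 2) = 1 := by
  have h := moment_aux 1
  simp only [pow_one] at h
  rw [h]
  have e1 : (-((1 : ℕ) + 1 : ℝ) / 2) = -1 := by norm_num
  have e2 : (((1 : ℕ) + 1 : ℝ) / 2) = 1 := by norm_num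
  rw [e1, e2, Real.Gamma_one, Real.rpow_neg_one]
  norm_num

theorem moment_two : ∫ z in Ioi (0 : ℝ), z ^ 2 * Real.exp (-(1 / 2) * z ^ 2) =
    √(2 * Real.pi) / 2 := by
  rw [moment_aux 2]
  have e2 : (((2 : ℕ) + 1 : ℝ) / 2) = 1 / 2 + 1 := by norm_num
  have e1 : (-((2 : ℕ) + 1 : ℝ) / 2) = -(1 / 2 + 1) := by norm_num
  rw [e1, e2, Real.Gamma_add_one (by norm_num), Real.Gamma_one_half_eq, Real.rpow_neg (by norm_num),
    Real.rpow_add (by norm_num), Real.rpow_one, ← Real.sqrt_eq_rpow, Real.sqrt_div (by norm_num),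
    Real.sqrt_one, Real.sqrt_mul (by norm_num)]
  have : √2 ≠ 0 := by positivity
  field_simp

theorem moment_three : ∫ z in Ioi (0 : ℝ), z ^ 3 * Real.exp (-(1 / 2) * z ^ 2) = 2 := by
  rw [moment_aux 3]
  have e1 : (-((3 : ℕ) + 1 : ℝ) / 2) = -2 := by norm_num
  have e2 : (((3 : ℕ) + 1 : ℝ) / 2) = 2 := by norm_num
  rw [e1, e2, Real.Gamma_two, Real.rpow_neg (by norm_num)]
  norm_num

theorem integrable_moment (k : ℕ) :
    IntegrableOn (fun z : ℝ => z ^ k * Real.exp (-(1 / 2) * z ^ 2)) (Ioi 0) := by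
  have hk : (-1 : ℝ) < (k : ℝ) := by
    have : (0 : ℝ) ≤ k := Nat.cast_nonneg k
    linarith
  have h := integrable_rpow_mul_exp_neg_mul_sq (b := 1 / 2) (by norm_num) hk
  simpa using h.integrableOn

/-- third moment of `1 + η z` on the positive half-line -/
theorem lintegral_cubic {η : ℝ} (hη : 0 ≤ η) :
    ∫⁻ z in Ioi (0 : ℝ), ENNReal.ofReal ((1 + η * z) ^ 3) ∂(gaussianReal 0 1) =
      ENNReal.ofReal (1 / 2 + 3 * phi0 * η + 3 / 2 * η ^ 2 + 2 * phi0 * η ^ 3) := by
  have hm : Measurable (fun z : ℝ => ENNReal.ofReal ((1 + η * z) ^ 3)) := by fun_prop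
  rw [gaussianReal_of_var_ne_zero _ one_ne_zero,
    setLIntegral_withDensity_eq_setLIntegral_mul _ (measurable_gaussianPDF _ _) hm
      measurableSet_Ioi]
  have h1 : ∀ z ∈ Ioi (0 : ℝ), ((gaussianPDF 0 1) * fun z => ENNReal.ofReal ((1 + η * z) ^ 3)) z =
      ENNReal.ofReal (phi0 * (z ^ 0 * Real.exp (-(1 / 2) * z ^ 2)) +
        (3 * phi0 * η) * (z ^ 1 * Real.exp (-(1 / 2) * z ^ 2)) +
        (3 * phi0 * η ^ 2) * (z ^ 2 * Real.exp (-(1 / 2) * z ^ 2)) +
        (phi0 * η ^ 3) * (z ^ 3 * Real.exp (-(1 / 2) * z ^ 2))) := by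
    intro z hz
    rw [Pi.mul_apply, gaussianPDF_def, ← ENNReal.ofReal_mul (gaussianPDFReal_nonneg _ _ _)]
    congr 1
    rw [gaussianPDFReal_def]
    simp only [NNReal.coe_one, mul_one, sub_zero]
    have e1 : -z ^ 2 / 2 = -(1 / 2) * z ^ 2 := by ring
    rw [e1]
    unfold phi0
    ring
  have i0 := (integrable_moment 0).const_mul phi0
  have i1 := (integrable_moment 1).const_mul (3 * phi0 * η)
  have i2 := (integrable_moment 2).const_mul (3 * phi0 * η ^ 2)
  have i3 := (integrable_moment 3).const_mul (phi0 * η ^ 3)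
  rw [setLIntegral_congr_fun measurableSet_Ioi h1, ← ofReal_integral_eq_lintegral_ofReal]
  · congr 1
    have s3 := integral_add ((i0.add i1).add i2) i3
    have s2 := integral_add (i0.add i1) i2
    have s1 := integral_add i0 i1
    simp only [Pi.add_apply] at s3 s2 s1
    rw [s3, s2, s1, integral_const_mul, integral_const_mul, integral_const_mul, integral_const_mul,
      moment_two, moment_three]
    simp only [pow_zero, one_mul, pow_one]
    rw [moment_zero, moment_one]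
    have hphi : phi0 * √(2 * Real.pi) = 1 := by
      unfold phi0
      exact inv_mul_cancel₀ (by positivity)
    linear_combination (1 / 2 + 3 / 2 * η ^ 2) * hphi
  · exact ((i0.add i1).add i2).add i3
  · filter_upwards [ae_restrict_mem measurableSet_Ioi] with z hz
    have hz' : 0 < z := hz
    have := phi0_pos
    positivity

end Vale.Agent.Lib.P226
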