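import Vale.Agent.Lib.P226.Pair2

/-!
# The kernel bound for the pair lemma
-/

namespace Vale.Agent.Lib.P226

open MeasureTheory ProbabilityTheory Set
open scoped ENNReal

theorem lintegral_flip (k : ℝ → ℝ≥0∞) (m : ℝ) :
    ∫⁻ q, (if 0 < m - q then k (m - q) else 0) = ∫⁻ t in Ioi (0 : ℝ), k t := by
  have h1 := lintegral_sub_left_eq_self (μ := (volume : Measure ℝ))
    (fun t => if 0 < t then k t else 0) m
  rw [h1, ← lintegral_indicator measurableSet_Ioi]
  apply lintegral_congr
  intro t
  by_cases ht : 0 < t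
  · rw [if_pos ht, indicator_of_mem (mem_Ioi.2 ht)]
  · rw [if_neg ht, indicator_of_notMem (fun h => ht (mem_Ioi.1 h))]

theorem inner_one {c : ℝ} (hc : 0 < c) (B m : ℝ) :
    ∫⁻ q, (if 0 < m - q then ENNReal.ofReal (B - c * (m - q)) else 0) =
      ENNReal.ofReal ((max B 0) ^ 2 / (2 * c)) := by
  rw [lintegral_flip (fun t => ENNReal.ofReal (B - c * t)) m]
  have h := lintegral_trunc hc B 1 one_pos
  have e : ∀ t : ℝ, ENNReal.ofReal ((max (B - c * t) 0) ^ 1) = ENNReal.ofReal (B - c * t) := by
    intro t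
    rw [pow_one]
    rcases le_total (B - c * t) 0 with h | h
    · rw [max_eq_right h, ENNReal.ofReal_zero, ENNReal.ofReal_of_nonpos h]
    · rw [max_eq_left h]
  simp_rw [e] at h
  rw [h]
  norm_num

theorem inner_two {c : ℝ} (hc : 0 < c) {C : ℝ} (hC : 0 ≤ C) (B m : ℝ) :
    ∫⁻ q, (if 0 < m - q then ENNReal.ofReal (C * (max (B - c * (m - q)) 0) ^ 2) else 0) =
      ENNReal.ofReal (C * ((max B 0) ^ 3 / (3 * c))) := by
  rw [lintegral_flip (fun t => ENNReal.ofReal (C * (max (B - c * t) 0) ^ 2)) m]
  have h := lintegral_trunc hc B 2 two_pos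
  have e : ∀ t : ℝ, ENNReal.ofReal (C * (max (B - c * t) 0) ^ 2) =
      ENNReal.ofReal C * ENNReal.ofReal ((max (B - c * t) 0) ^ 2) := by
    intro t
    rw [ENNReal.ofReal_mul hC]
  simp_rw [e]
  rw [lintegral_const_mul _ (by fun_prop), h, ENNReal.ofReal_mul hC]
  norm_num

theorem gauss_affine {g : ℝ} (hg : 0 < g) (β : ℝ) {h : ℝ → ℝ≥0∞} (hm : Measurable h) :
    ∫⁻ c, h (β + g * c) ∂(gaussianReal 0 1) ≤
      ENNReal.ofReal phi0 * (ENNReal.ofReal g⁻¹ * ∫⁻ q, h q) := by
  rw [← lintegral_affine hg β h hm]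
  exact lintegral_gauss_le _ (hm.comp (by fun_prop))

/-- The integrand of the pair lemma in orthonormal coordinates. -/
noncomputable def ker (η c c' p p' α β g a b d : ℝ) : ℝ≥0∞ :=
  if 0 < a then (if 0 < p * a - α * b then (if 0 < p' * a - (β * b + g * d) then
    ENNReal.ofReal (1 + η * a - c * (p * a - α * b) - c' * (p' * a - (β * b + g * d)))
    else 0) else 0) else 0

theorem measurable_ker (η c c' p p' α β g : ℝ) :
    Measurable (fun q : ℝ × ℝ × ℝ => ker η c c' p p' α β g q.1 q.2.1 q.2.2) := by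
  unfold ker
  refine Measurable.ite (measurableSet_lt measurable_const (by fun_prop)) ?_ measurable_const
  refine Measurable.ite (measurableSet_lt measurable_const (by fun_prop)) ?_ measurable_const
  refine Measurable.ite (measurableSet_lt measurable_const (by fun_prop)) ?_ measurable_const
  fun_prop

theorem kernel_bound {η c c' α g : ℝ} (p p' β : ℝ) (hη : 0 ≤ η) (hc : 0 < c) (hc' : 0 < c')
    (hα : 0 < α) (hg : 0 < g) :
    ∫⁻ a, ∫⁻ b, ∫⁻ d, ker η c c' p p' α β g a b d ∂(gaussianReal 0 1) ∂(gaussianReal 0 1)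
      ∂(gaussianReal 0 1) ≤
    ENNReal.ofReal (phi0 ^ 2 / (α * g) * (1 / (6 * c * c')) *
      (1 / 2 + 3 * phi0 * η + 3 / 2 * η ^ 2 + 2 * phi0 * η ^ 3)) := by
  have hφ := phi0_pos
  -- integration over `d`
  have step1 : ∀ a b : ℝ, 0 < a → ∫⁻ d, ker η c c' p p' α β g a b d ∂(gaussianReal 0 1) ≤
      if 0 < p * a - α * b then ENNReal.ofReal ((phi0 / (g * (2 * c'))) *
        (max ((1 + η * a) - c * (p * a - α * b)) 0) ^ 2) else 0 := by
    intro a b ha
    by_cases hb : 0 < p * a - α * b
    · rw [if_pos hb]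
      have e1 : ∀ d, ker η c c' p p' α β g a b d =
          (fun q => if 0 < p' * a - q then
            ENNReal.ofReal (((1 + η * a) - c * (p * a - α * b)) - c' * (p' * a - q)) else 0)
          (β * b + g * d) := by
        intro d
        unfold ker
        rw [if_pos ha, if_pos hb]
      have hm : Measurable (fun q : ℝ => if 0 < p' * a - q then
            ENNReal.ofReal (((1 + η * a) - c * (p * a - α * b)) - c' * (p' * a - q)) else 0) := by
        refine Measurable.ite (measurableSet_lt measurable_const (by fun_prop)) ?_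
          measurable_const
        fun_prop
      rw [lintegral_congr e1]
      refine (gauss_affine hg (β * b) hm).trans ?_
      rw [inner_one hc', ← ENNReal.ofReal_mul (by positivity),
        ← ENNReal.ofReal_mul (by positivity)]
      apply ENNReal.ofReal_le_ofReal
      apply le_of_eq
      field_simp
    · rw [if_neg hb]
      have e1 : ∀ d, ker η c c' p p' α β g a b d = 0 := by
        intro d
        unfold ker
        rw [if_pos ha, if_neg hb]
      simp_rw [e1]
      simp
  -- integration over `b`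
  have step2 : ∀ a : ℝ, 0 < a → ∫⁻ b, ∫⁻ d, ker η c c' p p' α β g a b d ∂(gaussianReal 0 1)
      ∂(gaussianReal 0 1) ≤
      ENNReal.ofReal (phi0 ^ 2 / (α * g) * (1 / (6 * c * c')) * (1 + η * a) ^ 3) := by
    intro a ha
    have hB : 0 ≤ 1 + η * a := by positivity
    refine (lintegral_mono (fun b => step1 a b ha)).trans ?_
    have hm : Measurable (fun q : ℝ => if 0 < p * a - q then
        ENNReal.ofReal ((phi0 / (g * (2 * c'))) * (max ((1 + η * a) - c * (p * a - q)) 0) ^ 2)
        else 0) := by
      refine Measurable.ite (measurableSet_lt measurable_const (by fun_prop)) ?_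
        measurable_const
      fun_prop
    have e1 : ∀ b : ℝ, (if 0 < p * a - α * b then ENNReal.ofReal ((phi0 / (g * (2 * c'))) *
        (max ((1 + η * a) - c * (p * a - α * b)) 0) ^ 2) else 0) =
        (fun q : ℝ => if 0 < p * a - q then
        ENNReal.ofReal ((phi0 / (g * (2 * c'))) * (max ((1 + η * a) - c * (p * a - q)) 0) ^ 2)
        else 0) (0 + α * b) := by
      intro b
      simp only [zero_add]
    rw [lintegral_congr e1]
    refine (gauss_affine hα 0 hm).trans ?_
    rw [inner_two hc (by positivity), ← ENNReal.ofReal_mul (by positivity),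
      ← ENNReal.ofReal_mul (by positivity), max_eq_left hB]
    apply ENNReal.ofReal_le_ofReal
    apply le_of_eq
    field_simp
    ring
  have step3 : ∀ a : ℝ, ∫⁻ b, ∫⁻ d, ker η c c' p p' α β g a b d ∂(gaussianReal 0 1)
      ∂(gaussianReal 0 1) ≤ (Ioi (0 : ℝ)).indicator (fun a =>
        ENNReal.ofReal (phi0 ^ 2 / (α * g) * (1 / (6 * c * c'))) *
          ENNReal.ofReal ((1 + η * a) ^ 3)) a := by
    intro a
    by_cases ha : 0 < a
    · rw [indicator_of_mem (mem_Ioi.2 ha), ← ENNReal.ofReal_mul (by positivity)]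
      exact step2 a ha
    · have e1 : ∀ b d, ker η c c' p p' α β g a b d = 0 := by
        intro b d
        unfold ker
        rw [if_neg ha]
      simp_rw [e1]
      simp
  refine (lintegral_mono step3).trans ?_
  rw [lintegral_indicator measurableSet_Ioi, lintegral_const_mul _ (by fun_prop),
    lintegral_cubic hη, ← ENNReal.ofReal_mul (by positivity)]

end Vale.Agent.Lib.P226
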