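import Mathlib

/-!
# The Gaussian propeller conjecture: definitions used in the statement

* `gaussMoment A` : the Gaussian first gaussMoment `z(A)`, the integral over `A` of `x` against the standard
  Gaussian density of `ℝ^d`
* `IsPartition A` : the cells `A 0, ..., A (k-1)` form a measurable partition up to null sets
* `energy A` : the sum of the squared norms of the moments of the cells
-/

open MeasureTheory

namespace Vale.Agent.Propeller

/-- The Gaussian first gaussMoment of a set, with the Gaussian density written out. -/
noncomputable def gaussMoment {d : ℕ} (A : Set (EuclideanSpace ℝ (Fin d))) :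
    EuclideanSpace ℝ (Fin d) :=
  ∫ x in A, ((2 * Real.pi) ^ (-(d : ℝ) / 2) * Real.exp (-‖x‖ ^ 2 / 2)) • x

/-- Measurable partitions of `ℝ^d` into `k` cells (possibly empty), up to null sets.  The Gaussian
measure and Lebesgue measure have the same null sets. -/
structure IsPartition {d k : ℕ} (A : Fin k → Set (EuclideanSpace ℝ (Fin d))) : Prop where
  measurable : ∀ i, MeasurableSet (A i)
  disjoint : ∀ i j, i ≠ j → volume (A i ∩ A j) = 0
  cover : volume (⋃ i, A i)ᶜ = 0

/-- The sum of the squared norms of the Gaussian first moments of the cells. -/
noncomputable def energy {d k : ℕ} (A : Fin k → Set (EuclideanSpace ℝ (Fin d))) : ℝ :=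
  ∑ i, ‖gaussMoment (A i)‖ ^ 2

end Vale.Agent.Propeller
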