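import Vale.Agent.Lib.P226.Assembly
import Vale.Agent.Lib.P226.Final
import Vale.Agent.Lib.P226.Basic1
import Vale.Agent.Lib.P226.Statement

/-!
# P226: the public form of the theorem
-/

namespace Vale.Agent.Lib.P226

open MeasureTheory ProbabilityTheory Vale.Agent.Propeller
open scoped ENNReal

theorem moment_eq {d : ℕ} (A : Set (E d)) : gaussMoment A = ∫ x in A, x ∂(G d) := by
  rw [G_eq_withDensity, setIntegral_withDensity_eq_setIntegral_toReal_smul']
  · unfold gaussMoment
    refine integral_congr_ae (ae_of_all _ fun x => ?_)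
    simp only
    rw [ENNReal.toReal_ofReal (by positivity)]
  · fun_prop
  · exact ae_of_all _ fun x => ENNReal.ofReal_lt_top

theorem G_absolutelyContinuous (d : ℕ) : G d ≪ (volume : Measure (E d)) := by
  rw [G_eq_withDensity]
  exact withDensity_absolutelyContinuous _ _

/-- The propeller inequality for measurable, essentially disjoint sets. -/
theorem energy_le_of_disjoint {d k : ℕ} (A : Fin k → Set (E d)) (hA : ∀ i, MeasurableSet (A i))
    (hd : ∀ i j, i ≠ j → (volume : Measure (E d)) (A i ∩ A j) = 0) : energy A ≤ C0 := by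
  obtain ⟨t, htm, ht0, htd⟩ := exists_null_pairwise_disjoint_sdiff
    (μ := (volume : Measure (E d))) (s := A) (fun i j hij => hd i j hij)
  set B : Fin k → Set (E d) := fun i => A i \ t i with hB
  have hBm : ∀ i, MeasurableSet (B i) := fun i => (hA i).diff (htm i)
  have hBd : Pairwise (Function.onFun Disjoint B) := htd
  have hmom : ∀ i, gaussMoment (A i) = ∫ x in B i, x ∂(G d) := by
    intro i
    rw [moment_eq]
    refine setIntegral_congr_set ?_
    have h0 : G d (t i) = 0 := G_absolutelyContinuous d (ht0 i)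
    exact (sdiff_null_ae_eq_self h0).symm
  -- complete to a partition
  let D : Fin 3 → Set (E d) := fun j => if j = 0 then (⋃ i, B i)ᶜ else ∅
  let P : Fin (k + 3) → Set (E d) := Fin.append B D
  have hPl : ∀ i : Fin k, P (Fin.castAdd 3 i) = B i := fun i => Fin.append_left B D i
  have hPr : ∀ j : Fin 3, P (Fin.natAdd k j) = D j := fun j => Fin.append_right B D j
  have hPm : ∀ i, MeasurableSet (P i) := by
    intro i
    refine Fin.addCases (fun i => ?_) (fun j => ?_) i
    · rw [hPl]; exact hBm i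
    · rw [hPr]
      simp only [D]
      split_ifs
      · exact (MeasurableSet.iUnion hBm).compl
      · exact MeasurableSet.empty
  have hBD : ∀ i j, Disjoint (B i) (D j) := by
    intro i j
    simp only [D]
    split_ifs
    · rw [Set.disjoint_compl_right_iff_subset]
      exact Set.subset_iUnion B i
    · exact Set.disjoint_empty _
  have hDD : ∀ i j, i ≠ j → Disjoint (D i) (D j) := by
    intro i j hij
    simp only [D]
    split_ifs with h1 h2
    · exact absurd (h1.trans h2.symm) hij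
    · exact Set.disjoint_empty _
    · exact Set.empty_disjoint _
    · exact Set.empty_disjoint _
  have hPd : Pairwise (Function.onFun Disjoint P) := by
    intro i j hij
    revert hij
    refine Fin.addCases (fun i => ?_) (fun i => ?_) i <;>
      refine Fin.addCases (fun j => ?_) (fun j => ?_) j <;> intro hij
    · rw [Function.onFun, hPl, hPl]
      exact hBd fun h => hij (by rw [h])
    · rw [Function.onFun, hPl, hPr]
      exact hBD i j
    · rw [Function.onFun, hPl, hPr]
      exact (hBD j i).symm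
    · rw [Function.onFun, hPr, hPr]
      exact hDD i j fun h => hij (by rw [h])
  have hPu : ⋃ i, P i = Set.univ := by
    rw [Set.eq_univ_iff_forall]
    intro x
    by_cases hx : x ∈ ⋃ i, B i
    · obtain ⟨i, hi⟩ := Set.mem_iUnion.1 hx
      refine Set.mem_iUnion.2 ⟨Fin.castAdd 3 i, ?_⟩
      rw [hPl]
      exact hi
    · refine Set.mem_iUnion.2 ⟨Fin.natAdd k 0, ?_⟩
      rw [hPr]
      simp only [D, if_true]
      exact hx
  have hmain := partition_of_bound (by omega) (bound_all (k + 3) (by omega)) P hPm hPd hPu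
  rw [Fin.sum_univ_add] at hmain
  refine le_trans ?_ hmain
  unfold energy
  have h1 : ∑ i, ‖gaussMoment (A i)‖ ^ 2 =
      ∑ i : Fin k, ‖∫ x in P (Fin.castAdd 3 i), x ∂(G d)‖ ^ 2 :=
    Finset.sum_congr rfl fun i _ => by rw [hmom, hPl]
  rw [h1]
  exact le_add_of_nonneg_right (Finset.sum_nonneg fun i _ => sq_nonneg _)

/-! ### The propeller -/

/-- The first two coordinate vectors. -/
noncomputable def pv0 (m : ℕ) : E (2 + m) := EuclideanSpace.single (Fin.castAdd m 0) 1

/-- The first two coordinate vectors. -/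
noncomputable def pv1 (m : ℕ) : E (2 + m) := EuclideanSpace.single (Fin.castAdd m 1) 1

theorem inner_pv00 (m : ℕ) : inner ℝ (pv0 m) (pv0 m) = (1 : ℝ) := by
  simp [pv0]

theorem inner_pv11 (m : ℕ) : inner ℝ (pv1 m) (pv1 m) = (1 : ℝ) := by
  simp [pv1]

theorem inner_pv01 (m : ℕ) : inner ℝ (pv0 m) (pv1 m) = (0 : ℝ) := by
  have h : Fin.castAdd m (0 : Fin 2) ≠ Fin.castAdd m (1 : Fin 2) := by
    intro h
    have := congrArg Fin.val h
    simp at this
  unfold pv0 pv1
  rw [EuclideanSpace.inner_single_left, PiLp.single_apply, if_neg h]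
  simp

theorem inner_pv10 (m : ℕ) : inner ℝ (pv1 m) (pv0 m) = (0 : ℝ) := by
  rw [real_inner_comm, inner_pv01]

/-- Three unit vectors of a plane at angle `2 π / 3`. -/
noncomputable def blade (m : ℕ) : Fin 3 → E (2 + m) :=
  ![pv0 m, (-1 / 2 : ℝ) • pv0 m + (√3 / 2) • pv1 m, (-1 / 2 : ℝ) • pv0 m - (√3 / 2) • pv1 m]

theorem norm_comb (m : ℕ) (a b : ℝ) : ‖a • pv0 m + b • pv1 m‖ ^ 2 = a ^ 2 + b ^ 2 := by
  rw [← real_inner_self_eq_norm_sq]
  simp only [inner_add_left, inner_add_right, inner_smul_left, inner_smul_right, inner_pv00,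
    inner_pv01, inner_pv10, inner_pv11]
  simp
  ring

theorem hmax_blade (m : ℕ) : hmax (blade m) = 3 * √3 / (2 * √(2 * Real.pi)) := by
  have h3 : √3 ^ 2 = (3 : ℝ) := Real.sq_sqrt (by norm_num)
  have e1 : blade m 0 - blade m 1 = (3 / 2 : ℝ) • pv0 m + (-(√3 / 2)) • pv1 m := by
    simp only [blade, Matrix.cons_val_zero, Matrix.cons_val_one]
    module
  have e2 : blade m 0 - blade m 2 = (3 / 2 : ℝ) • pv0 m + (√3 / 2) • pv1 m := by
    simp only [blade, Matrix.cons_val_zero, Matrix.cons_val]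
    module
  have e3 : blade m 1 - blade m 2 = (0 : ℝ) • pv0 m + √3 • pv1 m := by
    simp only [blade, Matrix.cons_val_one, Matrix.cons_val]
    module
  have n1 : ‖blade m 0 - blade m 1‖ = √3 := by
    rw [e1, ← Real.sqrt_sq (norm_nonneg _), norm_comb]
    congr 1
    nlinarith
  have n2 : ‖blade m 0 - blade m 2‖ = √3 := by
    rw [e2, ← Real.sqrt_sq (norm_nonneg _), norm_comb]
    congr 1
    nlinarith
  have n3 : ‖blade m 1 - blade m 2‖ = √3 := by
    rw [e3, ← Real.sqrt_sq (norm_nonneg _), norm_comb]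
    congr 1
    nlinarith
  rw [hmax_three, n1, n2, n3]
  ring

theorem sum_norm_blade (m : ℕ) : ∑ i, ‖blade m i‖ ^ 2 = 3 := by
  have h3 : √3 ^ 2 = (3 : ℝ) := Real.sq_sqrt (by norm_num)
  have e0 : blade m 0 = (1 : ℝ) • pv0 m + (0 : ℝ) • pv1 m := by
    simp only [blade, Matrix.cons_val_zero]
    module
  have e1 : blade m 1 = (-1 / 2 : ℝ) • pv0 m + (√3 / 2) • pv1 m := by
    simp only [blade, Matrix.cons_val_one]
    rfl
  have e2 : blade m 2 = (-1 / 2 : ℝ) • pv0 m + (-(√3 / 2)) • pv1 m := by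
    simp only [blade, Matrix.cons_val]
    module
  rw [Fin.sum_univ_three, e0, e1, e2, norm_comb, norm_comb, norm_comb]
  nlinarith

/-- Cauchy-Schwarz for families of vectors. -/
theorem sum_inner_sq_le {k n : ℕ} (v z : Fin k → E n) :
    (∑ i, inner ℝ (v i) (z i)) ^ 2 ≤ (∑ i, ‖v i‖ ^ 2) * ∑ i, ‖z i‖ ^ 2 := by
  have h1 : |∑ i, inner ℝ (v i) (z i)| ≤ ∑ i, ‖v i‖ * ‖z i‖ :=
    (Finset.abs_sum_le_sum_abs _ _).trans
      (Finset.sum_le_sum fun i _ => abs_real_inner_le_norm _ _)
  have h2 := Finset.sum_mul_sq_le_sq_mul_sq Finset.univ (fun i => ‖v i‖) (fun i => ‖z i‖)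
  calc (∑ i, inner ℝ (v i) (z i)) ^ 2 = |∑ i, inner ℝ (v i) (z i)| ^ 2 := (sq_abs _).symm
    _ ≤ (∑ i, ‖v i‖ * ‖z i‖) ^ 2 := pow_le_pow_left₀ (abs_nonneg _) h1 2
    _ ≤ _ := h2

theorem exists_propeller (m l : ℕ) :
    ∃ A : Fin (3 + l) → Set (E (2 + m)), IsPartition A ∧ C0 ≤ energy A := by
  let B : Fin 3 → Set (E (2 + m)) := CritAux.tcell (blade m)
  let D : Fin l → Set (E (2 + m)) := fun _ => ∅
  let P : Fin (3 + l) → Set (E (2 + m)) := Fin.append B D
  have hPl : ∀ i : Fin 3, P (Fin.castAdd l i) = B i := fun i => Fin.append_left B D i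
  have hPr : ∀ j : Fin l, P (Fin.natAdd 3 j) = ∅ := fun j => Fin.append_right B D j
  have hBd : Pairwise (Function.onFun Disjoint B) := CritAux.tcell_disjoint (blade m)
  refine ⟨P, ⟨?_, ?_, ?_⟩, ?_⟩
  · intro i
    refine Fin.addCases (fun i => ?_) (fun j => ?_) i
    · rw [hPl]; exact CritAux.measurableSet_tcell _ i
    · rw [hPr]; exact MeasurableSet.empty
  · intro i j
    refine Fin.addCases (fun i => ?_) (fun i => ?_) i <;>
      refine Fin.addCases (fun j => ?_) (fun j => ?_) j <;> intro hij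
    · rw [hPl, hPl]
      have h1 : Disjoint (B i) (B j) := hBd fun h => hij (by rw [h])
      rw [h1.inter_eq, measure_empty]
    · rw [hPr, Set.inter_empty, measure_empty]
    · rw [hPr, Set.empty_inter, measure_empty]
    · rw [hPr, Set.empty_inter, measure_empty]
  · have h1 : ⋃ i, P i = Set.univ := by
      rw [Set.eq_univ_iff_forall]
      intro x
      have hx : x ∈ ⋃ i, B i := by
        rw [CritAux.tcell_union (by norm_num) (blade m)]
        exact Set.mem_univ x
      obtain ⟨i, hi⟩ := Set.mem_iUnion.1 hx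
      refine Set.mem_iUnion.2 ⟨Fin.castAdd l i, ?_⟩
      rw [hPl]
      exact hi
    rw [h1, Set.compl_univ, measure_empty]
  · have h1 : ∑ i, ‖gaussMoment (B i)‖ ^ 2 ≤ energy P := by
      unfold energy
      rw [Fin.sum_univ_add]
      have h2 : ∑ i, ‖gaussMoment (B i)‖ ^ 2 = ∑ i : Fin 3, ‖gaussMoment (P (Fin.castAdd l i))‖ ^ 2 :=
        Finset.sum_congr rfl fun i _ => by rw [hPl]
      rw [h2]
      exact le_add_of_nonneg_right (Finset.sum_nonneg fun i _ => sq_nonneg _)
    refine le_trans ?_ h1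
    have h3 := CritAux.hmax_eq_sum (by norm_num) (blade m)
    have h4 := sum_inner_sq_le (blade m) (fun i => gaussMoment (B i))
    have h5 : ∑ i, inner ℝ (blade m i) (gaussMoment (B i)) = hmax (blade m) := by
      rw [h3]
      exact Finset.sum_congr rfl fun i _ => by rw [moment_eq]
    have hpi : 0 < Real.pi := Real.pi_pos
    have hq1 : √3 ^ 2 = (3 : ℝ) := Real.sq_sqrt (by norm_num)
    have hq2 : √(2 * Real.pi) ^ 2 = 2 * Real.pi := Real.sq_sqrt (by positivity)
    rw [h5, hmax_blade, sum_norm_blade, div_pow, mul_pow, mul_pow, hq1, hq2] at h4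
    have h6 : (3 : ℝ) ^ 2 * 3 / (2 ^ 2 * (2 * Real.pi)) = 3 * (9 / (8 * Real.pi)) := by
      field_simp
      ring
    rw [h6] at h4
    unfold C0
    linarith

/-- The propeller conjecture. -/
theorem propeller :
    (∀ (d k : ℕ) (A : Fin k → Set (E d)), IsPartition A → energy A ≤ 9 / (8 * Real.pi)) ∧
    (∀ d k : ℕ, 2 ≤ d → 3 ≤ k →
      IsGreatest {y : ℝ | ∃ A : Fin k → Set (E d), IsPartition A ∧ energy A = y}
        (9 / (8 * Real.pi))) := by
  have h1 : ∀ (d k : ℕ) (A : Fin k → Set (E d)), IsPartition A →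
      energy A ≤ 9 / (8 * Real.pi) := fun d k A hA =>
    energy_le_of_disjoint A hA.measurable hA.disjoint
  refine ⟨h1, fun d k hd hk => ?_⟩
  obtain ⟨m, rfl⟩ : ∃ m, d = 2 + m := ⟨d - 2, by omega⟩
  obtain ⟨l, rfl⟩ : ∃ l, k = 3 + l := ⟨k - 3, by omega⟩
  refine ⟨?_, ?_⟩
  · obtain ⟨A, hA, h2⟩ := exists_propeller m l
    exact ⟨A, hA, le_antisymm (h1 _ _ A hA) h2⟩
  · rintro y ⟨A, hA, rfl⟩
    exact h1 _ _ A hA

end Vale.Agent.Lib.P226
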