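import Vale.Agent.Lib.P226.SelectAux
import Vale.Agent.Lib.P226.Delete
import Vale.Agent.Lib.P226.LC

/-!
# P226: the selection lemma
-/

namespace Vale.Agent.Lib.P226

open MeasureTheory ProbabilityTheory

theorem select_lemma {n : ℕ} (h1 : Bound n) {z : Fin (n + 1) → E n} (hz : Crit n z)
    (i j1 j2 j3 : Fin (n + 1)) (h1i : j1 ≠ i) (h2i : j2 ≠ i) (h3i : j3 ≠ i)
    (h12 : j1 ≠ j2) (h13 : j1 ≠ j3) (h23 : j2 ≠ j3) (τ : ℝ) (t0 : 0 ≤ τ)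
    (t1 : τ ≤ ‖z j1‖ ^ 2) (t2 : τ ≤ ‖z j2‖ ^ 2) (t3 : τ ≤ ‖z j3‖ ^ 2) :
    τ * (τ - ‖z i‖ ^ 2) < (29 / 20) * ‖z i‖ ^ 2 := by
  have hn : 2 ≤ n := by
    have e1 := Fin.val_ne_of_ne h1i
    have e2 := Fin.val_ne_of_ne h2i
    have e3 := Fin.val_ne_of_ne h12
    have := i.isLt
    have := j1.isLt
    have := j2.isLt
    omega
  have d1 := deletion hn h1 hz i
  have d2 := del_le_mass_sq (by omega : 1 ≤ n) hz i
  have hn0 : (0 : ℝ) < n := by exact_mod_cast (by omega : 0 < n)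
  have hp : (0 : ℝ) < ((n : ℝ) + 1) / n := by positivity
  refine select_of hz i j1 j2 j3 ?_ h1i h2i h3i h12 h13 h23 τ t0 t1 t2 t3
  have d3 : ((n : ℝ) + 1) / n * ‖z i‖ ^ 2 < ((n : ℝ) + 1) / n * (2 * mass z i ^ 2) := by
    linarith
  exact lt_of_mul_lt_mul_left d3 hp.le

end Vale.Agent.Lib.P226
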