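import Vale.Agent.Lib.P226.Pair

/-!
# P226: linear algebra of the selection lemma
-/

namespace Vale.Agent.Lib.P226

open MeasureTheory ProbabilityTheory

/-- `w` is the smallest of the three. -/
lemma w_le_aux (x y w : ℝ) (hw : 1 ≤ w) (hx : w ≤ x) (hy : w ≤ y) (hs : x + y + w ≤ 4) :
    x ^ 2 * y ^ 2 + y ^ 2 * w ^ 2 + x ^ 2 * w ^ 2 ≤ 153 / 16 := by
  have hP : w ^ 2 ≤ x * y := by nlinarith
  have hQ : x * y ≤ (x + y) ^ 2 / 4 := by nlinarith [sq_nonneg (x - y)]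
  have hs0 : 0 ≤ x + y := by linarith
  have hS : (x + y) ^ 2 ≤ (4 - w) ^ 2 := by
    apply pow_le_pow_left₀ hs0
    linarith
  have h1 : (x * y) ^ 2 - 2 * w ^ 2 * (x * y) ≤
      ((x + y) ^ 2 / 4) ^ 2 - 2 * w ^ 2 * ((x + y) ^ 2 / 4) := by
    have : 0 ≤ ((x + y) ^ 2 / 4 - x * y) * ((x + y) ^ 2 / 4 + x * y - 2 * w ^ 2) := by
      apply mul_nonneg <;> linarith
    nlinarith
  have h2 : x ^ 2 * y ^ 2 + y ^ 2 * w ^ 2 + x ^ 2 * w ^ 2 =
      ((x * y) ^ 2 - 2 * w ^ 2 * (x * y)) + w ^ 2 * (x + y) ^ 2 := by ring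
  have h3 : ((x + y) ^ 2) ^ 2 ≤ ((4 - w) ^ 2) ^ 2 := pow_le_pow_left₀ (sq_nonneg _) hS 2
  have h4 : w ^ 2 * (x + y) ^ 2 ≤ w ^ 2 * (4 - w) ^ 2 :=
    mul_le_mul_of_nonneg_left hS (sq_nonneg _)
  have hw2 : w ≤ 4 / 3 := by linarith
  have h5 : ((4 - w) ^ 2) ^ 2 / 16 + w ^ 2 * (4 - w) ^ 2 / 2 ≤ 153 / 16 := by
    obtain ⟨t, rfl⟩ : ∃ t, w = 1 + t := ⟨w - 1, by ring⟩
    have ht0 : 0 ≤ t := by linarith
    have ht1 : t ≤ 1 / 3 := by linarith
    have e : ((4 - (1 + t)) ^ 2) ^ 2 / 16 + (1 + t) ^ 2 * (4 - (1 + t)) ^ 2 / 2 =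
        153 / 16 + t * (-12 + 38 * t - 44 * t ^ 2 + 9 * t ^ 3) / 16 := by ring
    rw [e]
    have : t * (-12 + 38 * t - 44 * t ^ 2 + 9 * t ^ 3) ≤ 0 := by
      apply mul_nonpos_of_nonneg_of_nonpos ht0
      nlinarith [sq_nonneg t, mul_nonneg ht0 (sub_nonneg.2 ht1), sq_nonneg (t - 1 / 3),
        pow_nonneg ht0 3, mul_nonneg (mul_nonneg ht0 ht0) (sub_nonneg.2 ht1)]
    linarith
  rw [h2]
  nlinarith

lemma w_le (a b c : ℝ) (ha : 0 ≤ a) (hb : 0 ≤ b) (hc : 0 ≤ c) (hs : a + b + c ≤ 1) :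
    (1 + a) ^ 2 * (1 + b) ^ 2 + (1 + b) ^ 2 * (1 + c) ^ 2 + (1 + a) ^ 2 * (1 + c) ^ 2 ≤
      153 / 16 := by
  rcases le_total a b with h1 | h1
  · rcases le_total a c with h2 | h2
    · have := w_le_aux (1 + b) (1 + c) (1 + a) (by linarith) (by linarith) (by linarith)
        (by linarith)
      nlinarith
    · have := w_le_aux (1 + a) (1 + b) (1 + c) (by linarith) (by linarith) (by linarith)
        (by linarith)
      nlinarith
  · rcases le_total b c with h2 | h2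
    · have := w_le_aux (1 + a) (1 + c) (1 + b) (by linarith) (by linarith) (by linarith)
        (by linarith)
      nlinarith
    · have := w_le_aux (1 + a) (1 + b) (1 + c) (by linarith) (by linarith) (by linarith)
        (by linarith)
      nlinarith

/-- Gram determinant of three vectors with nonpositive product of the inner products. -/
lemma gram3_ineq {n : ℕ} (u v w : E n) (h12 : inner ℝ u v ≤ 0) (h13 : inner ℝ u w ≤ 0)
    (h23 : inner ℝ v w ≤ 0) :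
    2 * (‖u‖ ^ 2 * ‖v‖ ^ 2 * ‖w‖ ^ 2) ≤
      ‖u‖ ^ 2 * gram2 v w + ‖v‖ ^ 2 * gram2 u w + ‖w‖ ^ 2 * gram2 u v := by
  have hps := (Matrix.posSemidef_gram ℝ ![u, v, w]).det_nonneg
  rw [Matrix.det_fin_three] at hps
  simp only [Matrix.gram_apply, Matrix.cons_val_zero, Matrix.cons_val_one, Matrix.cons_val] at hps
  rw [real_inner_self_eq_norm_sq, real_inner_self_eq_norm_sq, real_inner_self_eq_norm_sq,
    real_inner_comm u v, real_inner_comm u w, real_inner_comm v w] at hps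
  unfold gram2
  have hprod : inner ℝ u v * inner ℝ u w * inner ℝ v w ≤ 0 := by
    have := mul_nonneg_of_nonpos_of_nonpos h12 h13
    exact mul_nonpos_of_nonneg_of_nonpos this h23
  nlinarith

/-- The algebraic core. -/
lemma select_core (d τ A1 A2 A3 c1 c2 c3 G12 G13 G23 : ℝ) (hd : 0 < d) (t0 : 0 ≤ τ)
    (g1 : 0 ≤ c1) (g2 : 0 ≤ c2) (g3 : 0 ≤ c3) (gs : c1 + c2 + c3 ≤ 1)
    (h1 : τ - c1 ^ 2 * d ≤ A1) (h2 : τ - c2 ^ 2 * d ≤ A2) (h3 : τ - c3 ^ 2 * d ≤ A3)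
    (G : 2 * (A1 * A2 * A3) ≤ A1 * G23 + A2 * G13 + A3 * G12)
    (k12 : 33 / 10 * G12 < d * (1 + c1) ^ 2 * (1 + c2) ^ 2)
    (k13 : 33 / 10 * G13 < d * (1 + c1) ^ 2 * (1 + c3) ^ 2)
    (k23 : 33 / 10 * G23 < d * (1 + c2) ^ 2 * (1 + c3) ^ 2) :
    τ * (τ - d) < 29 / 20 * d := by
  by_contra hcon
  push Not at hcon
  -- `τ > d`
  have hτd : d < τ := by
    by_contra hle
    push Not at hle
    have : τ * (τ - d) ≤ 0 := mul_nonpos_of_nonneg_of_nonpos t0 (by linarith)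
    linarith
  have hc1 : c1 ≤ 1 := by linarith
  have hc2 : c2 ≤ 1 := by linarith
  have hc3 : c3 ≤ 1 := by linarith
  have e1 : τ - c1 * d ≤ A1 := by
    have : c1 ^ 2 * d ≤ c1 * d := by
      apply mul_le_mul_of_nonneg_right _ hd.le
      nlinarith
    linarith
  have e2 : τ - c2 * d ≤ A2 := by
    have : c2 ^ 2 * d ≤ c2 * d := by
      apply mul_le_mul_of_nonneg_right _ hd.le
      nlinarith
    linarith
  have e3 : τ - c3 * d ≤ A3 := by
    have : c3 ^ 2 * d ≤ c3 * d := by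
      apply mul_le_mul_of_nonneg_right _ hd.le
      nlinarith
    linarith
  have p1 : 0 < τ - c1 * d := by nlinarith
  have p2 : 0 < τ - c2 * d := by nlinarith
  have p3 : 0 < τ - c3 * d := by nlinarith
  have q1 : 0 < A1 := by linarith
  have q2 : 0 < A2 := by linarith
  have q3 : 0 < A3 := by linarith
  set M := 29 / 20 * d with hM
  have hM0 : 0 < M := by positivity
  have key : ∀ (c c' A A' : ℝ), 0 ≤ c → 0 ≤ c' → c + c' ≤ 1 → 0 < τ - c * d → 0 < τ - c' * d →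
      τ - c * d ≤ A → τ - c' * d ≤ A' → M ≤ A * A' := by
    intro c c' A A' h0 h0' hc p p' h h'
    have a1 : (τ - c * d) * (τ - c' * d) ≤ A * A' :=
      mul_le_mul h h' p'.le (p.le.trans h)
    have a2 : τ * (τ - d) ≤ (τ - c * d) * (τ - c' * d) := by
      have : (τ - c * d) * (τ - c' * d) =
          τ * (τ - d) + τ * d * (1 - (c + c')) + c * c' * d ^ 2 := by ring
      rw [this]
      have b1 : 0 ≤ τ * d * (1 - (c + c')) :=
        mul_nonneg (mul_nonneg t0 hd.le) (by linarith)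
      have b2 : 0 ≤ c * c' * d ^ 2 := by positivity
      linarith
    linarith
  have m12 : M ≤ A1 * A2 := key c1 c2 A1 A2 g1 g2 (by linarith) p1 p2 e1 e2
  have m13 : M ≤ A1 * A3 := key c1 c3 A1 A3 g1 g3 (by linarith) p1 p3 e1 e3
  have m23 : M ≤ A2 * A3 := key c2 c3 A2 A3 g2 g3 (by linarith) p2 p3 e2 e3
  have hW := w_le c1 c2 c3 g1 g2 g3 gs
  -- each term
  have t12 : A3 * G12 * M < (A1 * A2 * A3) * (d * (1 + c1) ^ 2 * (1 + c2) ^ 2 * (10 / 33)) := by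
    have s1 : G12 < d * (1 + c1) ^ 2 * (1 + c2) ^ 2 * (10 / 33) := by linarith
    have s0 : 0 < d * (1 + c1) ^ 2 * (1 + c2) ^ 2 * (10 / 33) := by positivity
    calc A3 * G12 * M = (A3 * M) * G12 := by ring
      _ < (A3 * M) * (d * (1 + c1) ^ 2 * (1 + c2) ^ 2 * (10 / 33)) := by gcongr
      _ ≤ (A3 * (A1 * A2)) * (d * (1 + c1) ^ 2 * (1 + c2) ^ 2 * (10 / 33)) := by gcongr
      _ = _ := by ring
  have t13 : A2 * G13 * M < (A1 * A2 * A3) * (d * (1 + c1) ^ 2 * (1 + c3) ^ 2 * (10 / 33)) := by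
    have s1 : G13 < d * (1 + c1) ^ 2 * (1 + c3) ^ 2 * (10 / 33) := by linarith
    have s0 : 0 < d * (1 + c1) ^ 2 * (1 + c3) ^ 2 * (10 / 33) := by positivity
    calc A2 * G13 * M = (A2 * M) * G13 := by ring
      _ < (A2 * M) * (d * (1 + c1) ^ 2 * (1 + c3) ^ 2 * (10 / 33)) := by gcongr
      _ ≤ (A2 * (A1 * A3)) * (d * (1 + c1) ^ 2 * (1 + c3) ^ 2 * (10 / 33)) := by gcongr
      _ = _ := by ring
  have t23 : A1 * G23 * M < (A1 * A2 * A3) * (d * (1 + c2) ^ 2 * (1 + c3) ^ 2 * (10 / 33)) := by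
    have s1 : G23 < d * (1 + c2) ^ 2 * (1 + c3) ^ 2 * (10 / 33) := by linarith
    have s0 : 0 < d * (1 + c2) ^ 2 * (1 + c3) ^ 2 * (10 / 33) := by positivity
    calc A1 * G23 * M = (A1 * M) * G23 := by ring
      _ < (A1 * M) * (d * (1 + c2) ^ 2 * (1 + c3) ^ 2 * (10 / 33)) := by gcongr
      _ ≤ (A1 * (A2 * A3)) * (d * (1 + c2) ^ 2 * (1 + c3) ^ 2 * (10 / 33)) := by gcongr
      _ = _ := by ring
  have hAAA : 0 < A1 * A2 * A3 := by positivity
  have s1 : 2 * (A1 * A2 * A3) * M ≤ (A1 * G23 + A2 * G13 + A3 * G12) * M := by gcongr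
  have s2 : (A1 * G23 + A2 * G13 + A3 * G12) * M < (A1 * A2 * A3) * (d * (10 / 33) *
      ((1 + c1) ^ 2 * (1 + c2) ^ 2 + (1 + c2) ^ 2 * (1 + c3) ^ 2 +
        (1 + c1) ^ 2 * (1 + c3) ^ 2)) := by
    have r1 : (A1 * G23 + A2 * G13 + A3 * G12) * M =
        A3 * G12 * M + A2 * G13 * M + A1 * G23 * M := by ring
    have r2 : (A1 * A2 * A3) * (d * (10 / 33) *
        ((1 + c1) ^ 2 * (1 + c2) ^ 2 + (1 + c2) ^ 2 * (1 + c3) ^ 2 +
          (1 + c1) ^ 2 * (1 + c3) ^ 2)) =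
        (A1 * A2 * A3) * (d * (1 + c1) ^ 2 * (1 + c2) ^ 2 * (10 / 33)) +
        (A1 * A2 * A3) * (d * (1 + c1) ^ 2 * (1 + c3) ^ 2 * (10 / 33)) +
        (A1 * A2 * A3) * (d * (1 + c2) ^ 2 * (1 + c3) ^ 2 * (10 / 33)) := by ring
    rw [r1, r2]
    exact add_lt_add (add_lt_add t12 t13) t23
  have s3 : (A1 * A2 * A3) * (d * (10 / 33) *
      ((1 + c1) ^ 2 * (1 + c2) ^ 2 + (1 + c2) ^ 2 * (1 + c3) ^ 2 +
        (1 + c1) ^ 2 * (1 + c3) ^ 2)) ≤ (A1 * A2 * A3) * (d * (10 / 33) * (153 / 16)) := by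
    gcongr
  have s4 : 2 * (A1 * A2 * A3) * M < (A1 * A2 * A3) * (d * (10 / 33) * (153 / 16)) :=
    lt_of_le_of_lt s1 (lt_of_lt_of_le s2 s3)
  have s5 : 2 * M < d * (10 / 33) * (153 / 16) := by
    have r3 : 2 * (A1 * A2 * A3) * M = (A1 * A2 * A3) * (2 * M) := by ring
    rw [r3] at s4
    exact lt_of_mul_lt_mul_left s4 hAAA.le
  rw [hM] at s5
  linarith

section

variable {n : ℕ} {z : Fin (n + 1) → E n}

lemma crit_ne_zero (hz : Crit n z) {i j : Fin (n + 1)} (hij : j ≠ i) : z i ≠ 0 := by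
  intro h0
  have := hz.neg i j hij.symm
  rw [h0, inner_zero_left] at this
  exact lt_irrefl _ this

lemma crit_norm_sq_pos (hz : Crit n z) {i j : Fin (n + 1)} (hij : j ≠ i) : 0 < ‖z i‖ ^ 2 := by
  have := norm_pos_iff.2 (crit_ne_zero hz hij)
  positivity

lemma inner_eq_cc (hz : Crit n z) {i j : Fin (n + 1)} (hij : j ≠ i) :
    inner ℝ (z i) (z j) = - cc z i j * ‖z i‖ ^ 2 := by
  have h0 := (crit_norm_sq_pos hz hij).ne'
  unfold cc
  rw [neg_div, neg_neg, div_mul_cancel₀ _ h0]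

lemma cc_pos (hz : Crit n z) {i j : Fin (n + 1)} (hij : j ≠ i) : 0 < cc z i j := by
  have h1 := hz.neg i j hij.symm
  unfold cc
  exact div_pos (by linarith) (crit_norm_sq_pos hz hij)

lemma norm_ee_sq (hz : Crit n z) {i j : Fin (n + 1)} (hij : j ≠ i) :
    ‖ee z i j‖ ^ 2 = ‖z j‖ ^ 2 - cc z i j ^ 2 * ‖z i‖ ^ 2 := by
  have h1 := inner_eq_cc hz hij
  rw [← real_inner_self_eq_norm_sq, ee, inner_add_left, inner_add_right, inner_add_right,
    inner_smul_left, inner_smul_right, inner_smul_left, inner_smul_right,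
    real_inner_self_eq_norm_sq, real_inner_self_eq_norm_sq, real_inner_comm, h1]
  simp only [conj_trivial]
  ring

lemma inner_ee (hz : Crit n z) {i j l : Fin (n + 1)} (hij : j ≠ i) (hil : l ≠ i) :
    inner ℝ (ee z i j) (ee z i l) =
      inner ℝ (z j) (z l) - cc z i j * cc z i l * ‖z i‖ ^ 2 := by
  have h1 := inner_eq_cc hz hij
  have h2 := inner_eq_cc hz hil
  rw [ee, ee, inner_add_left, inner_add_right, inner_add_right,
    inner_smul_left, inner_smul_right, inner_smul_left, inner_smul_right,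
    real_inner_self_eq_norm_sq, real_inner_comm (z i) (z j), h1, h2]
  simp only [conj_trivial]
  ring

lemma inner_ee_neg (hz : Crit n z) {i j l : Fin (n + 1)} (hij : j ≠ i) (hil : l ≠ i)
    (hjl : j ≠ l) : inner ℝ (ee z i j) (ee z i l) ≤ 0 := by
  rw [inner_ee hz hij hil]
  have h1 := hz.neg j l hjl
  have h2 := cc_pos hz hij
  have h3 := cc_pos hz hil
  have h4 := crit_norm_sq_pos hz hij
  have : 0 < cc z i j * cc z i l * ‖z i‖ ^ 2 := by positivity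
  linarith

lemma sum_cc_le (hz : Crit n z) {i j1 j2 j3 : Fin (n + 1)} (h1 : j1 ≠ i) (h2 : j2 ≠ i)
    (h3 : j3 ≠ i) (h12 : j1 ≠ j2) (h13 : j1 ≠ j3) (h23 : j2 ≠ j3) :
    cc z i j1 + cc z i j2 + cc z i j3 ≤ 1 := by
  classical
  have hd := crit_norm_sq_pos hz h1
  have hsum : ∑ j ∈ Finset.univ.erase i, cc z i j = 1 := by
    have e1 : ∑ j, inner ℝ (z i) (z j) = 0 := by
      rw [← inner_sum, hz.sum_zero, inner_zero_right]
    rw [← Finset.add_sum_erase _ _ (Finset.mem_univ i), real_inner_self_eq_norm_sq] at e1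
    have e2 : ∑ j ∈ Finset.univ.erase i, inner ℝ (z i) (z j) =
        - (∑ j ∈ Finset.univ.erase i, cc z i j) * ‖z i‖ ^ 2 := by
      rw [neg_mul, Finset.sum_mul, ← Finset.sum_neg_distrib]
      apply Finset.sum_congr rfl
      intro j hj
      rw [inner_eq_cc hz (Finset.ne_of_mem_erase hj)]
      ring
    rw [e2] at e1
    have e3 : (1 - ∑ j ∈ Finset.univ.erase i, cc z i j) * ‖z i‖ ^ 2 = 0 := by linarith
    rcases mul_eq_zero.1 e3 with e4 | e4
    · linarith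
    · exact absurd e4 hd.ne'
  have hsub : ({j1, j2, j3} : Finset (Fin (n + 1))) ⊆ Finset.univ.erase i := by
    intro j hj
    simp only [Finset.mem_insert, Finset.mem_singleton] at hj
    rw [Finset.mem_erase]
    refine ⟨?_, Finset.mem_univ _⟩
    rcases hj with rfl | rfl | rfl <;> assumption
  have hle := Finset.sum_le_sum_of_subset_of_nonneg (f := fun j => cc z i j) hsub (by
    intro j hj _
    exact (cc_pos hz (Finset.ne_of_mem_erase hj)).le)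
  rw [hsum] at hle
  rw [Finset.sum_insert (by simp [h12, h13]), Finset.sum_insert (by simp [h23]),
    Finset.sum_singleton] at hle
  linarith

end

/-- The selection lemma, given the bound of the norm by the mass. -/
theorem select_of {n : ℕ} {z : Fin (n + 1) → E n} (hz : Crit n z)
    (i j1 j2 j3 : Fin (n + 1)) (hm : ‖z i‖ ^ 2 < 2 * mass z i ^ 2)
    (h1i : j1 ≠ i) (h2i : j2 ≠ i) (h3i : j3 ≠ i)
    (h12 : j1 ≠ j2) (h13 : j1 ≠ j3) (h23 : j2 ≠ j3) (τ : ℝ) (t0 : 0 ≤ τ)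
    (t1 : τ ≤ ‖z j1‖ ^ 2) (t2 : τ ≤ ‖z j2‖ ^ 2) (t3 : τ ≤ ‖z j3‖ ^ 2) :
    τ * (τ - ‖z i‖ ^ 2) < (29 / 20) * ‖z i‖ ^ 2 := by
  have hd := crit_norm_sq_pos hz h1i
  have hp : ∀ j l : Fin (n + 1), j ≠ i → l ≠ i → j ≠ l →
      33 / 10 * gram2 (ee z i j) (ee z i l) <
        ‖z i‖ ^ 2 * (1 + cc z i j) ^ 2 * (1 + cc z i l) ^ 2 := by
    intro j l hj hl hjl
    by_contra hcon
    push Not at hcon
    have := pair_lemma hz i j l hj hl hjl hcon
    linarith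
  have hG := gram3_ineq (ee z i j1) (ee z i j2) (ee z i j3) (inner_ee_neg hz h1i h2i h12)
    (inner_ee_neg hz h1i h3i h13) (inner_ee_neg hz h2i h3i h23)
  refine select_core (‖z i‖ ^ 2) τ (‖ee z i j1‖ ^ 2) (‖ee z i j2‖ ^ 2) (‖ee z i j3‖ ^ 2)
    (cc z i j1) (cc z i j2) (cc z i j3) (gram2 (ee z i j1) (ee z i j2))
    (gram2 (ee z i j1) (ee z i j3)) (gram2 (ee z i j2) (ee z i j3)) hd t0
    (cc_pos hz h1i).le (cc_pos hz h2i).le (cc_pos hz h3i).le
    (sum_cc_le hz h1i h2i h3i h12 h13 h23) ?_ ?_ ?_ hG (hp j1 j2 h1i h2i h12)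
    (hp j1 j3 h1i h3i h13) (hp j2 j3 h2i h3i h23)
  · rw [norm_ee_sq hz h1i]
    linarith
  · rw [norm_ee_sq hz h2i]
    linarith
  · rw [norm_ee_sq hz h3i]
    linarith

end Vale.Agent.Lib.P226
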